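import Vale.Agent.P284.H551.L4F

/-!
# P284 (helper551), L4: the limit form and its potential on the covering space
-/

open scoped Manifold ContDiff Topology InnerProductSpace ENNReal ComplexConjugate
open Filter Set Metric MeasureTheory

noncomputable section

namespace Vale.Agent.P284.H551

open Vale.Agent.P272.K Vale.Agent.P284.H894 Vale.Agent.P284.H894.G
  Vale.Agent.P284.H894.V Vale.Agent.P284.H366 Vale.Agent.P284.H513.V

section
variable {n : ℕ} {Γ X E : Type} [Group Γ] [TopologicalSpace X] [ChartedSpace (Cm n) X]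
    [TopologicalSpace E] [MulAction Γ E] {p : E → X}
    {H : ℕ → Type} [∀ k, NormedAddCommGroup (H k)]
    [∀ k, InnerProductSpace ℂ (H k)] {C : Coc n Γ} {U : Ultrafilter ℕ}
    {π : ∀ k, Γ →* (H k ≃ₗᵢ[ℂ] H k)} {b : ∀ k, Γ → H k} {u : ∀ k, Γ → C.I → Cm n → H k}

/-- the potential -/
def pote (hG : IsGalois Γ p) (D : ECoc p C) (Dm : MD C) (U : Ultrafilter ℕ)
    (u : ∀ k, Γ → C.I → Cm n → H k) (c : ∀ k, H k) (y : E) : UP H U :=
  slim U Dm.η (fun k z => u k (D.exists_sheet hG y).choose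
    (D.exists_sheet hG y).choose_spec.choose z - c k)
    (D.e (D.exists_sheet hG y).choose_spec.choose (p y))

variable [∀ k, CompleteSpace (H k)] (hG : IsGalois Γ p) (D : ECoc p C)

include hG in
/-- the potential in terms of any sheet -/
theorem pote_eq (h : PHSeqV C U π b u) (Dm : MD C) {c : ∀ k, H k}
    (hc : ∀ γ a, ∃ A : ℝ, ∀ k, ∫ z in C.V a, ‖u k γ a z - c k‖ ^ 2 ≤ A) (γ : Γ) {a : C.I}
    {z : Cm n} (hz : z ∈ Dm.Q a) : pote hG D Dm U u c (γ • D.σ a z) =
      slim U Dm.η (fun k z => u k γ a z - c k) z := by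
  unfold pote
  set y := γ • D.σ a z with hy
  set γ' := (D.exists_sheet hG y).choose with hγ'
  set d := (D.exists_sheet hG y).choose_spec.choose with hd
  obtain ⟨h1, h2, h3⟩ := (D.exists_sheet hG y).choose_spec.choose_spec
  rw [← hd] at h1 h2 h3
  rw [← hγ'] at h3
  have hzΩ := V_sub_Ω C a (Dm.Q_sub a hz)
  have h2Q := Dm.W_sub d h2
  have h2Ω := V_sub_Ω C d (Dm.Q_sub d h2Q)
  obtain ⟨hO, hT, hκ⟩ := D.eq_imp hG hzΩ h2Ω (h3.symm : γ • D.σ a z = _)
  have A1 : Appr U z _ _ := (h.plseq Dm hc γ a).appr Dm.mol le_rfl hz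
  have A2 : Appr U (C.T a d z) _ _ := (h.plseq Dm hc γ' d).appr Dm.mol le_rfl
    (by rw [hT]; exact h2Q)
  have A3 := A2.comp_T C hO (Dm.Q_sub a hz) (by rw [hT]; exact Dm.Q_sub d h2Q)
  have A4 := A3.congr (Eventually.of_forall fun _ _ => rfl)
    (φ' := fun k z => u k γ a z - c k) (by
      filter_upwards [h.comp_ev γ a d hO (Dm.Q_sub a hz) (by rw [hT]; exact Dm.Q_sub d h2Q)]
        with x hx k
      rw [hx k, hκ])
  have A5 := A4.mk_eq A1
  rw [hT] at A5
  exact A5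

include hG in
theorem pote_loc (h : PHSeqV C U π b u) (Dm : MD C) {c : ∀ k, H k}
    (hc : ∀ γ a, ∃ A : ℝ, ∀ k, ∫ z in C.V a, ‖u k γ a z - c k‖ ^ 2 ≤ A) (γ : Γ) {a : C.I}
    {z : Cm n} (hz : z ∈ Dm.Q a) : ∀ᶠ y' in 𝓝 (γ • D.σ a z), pote hG D Dm U u c y' =
      slim U Dm.η (fun k z => u k γ a z - c k) (D.e a (p y')) := by
  have hzΩ := V_sub_Ω C a (Dm.Q_sub a hz)
  have hcπ : ContinuousAt p (γ • D.σ a z) := hG.cov.continuous.continuousAt
  have hpy : p (γ • D.σ a z) = (D.e a).symm z := D.proj' hG γ hzΩ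
  have hea : ContinuousAt (fun y => D.e a (p y)) (γ • D.σ a z) := by
    refine ContinuousAt.comp ?_ hcπ
    rw [hpy]
    exact (D.e a).continuousAt (D.source hzΩ)
  have h1 : ∀ᶠ y' in 𝓝 (γ • D.σ a z), D.e a (p y') ∈ Dm.Q a := by
    refine hea.eventually ?_
    show ∀ᶠ y' in 𝓝 (D.e a (p (γ • D.σ a z))), y' ∈ Dm.Q a
    rw [D.e_proj hG γ hzΩ]
    exact (Dm.Q_open a).mem_nhds hz
  filter_upwards [h1, D.ev hG γ hzΩ] with y' h3 h5
  have h6 := pote_eq hG D h Dm hc γ h3
  rw [h5.2.2] at h6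
  exact h6

/-- mollification of an affine expression -/
lemma mv_aff {E₁ E₂ : Type*} [NormedAddCommGroup E₁] [NormedSpace ℂ E₁] [CompleteSpace E₁]
    [NormedAddCommGroup E₂] [NormedSpace ℂ E₂] [CompleteSpace E₂] {c : Cm n} {R r δ : ℝ}
    {η Θ : Cm n → ℝ} (m : Mol δ η Θ) (hR : r + δ ≤ R) {z : Cm n} (hz : z ∈ ball c r)
    {g : Cm n → E₁} (hg : ContinuousOn g (ball c R)) (l : E₁ →L[ℂ] E₂) (d : E₂) :
    mv η (fun y => l (g y) + d) z = l (mv η g z) + d := by
  rw [mv_add m hR hz (F := fun y => l (g y)) (G := fun _ => d)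
    (l.continuous.comp_continuousOn hg) continuousOn_const, mv_clm_loc m hR hz hg l]
  congr 1
  show ∫ t, η t • d = d
  rw [integral_smul_const, m.one, one_smul]

include hG D in
/-- equivariance of the potential -/
theorem pote_equiv (h : PHSeqV C U π b u) (Dm : MD C) {c : ∀ k, H k}
    (hc : ∀ γ a, ∃ A : ℝ, ∀ k, ∫ z in C.V a, ‖u k γ a z - c k‖ ^ 2 ≤ A) (g : Γ) :
    ∃ b' : UP H U, ∀ y, pote hG D Dm U u c (g • y) = upRep U π g (pote hG D Dm U u c y) + b' := by
  set d : ∀ k, H k := fun k => π k g (c k) + b k g - c k with hd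
  have key : ∀ (γ : Γ) (a : C.I), ∀ z ∈ Dm.Q a, ∀ k,
      mv Dm.η (fun z => u k (g * γ) a z - c k) z =
        π k g (mv Dm.η (fun z => u k γ a z - c k) z) + d k := by
    intro γ a z hz k
    have hcont : ContinuousOn (fun z => u k γ a z - c k) (ball (C.c a) (Dm.ρ a + Dm.δ)) :=
      ((h.plseq Dm hc γ a).contOn k).mono ball_subset_closedBall
    have e1 := mv_aff Dm.mol le_rfl hz hcont
      ((π k g).toContinuousLinearEquiv : H k →L[ℂ] H k) (d k)
    refine Eq.trans ?_ e1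
    refine mv_congr Dm.mol.zero (ball_subset_closedBall hz) le_rfl fun y hy => ?_
    rw [h.equi k g γ a y (Dm.cb_sub a (ball_subset_closedBall hy)), hd]
    show π k g (u k γ a y) + b k g - c k = π k g (u k γ a y - c k) + (π k g (c k) + b k g - c k)
    rw [map_sub]
    abel
  have hb1 : ∀ (γ : Γ) (a : C.I), ∀ z ∈ Dm.Q a,
      Bd fun k => mv Dm.η (fun z => u k γ a z - c k) z := fun γ a z hz =>
    ((h.plseq Dm hc γ a).appr Dm.mol le_rfl hz).bdd
  have hdb : Bd d := by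
    obtain ⟨a₀⟩ := C.ne
    have hz₀ : C.c a₀ ∈ Dm.Q a₀ := mem_ball_self (by
      have := Dm.low a₀
      have := C.r_pos a₀
      linarith)
    have h1 := hb1 (g * 1) a₀ _ hz₀
    have h2 := Bd.iso (fun k => π k g) (hb1 1 a₀ _ hz₀)
    have h3 := h1.sub h2
    have e : d = (fun k => mv Dm.η (fun z => u k (g * 1) a₀ z - c k) (C.c a₀)) -
        fun k => π k g (mv Dm.η (fun z => u k 1 a₀ z - c k) (C.c a₀)) := by
      funext k
      rw [Pi.sub_apply, key 1 a₀ _ hz₀ k]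
      abel
    rw [e]
    exact h3
  refine ⟨H366.mk U d, fun y => ?_⟩
  obtain ⟨γ, a, h1, h2, h3⟩ := D.exists_sheet hG y
  have h2Q := Dm.W_sub a h2
  have e1 := pote_eq hG D h Dm hc γ h2Q
  have e2 := pote_eq hG D h Dm hc (g * γ) h2Q
  rw [h3] at e1
  rw [mul_smul, h3] at e2
  rw [e1, e2, slim, slim, upRep_mk _ _ (hb1 γ a _ h2Q),
    ← mk_add (Bd.iso (fun k => π k g) (hb1 γ a _ h2Q)) hdb]
  congr 1
  funext k
  exact key γ a _ h2Q k

end

/-! ### The theorem -/

/-- a 1-form as a linear map -/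
def cl1 {n : ℕ} {W : Type*} [NormedAddCommGroup W] [NormedSpace ℂ W]
    (A : Cm n [⋀^Fin 1]→L[ℂ] W) : Cm n →L[ℂ] W :=
  (ContinuousAlternatingMap.ofSubsingletonLIE (𝕜 := ℂ) (E := Cm n) (F := W) (0 : Fin 1)).symm A

lemma cl1_apply {n : ℕ} {W : Type*} [NormedAddCommGroup W] [NormedSpace ℂ W]
    (A : Cm n [⋀^Fin 1]→L[ℂ] W) (t : Cm n) : cl1 A t = A fun _ => t := rfl

/-- **L4** -/
theorem l4v : L4VStmt := by
  intro n X _ _ _ E Γ _ _ _ _ p hG C D H _ _ _ U π b u h
  obtain ⟨a₁, K₁, hK₁V, hK₁, t₁, hne⟩ := h.ne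
  classical
  obtain ⟨Dm, hDm⟩ := exists_MD C (fun a => if a = a₁ then K₁ else ∅) (fun a => by
    by_cases ha : a = a₁
    · simp only [ha, if_true]; exact hK₁
    · simp only [ha, if_false]; exact isCompact_empty) (fun a => by
    by_cases ha : a = a₁
    · subst ha; simp only [if_true]; exact hK₁V
    · simp only [ha, if_false]; exact empty_subset _)
  have hKQ : K₁ ⊆ Dm.Q a₁ := by
    have := hDm a₁
    simpa using this
  obtain ⟨c, hc⟩ := h.exists_c
  have hs := sfm_cform h Dm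
  have hcov := hG.cov
  set Θ : E → Chart n X → (Cm n →L[ℂ] UP H U) := fun y e => cl1 (SE hG D (sfm Dm U u) y e) with hΘ
  have hΘa : ∀ y e t, Θ y e t = SE hG D (sfm Dm U u) y e fun _ => t := fun y e t => rfl
  -- eventually near `y` from eventually near `e (p y)`
  have pull : ∀ (y : E) (e : Chart n X), At e (p y) → ∀ (P : Cm n → Prop),
      (∀ᶠ z in 𝓝 (e (p y)), P z) → ∀ᶠ y' in 𝓝 y, P (e (p y')) := by
    intro y e he P hP
    have hct : ContinuousAt (fun y' => e (p y')) y :=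
      (e.continuousAt he.2).comp hcov.continuous.continuousAt
    exact hct.eventually hP
  refine ⟨UP H U, inferInstance, inferInstance, inferInstance, upRep U π, Θ,
    pote hG D Dm U u c, ⟨fun y e he => ?_, fun y e e' he he' => ?_⟩, fun g y e he => ?_,
    fun y e he x => ?_, fun g => pote_equiv hG D h Dm hc g, ?_⟩
  · -- local primitives
    obtain ⟨s', hs', hev⟩ := (SE_form hG D hs).holo y e he
    have hcl := SE_closed hG D hs (fun γ a _ hz => sfm_closed h Dm γ a hz) y e s' he hev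
    obtain ⟨F, hF, hFs⟩ := exists_primitive hs' hcl
    refine ⟨F, hF, ?_⟩
    filter_upwards [hev, pull y e he _ hFs] with y' h1 h2
    ext1 t
    rw [hΘa, h1, h2]
  · -- change of charts
    ext1 t
    rw [hΘa, ContinuousLinearMap.comp_apply, hΘa]
    exact (SE_form hG D hs).change y e e' he he' _
  · -- equivariance
    ext1 t
    rw [hΘa, ContinuousLinearMap.comp_apply, hΘa]
    exact SE_equiv hG D hs (π := fun g => upRep U π g)
      (fun g γ a _ hz ξ => sfm_equiv h Dm g γ a hz ξ) g y he _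
  · -- the potential
    obtain ⟨γ, a, h1, h2, h3⟩ := D.exists_sheet hG y
    have h2Q := Dm.W_sub a h2
    have h2Ω := V_sub_Ω C a (Dm.Q_sub a h2Q)
    have ha : At (D.e a) (p y) := ⟨D.mem a, h1⟩
    set z₀ := D.e a (p y) with hz₀
    obtain ⟨F, hF, hFs⟩ := exists_primitive (hs.an γ a z₀ h2Q)
      (Filter.eventually_of_mem ((Dm.Q_open a).mem_nhds h2Q) fun z hz => sfm_closed h Dm γ a hz)
    obtain ⟨hh, hha, hhe⟩ := pot_local (h.plseq Dm hc γ a) Dm.mol le_rfl h2Q hF (by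
      filter_upwards [hFs, (Dm.Q_open a).mem_nhds h2Q] with z g1 g2 ξ
      rw [g1, sfm_apply h Dm γ a g2]
      simp only [DH_sub_const]) x
    have hτ : AnalyticAt ℂ (fun z => D.e a (e.symm z)) (e (p y)) := (transition he ha).analyticAt
    have hτ0 : D.e a (e.symm (e (p y))) = z₀ := by rw [e.left_inv he.2]
    have hg : AnalyticAt ℂ (fun z => ⟪x, F z⟫_ℂ) z₀ := ((innerSL ℂ x).analyticAt _).comp hF
    refine ⟨fun w => ⟪x, F (D.e a (e.symm w))⟫_ℂ, fun w => hh (D.e a (e.symm w)), ?_, ?_, ?_⟩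
    · refine AnalyticAt.comp (g := fun z => ⟪x, F z⟫_ℂ) ?_ hτ
      rw [hτ0]
      exact hg
    · refine AnalyticAt.comp (g := hh) ?_ hτ
      rw [hτ0]
      exact hha
    · have hcπ : ContinuousAt p y := hcov.continuous.continuousAt
      have g1 : ∀ᶠ y' in 𝓝 y, p y' ∈ e.source := hcπ.eventually (e.open_source.mem_nhds he.2)
      have g2 : ∀ᶠ y' in 𝓝 y, p y' ∈ (D.e a).source :=
        hcπ.eventually ((D.e a).open_source.mem_nhds h1)
      have g3 := pull y (D.e a) ha _ hhe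
      have g4 := pull y (D.e a) ha _ hFs
      have g5 := pull y (D.e a) ha _ hF.eventually_analyticAt
      have g6 := pote_loc hG D h Dm hc γ h2Q
      have g7 := SE_loc hG D hs γ h2Q (e := e) (by rw [h3]; exact he)
      rw [h3] at g6 g7
      filter_upwards [g1, g2, g3, g4, g5, g6, g7] with y' k1 k2 k3 k4 k5 k6 k7
      have hval : D.e a (e.symm (e (p y'))) = D.e a (p y') := by rw [e.left_inv k1]
      refine ⟨?_, fun ξ => ?_⟩
      · rw [k6, k3, hval]
      · have hτ' : DifferentiableAt ℂ (fun z => D.e a (e.symm z)) (e (p y')) :=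
          transition_differentiableAt ⟨he.1, k1⟩ ⟨ha.1, k2⟩
        have hFd : HasFDerivAt F (fderiv ℂ F (D.e a (p y')))
            (D.e a (e.symm (e (p y')))) := by
          rw [hval]
          exact k5.differentiableAt.hasFDerivAt
        have hcomp := (innerSL ℂ x).hasFDerivAt.comp (e (p y'))
          (hFd.comp (e (p y')) hτ'.hasFDerivAt)
        have e3 : (⇑(innerSL ℂ x) ∘ F ∘ fun z => D.e a (e.symm z)) =
            fun w => ⟪x, F (D.e a (e.symm w))⟫_ℂ := rfl
        rw [e3] at hcomp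
        rw [hcomp.fderiv, hΘa, k7, hval]
        show ⟪x, fderiv ℂ F (D.e a (p y')) (fderiv ℂ (fun z => D.e a (e.symm z)) (e (p y')) ξ)⟫_ℂ =
          _
        rw [k4]
        rfl
  · -- nonvanishing
    obtain ⟨z, hz, hne'⟩ := sfm_ne h Dm hKQ hne
    obtain ⟨y, e, ξ, he, hy⟩ := SE_ne hG D hs ⟨1, a₁, z, hz, hne'⟩
    refine ⟨y, e, he, fun h0 => hy ?_⟩
    have h1 := hΘa y e (ξ 0)
    rw [h0] at h1
    have h2 : (fun _ : Fin 1 => ξ 0) = ξ := by
      funext i
      rw [Subsingleton.elim i 0]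
    rw [h2] at h1
    exact h1.symm

/-- **L4** with a fixed Hilbert space -/
theorem l4Stmt : L4Stmt := l4_of l4v

end Vale.Agent.P284.H551
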