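import Vale.Agent.P284.H551.L4S
import Vale.Agent.P284.H661.T.TS

/-!
# P284 (helper551), piece L4 of T2, general form: the Hilbert spaces and representations vary with `k`

`PHSeqV C U π b u`: a sequence of smooth maps `u k` on the covering (given on the pieces), equivariant under
the affine isometric actions with the linear part `π k` and the translations `b k`, with bounded energy,
and with `∂∂̄ u k → 0` in `L²`; the `(1,0)` part of the energy does not tend to `0`.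
-/

open scoped Manifold ContDiff Topology InnerProductSpace ENNReal
open Filter Set Metric MeasureTheory

noncomputable section

namespace Vale.Agent.P284.H551

open Vale.Agent.P272.K Vale.Agent.P284.H894 Vale.Agent.P284.H894.G
  Vale.Agent.P284.H894.V Vale.Agent.P284.H366

/-- almost pluriharmonic equivariant maps -/
structure PHSeqV {n : ℕ} {Γ : Type} [Group Γ] {H : ℕ → Type} [∀ k, NormedAddCommGroup (H k)]
    [∀ k, InnerProductSpace ℂ (H k)] (C : Coc n Γ) (U : Ultrafilter ℕ)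
    (π : ∀ k, Γ →* (H k ≃ₗᵢ[ℂ] H k)) (b : ∀ k, Γ → H k) (u : ∀ k, Γ → C.I → Cm n → H k) :
    Prop where
  smooth : ∀ k γ a, ∀ z ∈ C.Ω a, ContDiffAt ℝ ∞ (u k γ a) z
  compat : ∀ k γ a c, ∀ z ∈ C.O a c, z ∈ C.V a → C.T a c z ∈ C.V c →
    u k γ a z = u k (γ * C.κ a c z) c (C.T a c z)
  equi : ∀ k g γ a, ∀ z ∈ C.V a, u k (g * γ) a z = π k g (u k γ a z) + b k g
  bd : ∃ B : ℝ, ∀ k a, ∫ z in C.V a, ‖fderiv ℝ (u k 1 a) z‖ ^ 2 ≤ B
  lev : ∀ a ξ, Tendsto (fun k => ∫ z in C.V a, ‖DB (fun y => DH (u k 1 a) y ξ) z‖ ^ 2) U (𝓝 0)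
  ne : ∃ a, ∃ K ⊆ C.V a, IsCompact K ∧ ∃ ξ,
    ¬ Tendsto (fun k => ∫ z in K, ‖DH (u k 1 a) z ξ‖ ^ 2) U (𝓝 0)

/-- **L4** with varying Hilbert spaces -/
def L4VStmt : Prop :=
  ∀ (n : ℕ) (X : Type) [TopologicalSpace X] [ChartedSpace (Cm n) X] [IsManifold 𝓘(ℂ, Cm n) ω X]
    (E Γ : Type) [TopologicalSpace E] [ConnectedSpace E] [Group Γ] [MulAction Γ E]
    (p : E → X), IsGalois Γ p → ∀ (C : Coc n Γ), ECoc p C →
    ∀ (H : ℕ → Type) [∀ k, NormedAddCommGroup (H k)] [∀ k, InnerProductSpace ℂ (H k)]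
      [∀ k, CompleteSpace (H k)] (U : Ultrafilter ℕ) (π : ∀ k, Γ →* (H k ≃ₗᵢ[ℂ] H k))
      (b : ∀ k, Γ → H k) (u : ∀ k, Γ → C.I → Cm n → H k), PHSeqV C U π b u →
      H661.T.Lim0C n X E Γ p

/-- the general form contains the form with a fixed Hilbert space -/
theorem l4_of (h : L4VStmt) : L4Stmt :=
  fun n X _ _ _ E Γ _ _ _ _ p hG C hC W _ _ _ U π b u hu =>
    h n X E Γ p hG C hC (fun _ => W) U (fun _ => π) b u
      ⟨hu.smooth, hu.compat, hu.equi, hu.bd, hu.lev, hu.ne⟩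

end Vale.Agent.P284.H551
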