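import Vale.Agent.P284.H551.LE
import Vale.Agent.P284.H366.LS2

/-!
# P284 (helper551): the limit form on the covering space
-/

open scoped Manifold ContDiff Topology ENNReal
open Filter Set Metric MeasureTheory

noncomputable section

namespace Vale.Agent.P284.H551

open Vale.Agent.P272.K Vale.Agent.P284.H248 Vale.Agent.P284.H894 Vale.Agent.P284.H894.G
  Vale.Agent.P284.H894.V Vale.Agent.P284.H894.W Vale.Agent.P284.H366 Vale.Agent.P284.H501

section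
variable {n m q : ℕ} {Γ X E : Type} [Group Γ] [TopologicalSpace X] [ChartedSpace (Cm n) X]
    [TopologicalSpace E] [MulAction Γ E] {p : E → X} {C : Coc n Γ}
    {W : Type} [NormedAddCommGroup W] [NormedSpace ℂ W]

/-- holomorphic maps have representatives in all charts -/
theorem rep_of_holB [IsManifold 𝓘(ℂ, Cm n) ω X] (hG : IsGalois Γ p) (D : ECoc p C)
    {F : E → Cm q} {B : ℝ} {w : Chart n X → Cm n → Matrix (Fin n) (Fin n) ℂ}
    (hF : HolB p w F B) (y : E) (e : Chart n X) (he : At e (p y)) : ∃ f, Rep p F y e f := by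
  obtain ⟨γ, a, h1, h2, h3⟩ := D.exists_sheet hG y
  have h2Ω : D.e a (p y) ∈ C.Ω a := ball_subset_ball (by linarith [C.r_pos a]) h2
  have ha : At (D.e a) (p y) := ⟨D.mem a, h1⟩
  refine ⟨fun x => Fc D F γ a (D.e a (e.symm x)), ?_, ?_⟩
  · have hτ : AnalyticAt ℂ (fun z => D.e a (e.symm z)) (e (p y)) := (transition he ha).analyticAt
    refine AnalyticAt.comp (g := Fc D F γ a) ?_ hτ
    rw [e.left_inv he.2]
    exact Fc_an hG D hF γ h2Ω
  · have h4 := Fc_rep hG D F γ h2Ω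
    rw [h3] at h4
    have h5 : ∀ᶠ y' in 𝓝 y, p y' ∈ e.source :=
      hG.cov.continuous.continuousAt.eventually (e.open_source.mem_nhds he.2)
    filter_upwards [h4, h5] with y' h6 h7
    rw [h6, e.left_inv h7]

/-- **from the pieces to the covering**: the hypotheses of EXT -/
theorem relS_of [IsManifold 𝓘(ℂ, Cm n) ω X] (hG : IsGalois Γ p) (D : ECoc p C)
    {Q : C.I → Set (Cm n)} {s : Γ → C.I → Cm n → Cm n [⋀^Fin (q + 1)]→L[ℂ] W}
    (hs : CForm C Q s) {F : E → Cm q} {B : ℝ}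
    {w : Chart n X → Cm n → Matrix (Fin n) (Fin n) ℂ} (hF : HolB p w F B)
    (hrel : ∀ γ a, ∀ z ∈ Q a, Function.Surjective (fderiv ℂ (Fc D F γ a) z) →
      ∀ (ξ : Fin (q + 1) → Cm n) (i j : Fin (q + 1)), i ≠ j →
        fderiv ℂ (Fc D F γ a) z (ξ i) = 0 → fderiv ℂ (Fc D F γ a) z (ξ j) = 0 → s γ a z ξ = 0)
    (hpush : ∃ A : ℝ≥0∞, A ≠ ⊤ ∧ ∀ γ a (g : Cm q → ℝ≥0∞), Measurable g →
      ∫⁻ z in Q a, g (Fc D F γ a z) * ‖s γ a z‖ₑ ^ 2 ≤ A * ∫⁻ t, g t) :
    RelS p F (SE hG D s) where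
  form := SE_form hG D hs
  rel := fun y e f he hf hsur ξ i j hij hi hj =>
    SE_rel hG D hs (fun y _ he => rep_of_holB hG D hF y _ he) (i := i) (j := j)
      (fun γ a z hz hsur ξ hi hj => hrel γ a z hz hsur ξ i j hij hi hj) he hf hsur hi hj
  push := fun y e f s' he hf _ hs' => by
    obtain ⟨A, hA, h⟩ := hpush
    exact SE_push hG D hs (F := F) (fun γ a z hz => ⟨Q a, (hs.isOpen a).mem_nhds hz, A, hA,
      fun g hg => h γ a g hg⟩) he hf.2 hs'

/-- the limit of test forms on the pieces -/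
theorem cform_lim {p : ℕ} (Dm : MD C) {U : Ultrafilter ℕ} {Fs : ℕ → TForm C p}
    (h : TSeq U Fs) : CForm C Dm.Q (LimS Dm U Fs) where
  isOpen := Dm.Q_open
  W_sub := Dm.W_sub
  sub_Ω := fun a => (Dm.Q_sub a).trans (V_sub_Ω C a)
  an := fun γ a _ hz => LimS_analyticAt Dm h γ a hz
  change := fun γ a b _ hO hz hz' => LimS_change Dm h γ a b hO hz hz'

/-- **the limit form on the covering space** -/
theorem limE [IsManifold 𝓘(ℂ, Cm n) ω X] (hG : IsGalois Γ p) (D : ECoc p C) (Dm : MD C)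
    {U : Ultrafilter ℕ} {Fs : ℕ → TForm C m} (h : TSeq U Fs) (hcl : ∀ k, (Fs k).Closed)
    (hne : ∃ γ a, ∃ z ∈ Dm.Q a, LimS Dm U Fs γ a z ≠ 0) :
    FormE p (SE hG D (LimS Dm U Fs)) ∧
    (∀ y e (f : Cm n → Cm n [⋀^Fin m]→L[ℂ] WU Γ U), At e (p y) → AnalyticAt ℂ f (e (p y)) →
      (∀ᶠ y' in 𝓝 y, SE hG D (LimS Dm U Fs) y' e = f (e (p y'))) →
      ∀ᶠ z in 𝓝 (e (p y)), extDeriv f z = 0) ∧
    (∀ (g : Γ) (y : E) (e : Chart n X), At e (p y) → ∀ ξ,
      SE hG D (LimS Dm U Fs) (g • y) e ξ = piU Γ U g (SE hG D (LimS Dm U Fs) y e ξ)) ∧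
    (∃ y e ξ, At e (p y) ∧ SE hG D (LimS Dm U Fs) y e ξ ≠ 0) :=
  ⟨SE_form hG D (cform_lim Dm h),
    fun y e f he _ hf => SE_closed hG D (cform_lim Dm h)
      (fun γ a _ hz => LimS_closed Dm h hcl γ a hz) y e f he hf,
    fun g y e he ξ => SE_equiv hG D (cform_lim Dm h) (π := fun g => piU Γ U g)
      (fun g γ a _ hz ξ => LimS_equiv Dm h g γ a hz ξ) g y he ξ,
    SE_ne hG D (cform_lim Dm h) hne⟩

/-- invariance under a central element -/
theorem SE_inv [IsManifold 𝓘(ℂ, Cm n) ω X] (hG : IsGalois Γ p) (D : ECoc p C)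
    {Q : C.I → Set (Cm n)} {s : Γ → C.I → Cm n → Cm n [⋀^Fin m]→L[ℂ] W} (hs : CForm C Q s)
    {c : Γ} (hc : ∀ γ a, ∀ z ∈ Q a, s (c * γ) a z = s γ a z) (y : E) {e : Chart n X}
    (he : At e (p y)) (ξ : Fin m → Cm n) : SE hG D s (c • y) e ξ = SE hG D s y e ξ := by
  obtain ⟨γ, a, h1, h2, h3⟩ := D.exists_sheet hG y
  have h2Q := hs.W_sub a h2
  have e1 := SE_eq hG D hs γ h2Q (e := e) (by rw [h3]; exact he)
  have hgy : (c * γ) • D.σ a (D.e a (p y)) = c • y := by rw [mul_smul, h3]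
  have hp : p (c • y) = p y := ECoc.p_smul hG c y
  have e2 := SE_eq hG D hs (c * γ) h2Q (e := e) (by rw [hgy, hp]; exact he)
  rw [h3] at e1
  rw [hgy] at e2
  rw [e1, e2, hp, hc γ a _ h2Q]

/-- vertical vectors in terms of the matrix `thF` -/
theorem vert_iff {D : ECoc p C} {F : E → Cm q} {c : Γ → Cm q} (hc : Eqv F c) (γ : Γ) (a : C.I)
    (z ξ : Cm n) : fderiv ℂ (Fc D F γ a) z ξ = 0 ↔ ∀ l, ∑ k, ξ k * thF D F a z k l = 0 := by
  rw [funext_iff]
  refine forall_congr' fun l => ?_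
  rw [thF_apply D hc]
  simp only [mul_comm, Pi.zero_apply]

end

end Vale.Agent.P284.H551
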