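import Vale.Agent.P284.H551.EMap

/-!
# P284 (helper551): vertical connectedness and the escape hypothesis from a connected regular fibre
-/

open scoped Manifold ContDiff Topology Pointwise ComplexConjugate ComplexOrder ENNReal
open Filter Set Metric MeasureTheory

noncomputable section

namespace Vale.Agent.P284.H551

open Vale.Agent.P272.K Vale.Agent.P284.H248 Vale.Agent.P284.H894 Vale.Agent.P284.H894.G
  Vale.Agent.P284.H894.V Vale.Agent.P284.H894.W Vale.Agent.P284.H402.A Vale.Agent.P284.H494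

theorem vol_null_of_cov {k q : ℕ} {S : Set (Cm q)} (hS : H10.Cov k S) (hk : k + 1 ≤ q) :
    volume S = 0 := by
  have h1 : (Measure.addHaar : Measure (Cm q)) S = 0 := H10.null_of_cov hS (by simpa using hk)
  have h2 := Measure.isAddLeftInvariant_eq_smul (volume : Measure (Cm q)) Measure.addHaar
  rw [h2, Measure.smul_apply, h1]
  simp

/-- the preimage of a null closed set under a submersion is null -/
theorem null_preimage {n q : ℕ} {f : Cm n → Cm q} {U : Set (Cm n)} (hU : IsOpen U)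
    (hf : DifferentiableOn ℂ f U) {T : Set (Cm q)} (hT : IsClosed T) (hT0 : volume T = 0) :
    volume {z | z ∈ U ∧ Function.Surjective (fderiv ℂ f z) ∧ f z ∈ T} = 0 := by
  refine measure_null_of_locally_null _ fun z hz => ?_
  obtain ⟨hzU, hs, hzT⟩ := hz
  have h1 : ∀ᶠ z' in 𝓝 z, DifferentiableAt ℂ f z' := by
    filter_upwards [hU.mem_nhds hzU] with z' hz'
    exact hf.differentiableAt (hU.mem_nhds hz')
  obtain ⟨O, hO, C, hC, hup⟩ := push_up h1 hs one_pos
  obtain ⟨O', hO's, hO'o, hzO'⟩ := _root_.mem_nhds_iff.1 (inter_mem hO (hU.mem_nhds hzU))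
  set u : Set (Cm n) := O' \ (O' ∩ f ⁻¹' Tᶜ) with hu
  have hum : MeasurableSet u := by
    refine hO'o.measurableSet.diff (IsOpen.measurableSet ?_)
    have h2 : ContinuousOn f O' := fun z' hz' =>
      (hf.continuousOn.mono fun x hx => (hO's hx).2) z' hz'
    exact h2.isOpen_inter_preimage hO'o hT.isOpen_compl
  have huT : ∀ z' ∈ u, f z' ∈ T := by
    intro z' hz'
    by_contra h
    exact hz'.2 ⟨hz'.1, h⟩
  refine ⟨u, ?_, ?_⟩
  · rw [mem_nhdsWithin]
    refine ⟨O', hO'o, hzO', fun z' hz' => ⟨hz'.1, fun h => h.2 hz'.2.2.2⟩⟩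
  · have h3 := hup (T.indicator 1) (measurable_one.indicator hT.measurableSet)
    have h4 : ∫⁻ s in ball (f z) 1, T.indicator (1 : Cm q → ℝ≥0∞) s = 0 := by
      refine le_antisymm ?_ zero_le
      calc ∫⁻ s in ball (f z) 1, T.indicator (1 : Cm q → ℝ≥0∞) s
          ≤ ∫⁻ s, T.indicator (1 : Cm q → ℝ≥0∞) s := setLIntegral_le_lintegral _ _
        _ = 0 := by rw [lintegral_indicator_one hT.measurableSet, hT0]
    rw [h4, mul_zero] at h3
    refine le_antisymm ?_ zero_le
    calc volume u = ∫⁻ z' in u, 1 := by rw [setLIntegral_one]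
      _ = ∫⁻ z' in u, T.indicator (1 : Cm q → ℝ≥0∞) (f z') := by
          refine setLIntegral_congr_fun hum fun z' hz' => ?_
          rw [indicator_of_mem (huT z' hz')]
          rfl
      _ ≤ ∫⁻ z' in O, T.indicator (1 : Cm q → ℝ≥0∞) (f z') :=
          lintegral_mono_set fun z' hz' => (hO's hz'.1).1
      _ ≤ 0 := h3

section
variable {n q : ℕ} {X : Type} [TopologicalSpace X] [T2Space X] [CompactSpace X] [ConnectedSpace X]
  [ChartedSpace (Cm n) X] [IsManifold 𝓘(ℂ, Cm n) ω X]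
  {w : Chart n X → Cm n → Matrix (Fin n) (Fin n) ℂ}
  {E Γ : Type} [TopologicalSpace E] [ConnectedSpace E] [Group Γ] [MulAction Γ E] {p : E → X}
  {C : Coc n Γ} {F : E → Cm q} {c : Γ → Cm q}

/-- **vertical connectedness** for the complement of the regular values -/
theorem vConn_of (hG : IsGalois Γ p) (D : ECoc p C) (hP : Per p w F c) (hq : 1 ≤ q)
    (hreg : ∃ y, Reg (n := n) p F y) (hconn : ∃ t ∈ RV n p F, IsConnected (F ⁻¹' {t}))
    {Kk : Set Γ} (hK : ∀ k ∈ Kk, c k = 0) : VConn C (Fc D F) Kk (RV n p F)ᶜ := by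
  obtain ⟨B, hF⟩ := hP.hol
  have hc : Eqv F c := hP.equiv
  obtain ⟨r1, -, -, r4, -, -, r7⟩ := H224.rvStmt n q X w E Γ p hG F c hP hreg
  have hcl : IsClosed (RV n p F)ᶜ := r1.isClosed_compl
  have hT0 : volume (RV n p F)ᶜ = 0 := vol_null_of_cov (r4 hq) (by omega)
  have hTM := tMap hG D hF
  refine ⟨hcl, fun γ a => ?_, fun γ a z hz hzT => ?_, fun k hk γ a z _ => ?_, ?_⟩
  · have hVd : DifferentiableOn ℂ (Fc D F γ a) (C.V a) := (hTM.holo γ a).mono (V_sub a)
    have hex : ∃ z ∈ C.V a, Function.Surjective (fderiv ℂ (Fc D F γ a) z) := by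
      have h1 := H10.reg_dense hq hG.cov hF hreg
      have hcV : C.c a ∈ C.V a := mem_ball_self (by linarith [C.r_pos a])
      have hcΩ := V_sub a hcV
      have h2 : ∀ᶠ y in 𝓝 (γ • D.σ a (C.c a)), D.e a (p y) ∈ C.V a := by
        have hpy : p (γ • D.σ a (C.c a)) = (D.e a).symm (C.c a) := D.proj' hG γ hcΩ
        have he : ContinuousAt (fun y => D.e a (p y)) (γ • D.σ a (C.c a)) := by
          refine ContinuousAt.comp ?_ hG.cov.continuous.continuousAt
          rw [hpy]
          exact (D.e a).continuousAt (D.source hcΩ)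
        refine he.eventually ?_
        show ∀ᶠ y in 𝓝 (D.e a (p (γ • D.σ a (C.c a)))), y ∈ C.V a
        rw [D.e_proj hG γ hcΩ]
        exact (V_open a).mem_nhds hcV
      obtain ⟨y, hy1, hy2⟩ := mem_closure_iff_nhds.1 (h1 (γ • D.σ a (C.c a))) _
        (h2.and (D.ev hG γ hcΩ))
      obtain ⟨hy1, -, hy3, hy4⟩ := hy1
      refine ⟨_, hy1, ?_⟩
      have hy2' : Reg (n := n) p F y := hy2
      rwa [← hy4, reg_iff hG D hF γ hy3] at hy2'
    have hqn : q ≤ n := by
      obtain ⟨z, _, hs⟩ := hex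
      exact le_of_surj hs
    have h1 := H10.degen_cov hq (V_open a) (convex_ball _ _) hVd hex
    have h2 : volume {z ∈ C.V a | ¬ Function.Surjective (fderiv ℂ (Fc D F γ a) z)} = 0 :=
      vol_null_of_cov h1 (by omega)
    have h3 := null_preimage (V_open a) hVd hcl hT0
    refine measure_mono_null (fun z hz => ?_) (measure_union_null h2 h3)
    by_cases hs : Function.Surjective (fderiv ℂ (Fc D F γ a) z)
    · exact Or.inr ⟨hz.1, hs, hz.2⟩
    · exact Or.inl ⟨hz.1, hs⟩
  · rw [notMem_compl_iff] at hzT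
    have h1 : Reg (n := n) p F (γ • D.σ a z) := hzT _ rfl
    exact (reg_iff hG D hF γ (V_sub a hz)).1 h1
  · rw [Fc, Fc, mul_smul, hc k, hK k hk, add_zero]
  · intro τ hτ Q h1 h2 γ a z hz hzτ hQ k hk
    rw [notMem_compl_iff] at hτ
    refine conn_of hG D (r7 hconn τ hτ).isPreconnected (fun y => ?_) Q h1 h2 hz hzτ hQ
    rw [hc k, hK k hk, add_zero]

omit [T2Space X] [CompactSpace X] [ConnectedSpace X] [IsManifold 𝓘(ℂ, Cm n) ω X]
  [ConnectedSpace E] in
/-- one generic connected fibre gives a connected regular fibre -/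
theorem conn_of_genConn (h : H213.Grp.GenConn (n := n) p F) :
    ∃ t ∈ RV n p F, IsConnected (F ⁻¹' {t}) := by
  obtain ⟨T, hT, hTi, h1⟩ := h
  have : ∃ t, t ∉ T := by
    by_contra hcon
    push Not at hcon
    have : T = univ := eq_univ_of_forall hcon
    rw [this, interior_univ] at hTi
    exact (univ_nonempty (α := Cm q)).ne_empty hTi
  obtain ⟨t, ht⟩ := this
  exact ⟨t, (h1 t ht).2, (h1 t ht).1⟩

/-- **the escape hypothesis of (A'')** -/
theorem esc_E (hG : IsGalois Γ p) (D : ECoc p C) (P : PU C) (K : KM C)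
    (hKw : ∀ a, K.w a = w (D.e a)) {B : ℝ} (hF : HolB p w F B) (hP : Per p w F c) (hq : 1 ≤ q)
    (hreg : ∃ y, Reg (n := n) p F y) (hconn : ∃ t ∈ RV n p F, IsConnected (F ⁻¹' {t}))
    {Kk : Set Γ} (hK : ∀ k ∈ Kk, c k = 0) (hKi : Kk.Infinite) :
    Esc P K (hfF hG D K hKw hF hP.equiv hreg) :=
  esc_of P K _ hKi (tMap hG D hF) (vConn_of hG D hP hq hreg hconn hK)
    (dMap hG D K hKw hF hP.equiv hreg)

end

end Vale.Agent.P284.H551
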