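import Vale.Agent.P284.H639.V15

/-!
# P284 (helper551): the pieces of a Galois covering

`ECoc p C`: the data `C : Coc n Γ` are the pieces of the Galois covering `p : E → X` with group `Γ`, given by
charts `e a` of `X` and sheets `σ a : Cm n → E` over them.
-/

open scoped Manifold ContDiff Topology Pointwise ComplexConjugate ComplexOrder
open Filter Set Metric MeasureTheory

noncomputable section

namespace Vale.Agent.P284.H551

open Vale.Agent.P272.K Vale.Agent.P284.H248 Vale.Agent.P284.H894 Vale.Agent.P284.H678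
  Vale.Agent.P284.H894.G Vale.Agent.P284.H894.V Vale.Agent.P284.H639 Vale.Agent.P284.H639.V

/-- `C` is given by charts and sheets of the covering `p : E → X`. -/
structure ECoc {n : ℕ} {Γ X E : Type} [Group Γ] [TopologicalSpace X] [ChartedSpace (Cm n) X]
    [TopologicalSpace E] [MulAction Γ E] (p : E → X) (C : Coc n Γ) where
  e : C.I → Chart n X
  mem : ∀ a, e a ∈ atlas (Cm n) X
  sub : ∀ a, closedBall (C.c a) (4 * C.r a) ⊆ (e a).target
  σ : C.I → Cm n → E
  cont : ∀ a, ContinuousOn (σ a) (C.Ω a)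
  proj : ∀ a, ∀ z ∈ C.Ω a, p (σ a z) = (e a).symm z
  O_iff : ∀ a b z, z ∈ C.O a b ↔ z ∈ C.Ω a ∧ (e a).symm z ∈ (e b).source ∧
    e b ((e a).symm z) ∈ C.Ω b
  T_eq : ∀ a b z, C.T a b z = e b ((e a).symm z)
  κ_spec : ∀ a b, ∀ z ∈ C.O a b, C.κ a b z • σ b (C.T a b z) = σ a z
  cover : ∀ x : X, ∃ a, x ∈ (e a).source ∧ e a x ∈ C.W a

/-- existence of the pieces, of a partition of unity and of the metric on the pieces -/
theorem exists_eCoc {n : ℕ} {X : Type} [TopologicalSpace X] [T2Space X] [CompactSpace X]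
    [ConnectedSpace X] [ChartedSpace (Cm n) X] [IsManifold 𝓘(ℂ, Cm n) ω X]
    {w : Chart n X → Cm n → Matrix (Fin n) (Fin n) ℂ} (hw : IsKahler w)
    {E Γ : Type} [TopologicalSpace E] [ConnectedSpace E] [Group Γ] [MulAction Γ E] {p : E → X}
    (hG : IsGalois Γ p) :
    ∃ (C : Coc n Γ) (D : ECoc p C) (K : KM C), Nonempty (PU C) ∧ ∀ a, K.w a = w (D.e a) := by
  obtain ⟨P⟩ := Vale.Agent.P284.H790.a1Stmt n X (trivL n X)
  have hy : ∀ a : P.I, ∃ y : E, p y = (P.e a).symm (P.c a) := fun a => hG.surj _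
  choose y hy using hy
  have hlift : ∀ a, ∃ σ : Cm n → E, ContinuousOn σ (ball (P.c a) (4 * P.r a)) ∧
      (∀ z ∈ ball (P.c a) (4 * P.r a), p (σ z) = (P.e a).symm z) ∧ σ (P.c a) = y a := fun a =>
    exists_lift_at hG.cov (by have := P.r_pos a; positivity)
      ((P.e a).continuousOn_symm.mono fun w hw => P.target hw) (y a) (hy a)
  choose σ hσ hπ hc using hlift
  let K : KD P Γ :=
    { κ := kap σ Γ
      self := fun a z hz => kap_eq hG.free hG.orb hπ hz (by rw [P.T_self hz.1, one_smul])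
      trans := fun a b d z hz h => kap_eq hG.free hG.orb hπ (P.trans_mem hz h) (by
        rw [mul_smul, ← P.T_T (d := d) hz, kap_spec hG.orb hπ h, kap_spec hG.orb hπ hz])
      loc := fun a b z hz => kap_loc hG.cov hG.cont hG.free hG.orb hσ hπ hz
      conn := fun Q hQ => kap_conn hG.cov hG.cont hG.free hG.orb hσ hπ Q hQ }
  have hK : ∀ a b z, z ∈ P.O a b → K.κ a b z • σ b (P.T a b z) = σ a z := fun a b z hz =>
    kap_spec hG.orb hπ hz
  obtain ⟨PUc⟩ := Vale.Agent.P284.H894.a4 n X (trivL n X) P Γ K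
  obtain ⟨KMc, hKM⟩ : ∃ K' : KM (mkCoc P K), ∀ a, K'.w a = w (P.e a) := by
    obtain ⟨B, hB, h⟩ := exists_bds_pcs P hw.toIsHermitian
    have hcl : ∀ a, ball (P.c a) (4 * P.r a) ⊆ closedBall (P.c a) (4 * P.r a) := fun a =>
      ball_subset_closedBall
    exact ⟨{
      w := fun a => w (P.e a)
      ku := fun a =>
        { isOpen := isOpen_ball
          smooth := fun z hz => hw.smooth_target (P.mem a) (P.target hz)
          pos := fun z hz => hw.posDef_target (P.mem a) (P.target hz)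
          closed := fun z hz i j k => by
            have := hw.closed (P.e a) ((P.e a).symm z) (P.at' hz) i j k
            rwa [(P.e a).right_inv (P.target hz)] at this }
      change := fun a b z hz => by
        have h1 := hw.change (P.e a) (P.e b) ((P.e a).symm z) (P.at_left hz) (P.at_right hz)
        rw [jacM_eq, (P.e a).right_inv (P.target hz.1)] at h1
        exact h1
      lam := B⁻¹
      lam_pos := inv_pos.2 hB
      Lam := B
      low := fun a z hz v => by
        rw [sum_eq_quad, inv_mul_le_iff₀ hB]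
        exact (h a z (hcl a hz)).1 v
      up := fun a z hz v => by
        rw [sum_eq_quad]
        exact (h a z (hcl a hz)).2.1 v
      vol_up := fun a z hz => (h a z (hcl a hz)).2.2.1
      vol_low := fun a z hz => by
        rw [inv_le_iff_one_le_mul₀' hB]
        exact (h a z (hcl a hz)).2.2.2 }, fun a => rfl⟩
  exact ⟨mkCoc P K, {
    e := P.e
    mem := P.mem
    sub := P.sub
    σ := σ
    cont := hσ
    proj := hπ
    O_iff := fun a b z => Iff.rfl
    T_eq := fun a b z => rfl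
    κ_spec := hK
    cover := P.cover }, KMc, ⟨PUc⟩, hKM⟩

section
variable {n : ℕ} {Γ X E : Type} [Group Γ] [TopologicalSpace X] [ChartedSpace (Cm n) X]
    [TopologicalSpace E] [MulAction Γ E] {p : E → X} {C : Coc n Γ} (hG : IsGalois Γ p)
    (D : ECoc p C)

namespace ECoc

theorem target {a : C.I} {z : Cm n} (hz : z ∈ C.Ω a) : z ∈ (D.e a).target :=
  D.sub a (ball_subset_closedBall hz)

theorem source {a : C.I} {z : Cm n} (hz : z ∈ C.Ω a) : (D.e a).symm z ∈ (D.e a).source :=
  (D.e a).map_target (D.target hz)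

theorem right_inv {a : C.I} {z : Cm n} (hz : z ∈ C.Ω a) : D.e a ((D.e a).symm z) = z :=
  (D.e a).right_inv (D.target hz)

include hG in
theorem p_smul (γ : Γ) (y : E) : p (γ • y) = p y := ((hG.orb _ _).2 ⟨γ, rfl⟩).symm

include hG in
/-- the projection of a point of a sheet -/
theorem proj' (γ : Γ) {a : C.I} {z : Cm n} (hz : z ∈ C.Ω a) :
    p (γ • D.σ a z) = (D.e a).symm z := by
  rw [p_smul hG, D.proj a z hz]

include hG in
theorem e_proj (γ : Γ) {a : C.I} {z : Cm n} (hz : z ∈ C.Ω a) :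
    D.e a (p (γ • D.σ a z)) = z := by
  rw [D.proj' hG γ hz, D.right_inv hz]

include hG in
theorem at_sheet (γ : Γ) {a : C.I} {z : Cm n} (hz : z ∈ C.Ω a) :
    At (D.e a) (p (γ • D.σ a z)) := by
  refine ⟨D.mem a, ?_⟩
  rw [D.proj' hG γ hz]
  exact D.source hz

include hG in
/-- the sheets are continuous -/
theorem cont_at (γ : Γ) {a : C.I} {z : Cm n} (hz : z ∈ C.Ω a) :
    ContinuousAt (fun z' => γ • D.σ a z') z :=
  (hG.cont γ).continuousAt.comp ((D.cont a).continuousAt (isOpen_ball.mem_nhds hz))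

include hG in
/-- near a point of a sheet the sheet is given by the chart -/
theorem ev (γ : Γ) {a : C.I} {z : Cm n} (hz : z ∈ C.Ω a) :
    ∀ᶠ y in 𝓝 (γ • D.σ a z), p y ∈ (D.e a).source ∧ D.e a (p y) ∈ C.Ω a ∧
      γ • D.σ a (D.e a (p y)) = y := by
  have hcπ : ContinuousAt p (γ • D.σ a z) := hG.cov.continuous.continuousAt
  have hpy : p (γ • D.σ a z) = (D.e a).symm z := D.proj' hG γ hz
  have he : ContinuousAt (fun y => D.e a (p y)) (γ • D.σ a z) := by
    refine ContinuousAt.comp ?_ hcπ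
    rw [hpy]
    exact (D.e a).continuousAt (D.source hz)
  have hval : D.e a (p (γ • D.σ a z)) = z := D.e_proj hG γ hz
  have hev1 : ∀ᶠ y in 𝓝 (γ • D.σ a z), p y ∈ (D.e a).source := by
    refine hcπ.eventually ?_
    rw [hpy]
    exact (D.e a).open_source.mem_nhds (D.source hz)
  have hev2 : ∀ᶠ y in 𝓝 (γ • D.σ a z), D.e a (p y) ∈ C.Ω a := by
    refine he.eventually ?_
    show ∀ᶠ y in 𝓝 (D.e a (p (γ • D.σ a z))), y ∈ C.Ω a
    rw [hval]
    exact isOpen_ball.mem_nhds hz
  have hu : ContinuousAt (fun y => γ • D.σ a (D.e a (p y))) (γ • D.σ a z) := by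
    refine (hG.cont γ).continuousAt.comp ?_
    refine ContinuousAt.comp (f := fun y => D.e a (p y)) ?_ he
    rw [hval]
    exact (D.cont a).continuousAt (isOpen_ball.mem_nhds hz)
  have h3 := lifts_eventuallyEq hG.cov hu continuousAt_id (by simp only [id, hval]) (by
    filter_upwards [hev1, hev2] with y h1 h2
    rw [D.proj' hG γ h2, (D.e a).left_inv h1]
    rfl)
  filter_upwards [h3, hev1, hev2] with y h1 h2 h4
  exact ⟨h2, h4, h1⟩

include hG in
/-- every point lies on a sheet -/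
theorem exists_sheet (y : E) : ∃ (γ : Γ) (a : C.I), p y ∈ (D.e a).source ∧
    D.e a (p y) ∈ C.W a ∧ γ • D.σ a (D.e a (p y)) = y := by
  obtain ⟨a, ha1, ha2⟩ := D.cover (p y)
  have h3 : D.e a (p y) ∈ C.Ω a := ball_subset_ball (by linarith [C.r_pos a]) ha2
  have h4 : p (D.σ a (D.e a (p y))) = p y := by
    rw [D.proj a _ h3, (D.e a).left_inv ha1]
  obtain ⟨γ, hγ⟩ := (hG.orb _ _).1 h4
  exact ⟨γ, a, ha1, ha2, hγ⟩

include hG in
/-- two representations of the same point -/
theorem eq_imp {γ γ' : Γ} {a b : C.I} {z z' : Cm n} (hz : z ∈ C.Ω a) (hz' : z' ∈ C.Ω b)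
    (h : γ • D.σ a z = γ' • D.σ b z') :
    z ∈ C.O a b ∧ C.T a b z = z' ∧ γ' = γ * C.κ a b z := by
  have h1 : (D.e a).symm z = (D.e b).symm z' := by
    rw [← D.proj' hG γ hz, h, D.proj' hG γ' hz']
  have h2 : D.e b ((D.e a).symm z) = z' := by rw [h1, D.right_inv hz']
  have hO : z ∈ C.O a b := by
    rw [D.O_iff]
    refine ⟨hz, ?_, ?_⟩
    · rw [h1]; exact D.source hz'
    · rw [h2]; exact hz'
  have hT : C.T a b z = z' := by rw [D.T_eq, h2]
  refine ⟨hO, hT, ?_⟩
  refine smul_cancel (Γ := Γ) hG.free (y := D.σ b z') ?_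
  rw [← h, mul_smul, ← hT, D.κ_spec a b z hO]

theorem smul_T {γ : Γ} {a b : C.I} {z : Cm n} (hz : z ∈ C.O a b) :
    (γ * C.κ a b z) • D.σ b (C.T a b z) = γ • D.σ a z := by
  rw [mul_smul, D.κ_spec a b z hz]

end ECoc

end

end Vale.Agent.P284.H551
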