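import Vale.Agent.P284.H551.VN4
import Vale.Agent.P284.H402.A.Ident
import Vale.Agent.P284.H279.A2Fin
import Vale.Agent.P284.H958.V9

/-! # P284 (helper551): the escape hypothesis of (A'') from vertical noncompactness. -/

open scoped Manifold Topology ComplexConjugate ComplexOrder Matrix
open Filter Set Metric MeasureTheory

noncomputable section

namespace Vale.Agent.P284.H551

open Vale.Agent.P272.K Vale.Agent.P284.H248 Vale.Agent.P284.H894 Vale.Agent.P284.H894.V
  Vale.Agent.P284.H402.A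

section mat
variable {n q : ℕ}

/-- Cauchy-Schwarz for a positive form -/
theorem S_cs {A : Matrix (Fin n) (Fin n) ℂ} (hA : A.PosSemidef) (a b : Fin n → ℂ) :
    (H730.V.S A a b).re ^ 2 ≤ (H730.V.S A a a).re * (H730.V.S A b b).re := by
  have h1 : ∀ x : ℝ, 0 ≤ (H730.V.S A b b).re * (x * x) + 2 * (H730.V.S A a b).re * x +
      (H730.V.S A a a).re := by
    intro x
    have h2 := H730.V.S_nonneg hA (a + ((x : ℝ) : ℂ) • b)
    have h3 := H730.V.S_re_symm (a := b) (b := a) hA.isHermitian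
    simp only [H730.V.S_add_left, H730.V.S_add_right, H730.V.S_smul_left, H730.V.S_smul_right,
      Complex.add_re, Complex.re_ofReal_mul] at h2
    rw [h3] at h2
    linarith
  have h2 := discrim_le_zero h1
  rw [discrim] at h2
  nlinarith

/-- the vertical derivative is bounded by `AA w θ 0` -/
theorem vert_le {w : Matrix (Fin n) (Fin n) ℂ} {θ : Matrix (Fin n) (Fin q) ℂ} (hw : w.PosDef)
    (hA : (AA w θ 0).PosSemidef) (hD : 0 < DD w θ 0) {α v : Fin n → ℂ}
    (hv : ∀ i, ∑ j, θ j i * v j = 0) :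
    DD w θ 0 * (∑ i, v i * α i).re ^ 2 ≤ qf (AA w θ 0) α α * (H730.V.S w (star v) (star v)).re := by
  set D := DD w θ 0 with hDdef
  set A := AA w θ 0 with hAdef
  set β : Fin n → ℂ := w *ᵥ star v with hβ
  have hdet : (TT w θ 0).det = (D : ℂ) := DD_ofReal hw θ 0
  have hθv : θᴴ *ᵥ star v = 0 := by
    ext i
    have h1 := congrArg (starRingEnd ℂ) (hv i)
    rw [map_sum, map_zero] at h1
    simp only [Matrix.mulVec, dotProduct, Matrix.conjTranspose_apply, Pi.star_apply,
      RCLike.star_def, Pi.zero_apply]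
    rw [← h1]
    refine Finset.sum_congr rfl fun j _ => ?_
    rw [map_mul]
  have hwu : IsUnit w.det := by
    rw [isUnit_iff_ne_zero]
    exact hw.det_pos.ne'
  have hwβ : w⁻¹ *ᵥ β = star v := by
    rw [hβ, Matrix.mulVec_mulVec, Matrix.nonsing_inv_mul _ hwu, Matrix.one_mulVec]
  have hAβ : A *ᵥ β = (D : ℂ) • star v := by
    rw [hAdef, AA, hdet, Matrix.sub_mulVec, Matrix.smul_mulVec, hwβ]
    have : (w⁻¹ * θ * (TT w θ 0).adjugate * θᴴ * w⁻¹) *ᵥ β = 0 := by
      rw [← Matrix.mulVec_mulVec, hwβ, ← Matrix.mulVec_mulVec, hθv, Matrix.mulVec_zero]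
    rw [this, sub_zero]
  have e1 : (H730.V.S A α β).re = D * (∑ i, v i * α i).re := by
    rw [← H730.V.S_conj hA.isHermitian, Complex.conj_re, H730.V.S_eq, hAβ, dotProduct_smul,
      smul_eq_mul, Complex.re_ofReal_mul]
    congr 1
    rw [← Complex.conj_re]
    congr 1
    simp only [dotProduct, Pi.star_apply, RCLike.star_def, map_sum, map_mul, Complex.conj_conj]
    exact Finset.sum_congr rfl fun i _ => mul_comm _ _
  have e2 : (H730.V.S A β β).re = D * (H730.V.S w (star v) (star v)).re := by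
    rw [H730.V.S_eq, hAβ, dotProduct_smul, smul_eq_mul, Complex.re_ofReal_mul]
    congr 1
    rw [H730.V.S_eq, ← hβ, ← Complex.conj_re]
    congr 1
    simp only [dotProduct, Pi.star_apply, RCLike.star_def, map_sum, map_mul, Complex.conj_conj]
    exact Finset.sum_congr rfl fun i _ => mul_comm _ _
  have h3 := S_cs hA α β
  rw [e1, e2, ← qf_eq] at h3
  have h4 : D * (D * (∑ i, v i * α i).re ^ 2) ≤
      D * (qf A α α * (H730.V.S w (star v) (star v)).re) := by nlinarith
  exact le_of_mul_le_mul_left h4 hD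

/-- the real derivative -/
theorem fderiv_re {f : Cm n → ℝ} {z : Cm n} (hf : DifferentiableAt ℝ f z) (v : Cm n) :
    fderiv ℝ f z v = 2 * (∑ i, v i * pd f z i).re := by
  have h0 : ∀ u : Cm n, fderiv ℝ (fun y => (f y : ℂ)) z u = ((fderiv ℝ f z u : ℝ) : ℂ) := by
    intro u
    have h1 : fderiv ℝ (fun y => (f y : ℂ)) z = Complex.ofRealCLM.comp (fderiv ℝ f z) :=
      (Complex.ofRealCLM.hasFDerivAt.comp z hf.hasFDerivAt).fderiv
    rw [h1]; rfl
  have hv : v = ∑ i, ((v i).re • (Pi.single i (1 : ℂ) : Cm n) +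
      (v i).im • (Pi.single i Complex.I : Cm n)) := by
    ext k
    simp only [Finset.sum_apply, Pi.add_apply, Pi.smul_apply, Pi.single_apply]
    rw [Finset.sum_eq_single k]
    · simp
    · intro b _ hb
      simp [hb.symm]
    · simp
  have h1 : fderiv ℝ f z v = ∑ i, ((v i).re * fderiv ℝ f z (Pi.single i (1 : ℂ)) +
      (v i).im * fderiv ℝ f z (Pi.single i Complex.I)) := by
    conv_lhs => rw [hv]
    simp only [map_sum, map_add, map_smul, smul_eq_mul]
  rw [h1, Complex.re_sum, Finset.mul_sum]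
  refine Finset.sum_congr rfl fun i _ => ?_
  simp only [pd, dz, h0]
  simp only [Complex.mul_re, Complex.div_re, Complex.sub_re, Complex.sub_im, Complex.ofReal_re,
    Complex.ofReal_im, Complex.I_re, Complex.I_im, Complex.mul_im, Complex.div_im]
  norm_num [Complex.normSq_apply]
  ring

end mat

section
variable {n q : ℕ} {Γ : Type} [Group Γ] {C : Coc n Γ} {F : Γ → C.I → Cm n → Cm q} {Kk : Set Γ}
  {T : Set (Cm q)}

/-- the derivative of `F` is `θ` -/
def DMap (θ : HF C q) (F : Γ → C.I → Cm n → Cm q) : Prop :=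
  ∀ γ a, ∀ z ∈ C.Ω a, ∀ (v : Cm n) (i : Fin q), fderiv ℂ (F γ a) z v i = ∑ j, θ.th a z j i * v j

theorem th_inj {θ : HF C q} (hd : DMap θ F) {γ : Γ} {a : C.I} {z : Cm n} (hz : z ∈ C.Ω a)
    (hs : Function.Surjective (fderiv ℂ (F γ a) z)) : Function.Injective (θ.th a z).mulVec := by
  rw [← Matrix.coe_mulVecLin, injective_iff_map_eq_zero]
  intro x hx
  have hx' : ∀ v : Cm n, ∑ i, x i * fderiv ℂ (F γ a) z v i = 0 := by
    intro v
    have h1 : ∀ j, ∑ i, θ.th a z j i * x i = 0 := fun j => congrFun hx j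
    calc ∑ i, x i * fderiv ℂ (F γ a) z v i = ∑ i, ∑ j, x i * (θ.th a z j i * v j) := by
          refine Finset.sum_congr rfl fun i _ => ?_
          rw [hd γ a z hz v i, Finset.mul_sum]
      _ = ∑ j, (∑ i, θ.th a z j i * x i) * v j := by
          rw [Finset.sum_comm]
          refine Finset.sum_congr rfl fun j _ => ?_
          rw [Finset.sum_mul]
          refine Finset.sum_congr rfl fun i _ => ?_
          ring
      _ = 0 := by simp [h1]
  ext i
  obtain ⟨v, hv⟩ := hs (Pi.single i 1)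
  have := hx' v
  rw [hv] at this
  simpa [Pi.single_apply] using this

/-- **Escape** -/
theorem esc_of (P : PU C) (K : KM C) (θ : HF C q) (hK : Kk.Infinite) (hT : TMap C F)
    (hC : VConn C F Kk T) (hd : DMap θ F) : Esc P K θ := by
  have hA := H279.a2Stmt
  have h3 := H913.V.v3Stmt
  rintro h hh ⟨B, hB⟩ hE f hf
  have hD0 : ∀ a, ∀ z ∈ C.Ω a, 0 ≤ dD K θ 0 a z := fun a z hz =>
    (hA.DD_nonneg (K.w a z) (θ.th a z) 0 (w_pos K hz) le_rfl).1
  have hAA : ∀ a, ∀ z ∈ C.Ω a, (AA (K.w a z) (θ.th a z) 0).PosSemidef := fun a z hz =>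
    hA.herm _ _ 0 (w_pos K hz) le_rfl
  have hvA0 : ∀ j γ a, ∀ z ∈ C.Ω a, 0 ≤ vA K θ 0 (h j) (h j) γ a z := fun j γ a z hz => by
    rw [vA, qf_eq]
    exact H730.V.S_nonneg (hAA a z hz) _
  have hsq : ∀ j γ a z, dD K θ 0 a z * (h j γ a z * h j γ a z) = h j γ a z ^ 2 * dD K θ 0 a z :=
    fun j γ a z => by ring
  have hcV : ∀ a, C.c a ∈ C.Ω a := fun a => V_sub a (mem_ball_self (by linarith [C.r_pos a]))
  have hS : VSeq C F T (fun _ a z => dD K θ 0 a z) h (fun j => vA K θ 0 (h j) (h j)) := by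
    refine ⟨fun j => (hh j).smooth, fun j => (hh j).compat, fun _ a => dD_cont K θ 0 a,
      fun _ a z hz => hD0 a z hz, ?_, ?_, ?_, fun j γ a => (fam_vA (hh j) (hh j) K θ 0).cont γ a,
      hvA0, ?_, ?_⟩
    · intro γ a z hz hzT
      have hzΩ := V_sub a hz
      have h1 : 0 < dD K θ 0 a z :=
        hA.DD_pos _ _ (w_pos K hzΩ) (th_inj hd hzΩ (hC.reg γ a z hz hzT))
      have h2 : ContinuousAt (dD K θ 0 a) z := (dD_cont K θ 0 a).continuousAt ((Ω_open a).mem_nhds hzΩ)
      refine ⟨{z' | dD K θ 0 a z / 2 < dD K θ 0 a z'}, ?_, dD K θ 0 a z / 2, half_pos h1,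
        fun _ z' hz' => le_of_lt hz'⟩
      exact h2.eventually_const_lt (half_lt_self h1)
    · have h1 : ∀ a, ∃ M, ∀ z ∈ C.V a, dD K θ 0 a z ≤ M := by
        intro a
        obtain ⟨M, hM⟩ := (isCompact_closedBall (C.c a) (3 * C.r a)).exists_bound_of_continuousOn
          ((dD_cont K θ 0 a).mono (cball_sub a))
        exact ⟨M, fun z hz => (le_abs_self _).trans (hM z (ball_subset_closedBall hz))⟩
      choose M hM using h1
      exact ⟨∑ a, |M a|, fun _ a z hz => (hM a z hz).trans ((le_abs_self _).trans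
        (Finset.single_le_sum (f := fun a => |M a|) (fun _ _ => abs_nonneg _)
          (Finset.mem_univ a)))⟩
    · refine ⟨B / K.lam, fun j a S => ?_⟩
      have h1 := H958.sum_le_Int h3 P K (fam_ip (hh j) (hh j) K θ 0)
        (fun γ a z hz => mul_nonneg (hD0 a z hz) (mul_self_nonneg _)) a S
      simp only [hsq] at h1
      refine h1.trans ?_
      have h2 := hB j
      simp only [ip, hsq] at h2
      exact div_le_div_of_nonneg_right h2 K.lam_pos.le
    · intro γ a z hz hzT
      have hzΩ := V_sub a hz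
      have h1 : 0 < dD K θ 0 a z :=
        hA.DD_pos _ _ (w_pos K hzΩ) (th_inj hd hzΩ (hC.reg γ a z hz hzT))
      have h2 : ContinuousAt (dD K θ 0 a) z := (dD_cont K θ 0 a).continuousAt ((Ω_open a).mem_nhds hzΩ)
      set c₀ := dD K θ 0 a z / 2 with hc₀
      have hc₀0 : 0 < c₀ := half_pos h1
      refine ⟨{z' | c₀ < dD K θ 0 a z'} ∩ C.Ω a,
        inter_mem (h2.eventually_const_lt (half_lt_self h1)) ((Ω_open a).mem_nhds hzΩ),
        4 * (|K.Lam| * n) / c₀, fun j z' hz' v hv => ?_⟩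
      obtain ⟨hz'1, hz'2⟩ := hz'
      have hz'3 : c₀ < DD (K.w a z') (θ.th a z') 0 := hz'1
      have e0 : ∀ i, ∑ k, θ.th a z' k i * v k = 0 := fun i => by
        rw [← hd γ a z' hz'2 v i, hv]; rfl
      have e1 := vert_le (w_pos K hz'2) (hAA a z' hz'2) (hc₀0.trans hz'3)
        (α := pd (h j γ a) z') e0
      rw [fderiv_re (((hh j).smooth γ a z' hz'2).differentiableAt (by norm_num)) v]
      have e2 : (H730.V.S (K.w a z') (star v) (star v)).re ≤ |K.Lam| * n * ‖v‖ ^ 2 := by
        have h3 := K.up a z' hz'2 v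
        have h4 := H730.V.form_eq (K.w a z') v
        have h5 : (fun j => conj (v j)) = star v := rfl
        rw [h5] at h4
        rw [h4] at h3
        refine h3.trans ?_
        have h6 : ∑ k, ‖v k‖ ^ 2 ≤ n * ‖v‖ ^ 2 := by
          calc ∑ k, ‖v k‖ ^ 2 ≤ ∑ _k : Fin n, ‖v‖ ^ 2 :=
                Finset.sum_le_sum fun k _ => pow_le_pow_left₀ (norm_nonneg _) (norm_le_pi_norm v k) 2
            _ = _ := by simp
        calc K.Lam * ∑ k, ‖v k‖ ^ 2 ≤ |K.Lam| * ∑ k, ‖v k‖ ^ 2 :=
              mul_le_mul_of_nonneg_right (le_abs_self _) (Finset.sum_nonneg fun _ _ => sq_nonneg _)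
          _ ≤ |K.Lam| * (n * ‖v‖ ^ 2) := mul_le_mul_of_nonneg_left h6 (abs_nonneg _)
          _ = _ := by ring
      have e3 : 0 ≤ vA K θ 0 (h j) (h j) γ a z' := hvA0 j γ a z' hz'2
      set s := (∑ i, v i * pd (h j γ a) z' i).re with hs
      have e4 : c₀ * s ^ 2 ≤ vA K θ 0 (h j) (h j) γ a z' * (|K.Lam| * n * ‖v‖ ^ 2) := by
        calc c₀ * s ^ 2 ≤ DD (K.w a z') (θ.th a z') 0 * s ^ 2 :=
              mul_le_mul_of_nonneg_right hz'3.le (sq_nonneg _)
          _ ≤ _ := e1
          _ ≤ _ := mul_le_mul_of_nonneg_left e2 e3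
      rw [div_mul_eq_mul_div, div_mul_eq_mul_div, le_div_iff₀ hc₀0]
      nlinarith
    · intro γ a
      refine squeeze_zero (fun j => setIntegral_nonneg (V_open a).measurableSet fun z hz =>
        hvA0 j γ a z (V_sub a hz)) (fun j => ?_) (g := fun j => en P K θ 0 (h j) (h j) / K.lam) ?_
      · have h1 := H958.sum_le_Int h3 P K (fam_vA (hh j) (hh j) K θ 0) (hvA0 j) a {γ}
        rwa [Finset.sum_singleton] at h1
      · have := hE.div_const K.lam
        rwa [zero_div] at this
  -- the conclusion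
  have key : ∀ γ a, Tendsto (fun j => ∫ z in C.V a, P.χ a a z *
      (dD K θ 0 a z * (h j γ a z * f γ a z)) * vol (K.w a) z) atTop (𝓝 0) := by
    intro γ a
    have h1 := vn2Stmt n q Γ C F Kk T _ h _ hK hT hC hS γ a
      (fun z => P.χ a a z * f γ a z * vol (K.w a) z) ?_
    · refine h1.congr fun j => ?_
      refine integral_congr_ae (Eventually.of_forall fun z => ?_)
      ring
    · refine ContinuousOn.mono ?_ (cball_sub a)
      refine ContinuousOn.mul (ContinuousOn.mul ?_ ?_) ?_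
      · exact fun z hz => (P.smooth a a z hz).continuousAt.continuousWithinAt
      · exact fun z hz => (hf.smooth γ a z hz).continuousAt.continuousWithinAt
      · exact H958.det_cont K a
  have hfin := hf.fin
  have e1 : ∀ j, ip P K θ 0 (h j) f = ∑ γ ∈ hfin.toFinset, ∑ a, ∫ z in C.V a, P.χ a a z *
      (dD K θ 0 a z * (h j γ a z * f γ a z)) * vol (K.w a) z := by
    intro j
    rw [ip, H894.V.Int]
    apply tsum_eq_sum
    intro γ hγ
    rw [hfin.mem_toFinset] at hγ
    refine Finset.sum_eq_zero fun a _ => ?_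
    refine setIntegral_eq_zero_of_forall_eq_zero fun z hz => ?_
    have : f γ a z = 0 := by
      by_contra h0
      exact hγ ⟨a, z, hz, h0⟩
    rw [this]
    ring
  simp only [e1]
  have h4 := tendsto_finsetSum hfin.toFinset fun γ _ =>
    tendsto_finsetSum Finset.univ fun a _ => key γ a
  simpa using h4

end

end Vale.Agent.P284.H551
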