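import Vale.Agent.P284.H551.ECoc
import Vale.Agent.P284.H551.Esc
import Vale.Agent.P284.H224.Top
import Vale.Agent.P284.H213.Grp.AsmS

/-!
# P284 (helper551): a holomorphic map on the covering in terms of the pieces; the escape hypothesis
-/

open scoped Manifold ContDiff Topology Pointwise ComplexConjugate ComplexOrder
open Filter Set Metric MeasureTheory

noncomputable section

namespace Vale.Agent.P284.H551

open Vale.Agent.P272.K Vale.Agent.P284.H248 Vale.Agent.P284.H894 Vale.Agent.P284.H894.G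
  Vale.Agent.P284.H894.V Vale.Agent.P284.H894.W Vale.Agent.P284.H402.A

section
variable {n q : ℕ} {Γ X E : Type} [Group Γ] [TopologicalSpace X] [ChartedSpace (Cm n) X]
    [TopologicalSpace E] [MulAction Γ E] {p : E → X} {C : Coc n Γ}

/-- the map on the pieces -/
def Fc (D : ECoc p C) (F : E → Cm q) (γ : Γ) (a : C.I) (z : Cm n) : Cm q := F (γ • D.σ a z)

variable (hG : IsGalois Γ p) (D : ECoc p C) {F : E → Cm q} {c : Γ → Cm q}
  {w : Chart n X → Cm n → Matrix (Fin n) (Fin n) ℂ} {B : ℝ}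

include hG in
/-- the map on the pieces is a local representative -/
theorem Fc_rep (F : E → Cm q) (γ : Γ) {a : C.I} {z : Cm n} (hz : z ∈ C.Ω a) :
    ∀ᶠ y in 𝓝 (γ • D.σ a z), F y = Fc D F γ a (D.e a (p y)) := by
  filter_upwards [D.ev hG γ hz] with y hy
  rw [Fc, hy.2.2]

include hG in
theorem Fc_hol (hF : HolB p w F B) (γ : Γ) {a : C.I} {z : Cm n} (hz : z ∈ C.Ω a) :
    DifferentiableAt ℂ (Fc D F γ a) z ∧ ∀ v : Cm n, ‖fderiv ℂ (Fc D F γ a) z v‖ ^ 2 ≤
      B * (∑ j, ∑ k, w (D.e a) z j k * v j * conj (v k)).re := by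
  obtain ⟨f, h1, h2, h3⟩ := hF (γ • D.σ a z) (D.e a) (D.at_sheet hG γ hz)
  rw [D.e_proj hG γ hz] at h2 h3
  have h4 : Fc D F γ a =ᶠ[𝓝 z] f := by
    have h5 : ∀ᶠ z' in 𝓝 z, F (γ • D.σ a z') = f (D.e a (p (γ • D.σ a z'))) :=
      (D.cont_at hG γ hz).eventually h1
    filter_upwards [h5, (isOpen_ball (x := C.c a) (ε := 4 * C.r a)).mem_nhds hz] with z' h6 h7
    rw [Fc, h6, D.e_proj hG γ h7]
  refine ⟨(h2.self_of_nhds).congr_of_eventuallyEq h4, fun v => ?_⟩
  rw [h4.fderiv_eq]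
  exact h3 v

include hG in
theorem tMap (hF : HolB p w F B) : TMap C (Fc D F) where
  holo := fun γ a z hz => (Fc_hol hG D hF γ hz).1.differentiableWithinAt
  compat := fun γ a b z hz => by rw [Fc, Fc, D.smul_T hz]

/-- one representative is enough for regularity -/
theorem reg_of_rep [IsManifold 𝓘(ℂ, Cm n) ω X] (hp : IsCoveringMap p) {y : E} {e : Chart n X}
    (ha : At e (p y)) {f : Cm n → Cm q} (hf : ∀ᶠ y' in 𝓝 y, F y' = f (e (p y')))
    (hd : DifferentiableAt ℂ f (e (p y))) (hs : Function.Surjective (fderiv ℂ f (e (p y)))) :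
    Reg (n := n) p F y := by
  intro e' f' he' hf'
  have hmap : map (fun y' => e' (p y')) (𝓝 y) = 𝓝 (e' (p y)) := by
    rw [← e'.map_nhds_eq he'.2, ← hp.isLocalHomeomorph.map_nhds_eq y, Filter.map_map]
    rfl
  have h1 : f' =ᶠ[𝓝 (e' (p y))] fun z => f (e (e'.symm z)) := by
    have h2 : ∀ᶠ z in map (fun y' => e' (p y')) (𝓝 y), f' z = f (e (e'.symm z)) := by
      rw [Filter.eventually_map]
      have h3 : ∀ᶠ y' in 𝓝 y, p y' ∈ e'.source :=
        (hp.continuous.continuousAt).eventually (e'.open_source.mem_nhds he'.2)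
      filter_upwards [hf', hf, h3] with y' a b c
      rw [← a, e'.left_inv c, ← b]
    rwa [hmap] at h2
  have hτ := transition_differentiableAt he' ha
  have hτ' := transition_differentiableAt ha he'
  have h4 : e (e'.symm (e' (p y))) = e (p y) := by rw [e'.left_inv he'.2]
  have hd' : DifferentiableAt ℂ f (e (e'.symm (e' (p y)))) := by rw [h4]; exact hd
  rw [h1.fderiv_eq]
  have h5 : fderiv ℂ (fun z => f (e (e'.symm z))) (e' (p y)) =
      (fderiv ℂ f (e (e'.symm (e' (p y))))).comp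
        (fderiv ℂ (fun z => e (e'.symm z)) (e' (p y))) :=
    fderiv_comp (g := f) (f := fun z => e (e'.symm z)) _ hd' hτ
  rw [h5, h4]
  have h6 : (fderiv ℂ (fun z => e (e'.symm z)) (e' (p y))).comp
      (fderiv ℂ (fun z => e' (e.symm z)) (e (p y))) = ContinuousLinearMap.id ℂ _ := by
    have h7 : e' (e.symm (e (p y))) = e' (p y) := by rw [e.left_inv ha.2]
    have hτ2 : DifferentiableAt ℂ (fun z => e (e'.symm z)) ((fun z => e' (e.symm z)) (e (p y))) := by
      show DifferentiableAt ℂ (fun z => e (e'.symm z)) (e' (e.symm (e (p y))))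
      rw [h7]
      exact hτ
    have h8 := fderiv_comp (g := fun z => e (e'.symm z)) (f := fun z => e' (e.symm z)) (e (p y))
      hτ2 hτ'
    simp only [h7] at h8
    rw [← h8]
    have h9 : ((fun z => e (e'.symm z)) ∘ fun z => e' (e.symm z)) =ᶠ[𝓝 (e (p y))] id := by
      filter_upwards [ha.nhds_at he'] with z hz
      show e (e'.symm (e' (e.symm z))) = z
      rw [e'.left_inv hz.2.2.2, e.right_inv hz.1]
    rw [h9.fderiv_eq, fderiv_id]
  intro v
  obtain ⟨u, hu⟩ := hs v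
  refine ⟨fderiv ℂ (fun z => e' (e.symm z)) (e (p y)) u, ?_⟩
  have h7 := congrArg (fun L => L u) h6
  simp only [ContinuousLinearMap.comp_apply, ContinuousLinearMap.id_apply] at h7
  rw [ContinuousLinearMap.comp_apply, h7, hu]

include hG in
theorem reg_iff [IsManifold 𝓘(ℂ, Cm n) ω X] (hF : HolB p w F B) (γ : Γ) {a : C.I} {z : Cm n}
    (hz : z ∈ C.Ω a) :
    Reg (n := n) p F (γ • D.σ a z) ↔ Function.Surjective (fderiv ℂ (Fc D F γ a) z) := by
  constructor
  · intro h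
    have h1 := h (D.e a) (Fc D F γ a) (D.at_sheet hG γ hz) (Fc_rep hG D F γ hz)
    rwa [D.e_proj hG γ hz] at h1
  · intro h
    refine reg_of_rep hG.cov (D.at_sheet hG γ hz) (Fc_rep hG D F γ hz) ?_ ?_
    · rw [D.e_proj hG γ hz]
      exact (Fc_hol hG D hF γ hz).1
    · rw [D.e_proj hG γ hz]
      exact h

/-- `F` is equivariant -/
def Eqv (F : E → Cm q) (c : Γ → Cm q) : Prop := ∀ (g : Γ) (y : E), F (g • y) = F y + c g

/-- the derivative does not depend on the sheet -/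
theorem Fc_fderiv (hc : Eqv F c) (γ : Γ) (a : C.I) (z : Cm n) :
    fderiv ℂ (Fc D F γ a) z = fderiv ℂ (Fc D F 1 a) z := by
  have h1 : Fc D F γ a = fun z => Fc D F 1 a z + (c γ - c 1) := by
    funext z
    simp only [Fc, hc γ, hc 1]
    abel
  rw [h1, fderiv_add_const]

/-- the matrix of the forms `dF_i` -/
def thF (D : ECoc p C) (F : E → Cm q) (a : C.I) (z : Cm n) : Matrix (Fin n) (Fin q) ℂ :=
  Matrix.of fun j i => fderiv ℂ (Fc D F 1 a) z (Pi.single j 1) i

theorem thF_apply (hc : Eqv F c) (γ : Γ) (a : C.I) (z v : Cm n) (i : Fin q) :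
    fderiv ℂ (Fc D F γ a) z v i = ∑ j, thF D F a z j i * v j := by
  rw [Fc_fderiv D hc γ a z]
  have hv : v = ∑ j, v j • (Pi.single j (1 : ℂ) : Cm n) := by
    ext k
    simp [Finset.sum_apply, Pi.single_apply]
  conv_lhs => rw [hv]
  rw [map_sum, Finset.sum_apply]
  refine Finset.sum_congr rfl fun j _ => ?_
  rw [map_smul, Pi.smul_apply, smul_eq_mul, mul_comm]
  rfl

include hG in
theorem Fc_an (hF : HolB p w F B) (γ : Γ) {a : C.I} {z : Cm n} (hz : z ∈ C.Ω a) :
    AnalyticAt ℂ (Fc D F γ a) z := by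
  rw [analyticAt_pi_iff]
  intro i
  refine Vale.Agent.P268.analyticAt_of_differentiableOn (Ω_open a) (f := fun z => Fc D F γ a z i)
    ?_ hz
  exact fun z hz => ((differentiableAt_pi.1 (Fc_hol hG D hF γ hz).1) i).differentiableWithinAt

theorem inj_of_surj {M : Matrix (Fin n) (Fin q) ℂ} {L : Cm n →L[ℂ] Cm q}
    (h : ∀ v i, L v i = ∑ j, M j i * v j) (hs : Function.Surjective L) :
    Function.Injective M.mulVec := by
  rw [← Matrix.coe_mulVecLin, injective_iff_map_eq_zero]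
  intro x hx
  have hx' : ∀ v : Cm n, ∑ i, x i * L v i = 0 := by
    intro v
    have h1 : ∀ j, ∑ i, M j i * x i = 0 := fun j => congrFun hx j
    calc ∑ i, x i * L v i = ∑ i, ∑ j, x i * (M j i * v j) := by
          refine Finset.sum_congr rfl fun i _ => ?_
          rw [h v i, Finset.mul_sum]
      _ = ∑ j, (∑ i, M j i * x i) * v j := by
          rw [Finset.sum_comm]
          refine Finset.sum_congr rfl fun j _ => ?_
          rw [Finset.sum_mul]
          refine Finset.sum_congr rfl fun i _ => ?_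
          ring
      _ = 0 := by simp [h1]
  ext i
  obtain ⟨v, hv⟩ := hs (Pi.single i 1)
  have := hx' v
  rw [hv] at this
  simpa [Pi.single_apply] using this

include hG in
theorem thF_closed (hF : HolB p w F B) {a : C.I} {z : Cm n} (hz : z ∈ C.Ω a) (i : Fin n)
    (j : Fin q) (k : Fin n) :
    dz k (fun y => thF D F a y i j) z = dz i (fun y => thF D F a y k j) z := by
  have h0 := Fc_an hG D hF 1 hz
  have h1 : AnalyticAt ℂ (fderiv ℂ (Fc D F 1 a)) z := h0.fderiv
  have h2 : ∀ l, HasFDerivAt (fun y => thF D F a y l j)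
      ((ContinuousLinearMap.proj j : Cm q →L[ℂ] ℂ).comp
        ((ContinuousLinearMap.apply ℂ (Cm q) (Pi.single l (1 : ℂ) : Cm n)).comp
          (fderiv ℂ (fderiv ℂ (Fc D F 1 a)) z))) z := by
    intro l
    have h3 := h1.differentiableAt.hasFDerivAt
    exact ((ContinuousLinearMap.proj j : Cm q →L[ℂ] ℂ).hasFDerivAt).comp z
      (((ContinuousLinearMap.apply ℂ (Cm q) (Pi.single l (1 : ℂ) : Cm n)).hasFDerivAt).comp z h3)
  rw [INT.dz_of_holo (h2 i).differentiableAt, INT.dz_of_holo (h2 k).differentiableAt,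
    (h2 i).fderiv, (h2 k).fderiv]
  have h4 : IsSymmSndFDerivAt ℂ (Fc D F 1 a) z :=
    (h0.contDiffAt (n := ω)).isSymmSndFDerivAt (by simp)
  have h5 := h4 (Pi.single k 1) (Pi.single i 1)
  simp only [ContinuousLinearMap.comp_apply, ContinuousLinearMap.apply_apply,
    ContinuousLinearMap.proj_apply]
  rw [h5]

include hG in
theorem thF_change (hF : HolB p w F B) (hc : Eqv F c) {a b : C.I} {z : Cm n} (hz : z ∈ C.O a b) :
    thF D F a z = (jac C a b z).transpose * thF D F b (C.T a b z) := by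
  have hzb : C.T a b z ∈ C.Ω b := by
    have := C.O_sub b a (C.T_mem a b z hz)
    exact this
  have hT : DifferentiableAt ℂ (C.T a b) z :=
    (C.T_holo a b).differentiableAt ((C.O_open a b).mem_nhds hz)
  have h1 : Fc D F 1 a =ᶠ[𝓝 z] fun z' => Fc D F (C.κ a b z) b (C.T a b z') := by
    filter_upwards [(C.O_open a b).mem_nhds hz, C.κ_loc a b z hz] with z' h2 h3
    have := (tMap hG D hF).compat 1 a b z' h2
    rw [this, h3, one_mul]
  have h2 : fderiv ℂ (fun z' => Fc D F (C.κ a b z) b (C.T a b z')) z =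
      (fderiv ℂ (Fc D F (C.κ a b z) b) (C.T a b z)).comp (fderiv ℂ (C.T a b) z) :=
    fderiv_comp (g := Fc D F (C.κ a b z) b) (f := C.T a b) z (Fc_hol hG D hF _ hzb).1 hT
  ext j i
  rw [Matrix.mul_apply]
  show fderiv ℂ (Fc D F 1 a) z (Pi.single j 1) i = _
  rw [h1.fderiv_eq, h2, ContinuousLinearMap.comp_apply, thF_apply D hc]
  refine Finset.sum_congr rfl fun k _ => ?_
  rw [mul_comm]
  congr 1
  rw [Matrix.transpose_apply, jac, Matrix.of_apply,
    INT.dz_of_holo ((differentiableAt_pi.1 hT) k), fderiv_apply hT]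
  rfl

include hG in
theorem thF_bd (K : KM C) (hKw : ∀ a, K.w a = w (D.e a)) (hF : HolB p w F B) {a : C.I} {z : Cm n}
    (hz : z ∈ C.Ω a) (i : Fin n) (j : Fin q) : ‖thF D F a z i j‖ ≤ |B| * |K.Lam| + 1 := by
  have h1 := (Fc_hol hG D hF 1 hz).2 (Pi.single i 1)
  rw [← hKw a] at h1
  have h2 := K.up a z hz (Pi.single i 1)
  have h3 := K.low a z hz (Pi.single i 1)
  have h4 : ∑ j, ‖(Pi.single i (1 : ℂ) : Cm n) j‖ ^ 2 = 1 := by
    rw [Finset.sum_eq_single i]
    · simp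
    · intro b _ hb
      simp [hb]
    · simp
  rw [h4, mul_one] at h2 h3
  set s := (∑ j, ∑ k, K.w a z j k * (Pi.single i (1 : ℂ) : Cm n) j *
    conj ((Pi.single i (1 : ℂ) : Cm n) k)).re with hs
  have h5 : 0 ≤ s := K.lam_pos.le.trans h3
  have h6 : B * s ≤ |B| * |K.Lam| :=
    mul_le_mul (le_abs_self B) (h2.trans (le_abs_self _)) h5 (abs_nonneg _)
  have h7 : ‖thF D F a z i j‖ ≤ ‖fderiv ℂ (Fc D F 1 a) z (Pi.single i 1)‖ :=
    norm_le_pi_norm (fderiv ℂ (Fc D F 1 a) z (Pi.single i 1)) j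
  have h8 := norm_nonneg (fderiv ℂ (Fc D F 1 a) z (Pi.single i 1))
  nlinarith

include hG in
theorem thF_dense [IsManifold 𝓘(ℂ, Cm n) ω X] [ConnectedSpace E] (hF : HolB p w F B)
    (hc : Eqv F c) (hreg : ∃ y, Reg (n := n) p F y) {a : C.I} {U : Set (Cm n)} (hU : IsOpen U)
    (hne : U.Nonempty) (hUs : U ⊆ C.Ω a) : ∃ z ∈ U, Function.Injective (thF D F a z).mulVec := by
  obtain ⟨z₀, hz₀⟩ := hne
  rcases Nat.eq_zero_or_pos q with hq | hq
  · subst hq
    exact ⟨z₀, hz₀, Function.injective_of_subsingleton _⟩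
  · have hz₀' := hUs hz₀
    have h1 := H10.reg_dense hq hG.cov hF hreg
    have h2 : ∀ᶠ y in 𝓝 ((1 : Γ) • D.σ a z₀), D.e a (p y) ∈ U := by
      have hpy : p ((1 : Γ) • D.σ a z₀) = (D.e a).symm z₀ := D.proj' hG 1 hz₀'
      have he : ContinuousAt (fun y => D.e a (p y)) ((1 : Γ) • D.σ a z₀) := by
        refine ContinuousAt.comp ?_ hG.cov.continuous.continuousAt
        rw [hpy]
        exact (D.e a).continuousAt (D.source hz₀')
      refine he.eventually ?_
      show ∀ᶠ y in 𝓝 (D.e a (p ((1 : Γ) • D.σ a z₀))), y ∈ U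
      rw [D.e_proj hG 1 hz₀']
      exact hU.mem_nhds hz₀
    obtain ⟨y, hy1, hy2⟩ := mem_closure_iff_nhds.1 (h1 ((1 : Γ) • D.σ a z₀)) _
      (h2.and (D.ev hG 1 hz₀'))
    obtain ⟨hy1, -, hy3, hy4⟩ := hy1
    refine ⟨_, hy1, ?_⟩
    have hy2' : Reg (n := n) p F y := hy2
    rw [← hy4, reg_iff hG D hF 1 hy3] at hy2'
    exact inj_of_surj (thF_apply D hc 1 a _) hy2'

/-- the forms `dF_i` on the pieces -/
def hfF [IsManifold 𝓘(ℂ, Cm n) ω X] [ConnectedSpace E] (hG : IsGalois Γ p) (D : ECoc p C)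
    (K : KM C) (hKw : ∀ a, K.w a = w (D.e a)) (hF : HolB p w F B) (hc : Eqv F c)
    (hreg : ∃ y, Reg (n := n) p F y) : HF C q where
  th := thF D F
  holo := fun a i j z hz => by
    have h1 : AnalyticAt ℂ (fderiv ℂ (Fc D F 1 a)) z := (Fc_an hG D hF 1 hz).fderiv
    have h2 : DifferentiableAt ℂ (fun z => fderiv ℂ (Fc D F 1 a) z (Pi.single i 1)) z :=
      h1.differentiableAt.clm_apply (differentiableAt_const _)
    exact ((differentiableAt_pi.1 h2) j).differentiableWithinAt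
  closed := fun a z hz i j k => thF_closed hG D hF hz i j k
  change := fun a b z hz => thF_change hG D hF hc hz
  B := |B| * |K.Lam| + 1
  bd := fun a z hz i j => thF_bd hG D K hKw hF hz i j
  dense := fun a U hU hne hUs => thF_dense hG D hF hc hreg hU hne hUs

include hG in
theorem dMap [IsManifold 𝓘(ℂ, Cm n) ω X] [ConnectedSpace E]
    (K : KM C) (hKw : ∀ a, K.w a = w (D.e a)) (hF : HolB p w F B) (hc : Eqv F c)
    (hreg : ∃ y, Reg (n := n) p F y) : DMap (hfF hG D K hKw hF hc hreg) (Fc D F) :=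
  fun γ a z _ v i => thF_apply D hc γ a z v i

/-- **connectedness of the fibres, in terms of the pieces** -/
theorem conn_of (hG : IsGalois Γ p) (D : ECoc p C) {τ : Cm q} (hconn : IsPreconnected (F ⁻¹' {τ}))
    {k : Γ} (hk : ∀ y, F (k • y) = F y) (Q : Γ → C.I → Cm n → Prop)
    (h1 : ∀ γ a b z, z ∈ C.O a b → z ∈ C.V a → C.T a b z ∈ C.V b → Fc D F γ a z = τ →
      Q γ a z → Q (γ * C.κ a b z) b (C.T a b z))
    (h2 : ∀ γ a z, z ∈ C.V a → Fc D F γ a z = τ → ∃ N ∈ 𝓝 z, ∀ z' ∈ N, Fc D F γ a z' = τ →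
      (Q γ a z ↔ Q γ a z'))
    {γ : Γ} {a : C.I} {z : Cm n} (hz : z ∈ C.V a) (hτ : Fc D F γ a z = τ) (hQ : Q γ a z) :
    Q (k * γ) a z := by
  classical
  -- independence of the representation
  have wd : ∀ {γ γ' : Γ} {a b : C.I} {z z' : Cm n}, z ∈ C.V a → z' ∈ C.V b →
      γ • D.σ a z = γ' • D.σ b z' → Fc D F γ a z = τ → Q γ a z → Q γ' b z' := by
    intro γ γ' a b z z' hz hz' h hτ hQ
    obtain ⟨h3, h4, h5⟩ := D.eq_imp hG (V_sub a hz) (V_sub b hz') h
    have h6 := h1 γ a b z h3 hz (by rw [h4]; exact hz') hτ hQ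
    rwa [h4, ← h5] at h6
  set f : E → Bool := fun y => decide (∃ (γ : Γ) (a : C.I) (z : Cm n), z ∈ C.V a ∧
    γ • D.σ a z = y ∧ Q γ a z) with hf
  have hfc : ContinuousOn f (F ⁻¹' {τ}) := by
    intro y hy
    obtain ⟨γ', b, h3, h4, h5⟩ := D.exists_sheet hG y
    set z' := D.e b (p y) with hz'
    have hz'V : z' ∈ C.V b := ball_subset_ball (by linarith [C.r_pos b]) h4
    have hFz' : Fc D F γ' b z' = τ := by rw [Fc, h5]; exact hy
    obtain ⟨N, hN, hN'⟩ := h2 γ' b z' hz'V hFz'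
    have hev := D.ev hG γ' (V_sub b hz'V)
    rw [h5] at hev
    have he : Tendsto (fun y => D.e b (p y)) (𝓝 y) (𝓝 z') :=
      (ContinuousAt.comp ((D.e b).continuousAt h3) hG.cov.continuous.continuousAt)
    have h6 : ∀ᶠ y' in 𝓝[F ⁻¹' {τ}] y, f y' = f y := by
      rw [eventually_nhdsWithin_iff]
      filter_upwards [hev, he hN, he ((V_open b).mem_nhds hz'V)] with y' h7 h8 h9 h10
      have h11 : Fc D F γ' b (D.e b (p y')) = τ := by rw [Fc, h7.2.2]; exact h10
      rw [hf]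
      simp only [decide_eq_decide]
      constructor
      · rintro ⟨γ₁, a₁, z₁, hz₁, hy₁, hQ₁⟩
        refine ⟨γ', b, z', hz'V, h5, ?_⟩
        refine (hN' _ h8 h11).2 ?_
        exact wd hz₁ h9 (by rw [hy₁, h7.2.2]) (by rw [Fc, hy₁]; exact h10) hQ₁
      · rintro ⟨γ₁, a₁, z₁, hz₁, hy₁, hQ₁⟩
        refine ⟨γ', b, _, h9, h7.2.2, ?_⟩
        refine (hN' _ h8 h11).1 ?_
        exact wd hz₁ hz'V (by rw [hy₁, h5]) (by rw [Fc, hy₁]; exact hy) hQ₁
    exact tendsto_const_nhds.congr' (h6.mono fun _ h => h.symm)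
  set y₀ := γ • D.σ a z with hy₀
  have hy₀τ : y₀ ∈ F ⁻¹' {τ} := hτ
  have hky₀ : k • y₀ ∈ F ⁻¹' {τ} := by
    show F (k • y₀) = τ
    rw [hk]
    exact hτ
  have h3 := hconn.constant hfc hy₀τ hky₀
  have h4 : f y₀ = true := by
    rw [hf]
    exact decide_eq_true ⟨γ, a, z, hz, rfl, hQ⟩
  rw [h4] at h3
  obtain ⟨γ₁, a₁, z₁, hz₁, hy₁, hQ₁⟩ := of_decide_eq_true h3.symm
  exact wd hz₁ hz (by rw [hy₁, hy₀, mul_smul]) (by rw [Fc, hy₁]; exact hky₀) hQ₁

end

end Vale.Agent.P284.H551
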