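import Vale.Agent.P284.H551.LE2
import Vale.Agent.P284.H619.Core0S

/-!
# P284 (helper551), piece L4 of T2: from almost pluriharmonic equivariant maps to a closed form

`PHSeq C U π b u`: a sequence of smooth maps `u k` on the covering (given on the pieces), equivariant under
the affine isometric actions with the linear part `π` and the translations `b k`, with bounded energy, and
with `∂∂̄ u k → 0` in `L²`; the `(1,0)` part of the energy does not tend to `0`.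
-/

open scoped Manifold ContDiff Topology InnerProductSpace ENNReal
open Filter Set Metric MeasureTheory

noncomputable section

namespace Vale.Agent.P284.H551

open Vale.Agent.P272.K Vale.Agent.P284.H894 Vale.Agent.P284.H894.G
  Vale.Agent.P284.H894.V Vale.Agent.P284.H366

/-- almost pluriharmonic equivariant maps -/
structure PHSeq {n : ℕ} {Γ : Type} [Group Γ] {W : Type} [NormedAddCommGroup W]
    [InnerProductSpace ℂ W] (C : Coc n Γ) (U : Ultrafilter ℕ) (π : Γ →* (W ≃ₗᵢ[ℂ] W))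
    (b : ℕ → Γ → W) (u : ℕ → Γ → C.I → Cm n → W) : Prop where
  smooth : ∀ k γ a, ∀ z ∈ C.Ω a, ContDiffAt ℝ ∞ (u k γ a) z
  compat : ∀ k γ a c, ∀ z ∈ C.O a c, z ∈ C.V a → C.T a c z ∈ C.V c →
    u k γ a z = u k (γ * C.κ a c z) c (C.T a c z)
  equi : ∀ k g γ a, ∀ z ∈ C.V a, u k (g * γ) a z = π g (u k γ a z) + b k g
  bd : ∃ B : ℝ, ∀ k a, ∫ z in C.V a, ‖fderiv ℝ (u k 1 a) z‖ ^ 2 ≤ B
  lev : ∀ a ξ, Tendsto (fun k => ∫ z in C.V a, ‖DB (fun y => DH (u k 1 a) y ξ) z‖ ^ 2) U (𝓝 0)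
  ne : ∃ a, ∃ K ⊆ C.V a, IsCompact K ∧ ∃ ξ,
    ¬ Tendsto (fun k => ∫ z in K, ‖DH (u k 1 a) z ξ‖ ^ 2) U (𝓝 0)

/-- The conclusion of `Lim0Stmt`. -/
def Lim0Concl {n : ℕ} {X E Γ : Type} [TopologicalSpace X] [ChartedSpace (Cm n) X]
    [TopologicalSpace E] [Group Γ] [MulAction Γ E] (p : E → X) : Prop :=
  ∃ (W : Type) (_ : NormedAddCommGroup W) (_ : InnerProductSpace ℂ W) (_ : CompleteSpace W)
    (π : Γ →* (W ≃ₗᵢ[ℂ] W)) (Θ : E → Chart n X → (Cm n →L[ℂ] W)) (u : E → W),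
    H619.CForm n p W Θ ∧ H619.Equi p π Θ ∧ H619.Pot0 p Θ u ∧
    (∀ g : Γ, ∃ b : W, ∀ y, u (g • y) = π g (u y) + b) ∧
    ∃ (y : E) (e : Chart n X), At e (p y) ∧ Θ y e ≠ 0

/-- **L4** -/
def L4Stmt : Prop :=
  ∀ (n : ℕ) (X : Type) [TopologicalSpace X] [ChartedSpace (Cm n) X] [IsManifold 𝓘(ℂ, Cm n) ω X]
    (E Γ : Type) [TopologicalSpace E] [ConnectedSpace E] [Group Γ] [MulAction Γ E]
    (p : E → X), IsGalois Γ p → ∀ (C : Coc n Γ), ECoc p C →
    ∀ (W : Type) [NormedAddCommGroup W] [InnerProductSpace ℂ W] [CompleteSpace W]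
      (U : Ultrafilter ℕ) (π : Γ →* (W ≃ₗᵢ[ℂ] W)) (b : ℕ → Γ → W)
      (u : ℕ → Γ → C.I → Cm n → W), PHSeq C U π b u → Lim0Concl (n := n) (Γ := Γ) p

end Vale.Agent.P284.H551
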