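import Vale.Agent.P284.H366.SF

/-!
# P284 (helper551): mollification of almost pluriharmonic functions
-/

open scoped ContDiff Topology ComplexConjugate
open MeasureTheory Set Filter Metric

noncomputable section

namespace Vale.Agent.P284.H551

open Vale.Agent.P272.K Vale.Agent.P272.K.INT Vale.Agent.P284.H513.V Vale.Agent.P284.H366

variable {n : ℕ} {E : Type*} [NormedAddCommGroup E] [NormedSpace ℂ E]

/-- the basis vector -/
def bv (j : Fin n) : Cm n := Pi.single j 1

lemma DB_bv (g : Cm n → ℂ) (y : Cm n) (j : Fin n) : DB g y (bv j) = dzb j g y := by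
  rw [DB_complex, Finset.sum_eq_single j]
  · simp [bv]
  · intro b _ hb
    simp [bv, hb]
  · simp

lemma DH_bv (g : Cm n → ℂ) (y : Cm n) (j : Fin n) : DH g y (bv j) = dz j g y := by
  rw [DH_complex, Finset.sum_eq_single j]
  · simp [bv]
  · intro b _ hb
    simp [bv, hb]
  · simp

lemma norm_bv_le (j : Fin n) : ‖(bv j : Cm n)‖ ≤ 1 := by
  rw [pi_norm_le_iff_of_nonneg zero_le_one]
  intro i
  by_cases h : i = j
  · subst h; simp [bv]
  · simp [bv, h]

/-- the coefficient `∂_j ∂̄_j g` -/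
def LL (g : Cm n → E) (j : Fin n) (y : Cm n) : E := DB (fun y => DH g y (bv j)) y (bv j)

lemma DH_clm {F : Type*} [NormedAddCommGroup F] [NormedSpace ℂ F] {g : Cm n → E} {y : Cm n}
    (hg : DifferentiableAt ℝ g y) (l : E →L[ℂ] F) (t : Cm n) :
    DH (fun z => l (g z)) y t = l (DH g y t) := by
  rw [DH, DH, fderiv_clm hg, fderiv_clm hg, l.map_smul, l.map_sub, l.map_smul]

lemma contDiff_DH {g : Cm n → E} {k : ℕ} (hg : ContDiff ℝ (k + 1 : ℕ) g) (t : Cm n) :
    ContDiff ℝ k fun y => DH g y t := by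
  have h : ContDiff ℝ k (fderiv ℝ g) := hg.fderiv_right (by norm_cast)
  have h1 : ∀ t, ContDiff ℝ k fun y => fderiv ℝ g y t := fun t => h.clm_apply contDiff_const
  exact ((h1 t).sub ((h1 _).const_smul Complex.I)).const_smul (1 / 2 : ℂ)

lemma continuous_LL {g : Cm n → E} (hg : ContDiff ℝ 2 g) (j : Fin n) : Continuous (LL g j) := by
  have h := contDiff_DH (k := 1) (by exact_mod_cast hg) (bv j)
  exact (continuous_DB (by exact_mod_cast h)).clm_apply continuous_const

lemma LL_clm {F : Type*} [NormedAddCommGroup F] [NormedSpace ℂ F] {g : Cm n → E}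
    (hg : ContDiff ℝ 2 g) (l : E →L[ℂ] F) (j : Fin n) (y : Cm n) :
    LL (fun z => l (g z)) j y = l (LL g j y) := by
  unfold LL
  have h1 : (fun y => DH (fun z => l (g z)) y (bv j)) = fun y => l (DH g y (bv j)) := by
    funext y
    exact DH_clm (hg.differentiable (by norm_num) y) l _
  have h := contDiff_DH (k := 1) (by exact_mod_cast hg) (bv j)
  rw [h1, DB_clm (h.differentiable (by norm_num) y) l]

lemma LL_complex (g : Cm n → ℂ) (j : Fin n) (y : Cm n) : LL g j y = dzb j (dz j g) y := by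
  unfold LL
  rw [DB_bv]
  congr 1
  funext y
  exact DH_bv g y j

section
variable {δ : ℝ} {η Θ : Cm n → ℝ} (m : Mol δ η Θ)
include m

/-- representation of `mv η g - g` by the Hessian, complex valued -/
lemma rep2_complex {g : Cm n → ℂ} (hg : ContDiff ℝ 2 g) (z : Cm n) :
    mv η g z - g z = ∫ p in KK n δ, (Θ p.2 : ℂ) *
      (2 * p.1 * ∑ j, LL g j (z + p.1 • p.2)) := by
  have hg1 : ContDiff ℝ 1 g := hg.of_le (by norm_num)
  have hη : Continuous η := m.smooth.continuous
  have hH : ∀ j, Continuous fun y => LL g j y := fun j => continuous_LL hg j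
  have hg' : Continuous (fderiv ℝ g) := hg1.continuous_fderiv (by norm_num)
  rw [m.taylor hg1]
  rw [KK_t (W := fun p => (η p.2 : ℂ) * fderiv ℝ g (z + p.1 • p.2) p.2)
    ((Complex.continuous_ofReal.comp (hη.comp continuous_snd)).mul
      ((hg'.comp (by fun_prop)).clm_apply continuous_snd))
    (fun s t ht => by simp [m.zero t ht])]
  have cW : Continuous fun p : ℝ × Cm n => (Θ p.2 : ℂ) *
      (2 * p.1 * ∑ j, LL g j (z + p.1 • p.2)) := by
    refine (Complex.continuous_ofReal.comp (m.th1.continuous.comp continuous_snd)).mul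
      ((continuous_const.mul (Complex.continuous_ofReal.comp continuous_fst)).mul ?_)
    exact continuous_finsetSum _ fun j _ => (hH j).comp (by fun_prop)
  rw [KK_t (W := fun p => (Θ p.2 : ℂ) * (2 * p.1 * ∑ j, LL g j (z + p.1 • p.2))) cW
    (fun s t ht => by simp [m.thz t ht])]
  refine setIntegral_congr_fun measurableSet_Icc fun s _ => ?_
  change ∫ t, (η t : ℂ) * fderiv ℝ g (z + s • t) t = ∫ t, (Θ t : ℂ) *
      (2 * s * ∑ j, LL g j (z + s • t))
  rw [m.radial hg1]
  have e1 : ∀ j, (∫ t, (η t : ℂ) * (t j * dz j g (z + s • t))) +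
        ∫ t, (η t : ℂ) * (conj (t j) * dzb j g (z + s • t)) =
        ∫ t, (Θ t : ℂ) * (2 * s * LL g j (z + s • t)) := by
    intro j
    rw [m.ibp_b (contDiff_dz hg (m := 1) (by norm_num) j),
      m.ibp (contDiff_dzb hg (m := 1) (by norm_num) j)]
    have e3 : ∀ y, dz j (dzb j g) y = dzb j (dz j g) y := fun y =>
      (INT.dz_dzb_comm hg.contDiffAt)
    have e2 : ∀ y, dzb j (dz j g) y = LL g j y := fun y => (LL_complex g j y).symm
    simp only [e3, e2]
    have hc : Continuous fun t : Cm n => (s : ℂ) * LL g j (z + s • t) :=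
      continuous_const.mul ((hH j).comp (by fun_prop))
    rw [← integral_add (m.int_Θ hc) (m.int_Θ hc)]
    refine integral_congr_ae (Eventually.of_forall fun t => ?_)
    ring
  simp only [e1]
  have i4 : ∀ j, Integrable fun t : Cm n => (Θ t : ℂ) * (2 * s * LL g j (z + s • t)) :=
    fun j => m.int_Θ (continuous_const.mul ((hH j).comp (by fun_prop)))
  rw [← integral_finsetSum _ fun j _ => i4 j]
  refine integral_congr_ae (Eventually.of_forall fun t => ?_)
  simp only [Finset.mul_sum]

variable [CompleteSpace E]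

/-- representation of `mv η g - g` by the Hessian, vector valued -/
lemma rep2 {g : Cm n → E} (hg : ContDiff ℝ 2 g) (z : Cm n) :
    mv η g z - g z = ∫ p in KK n δ, Θ p.2 •
      ((2 * p.1 : ℂ) • ∑ j, LL g j (z + p.1 • p.2)) := by
  have hH : ∀ j, Continuous fun y => LL g j y := fun j => continuous_LL hg j
  have hc' : Continuous fun p : ℝ × Cm n => Θ p.2 •
      ((2 * p.1 : ℂ) • ∑ j, LL g j (z + p.1 • p.2)) := by
    refine (m.th1.continuous.comp continuous_snd).smul (Continuous.smul ?_ ?_)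
    · exact continuous_const.mul (Complex.continuous_ofReal.comp continuous_fst)
    · exact continuous_finsetSum _ fun j _ => (hH j).comp (by fun_prop)
  refine (SeparatingDual.eq_iff_forall_dual_eq (R := ℂ)).2 fun l => ?_
  rw [← l.integral_comp_comm (int_KK hc' δ), map_sub, ← mv_clm m hg.continuous l]
  have h1 : ContDiff ℝ 2 fun y => l (g y) := (l.restrictScalars ℝ).contDiff.comp hg
  rw [rep2_complex m h1]
  refine setIntegral_congr_fun (measurableSet_KK n δ) fun p _ => ?_
  have h : l ((Θ p.2 : ℝ) • ((2 * p.1 : ℂ) • ∑ j, LL g j (z + p.1 • p.2))) =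
      (Θ p.2 : ℝ) • l ((2 * p.1 : ℂ) • ∑ j, LL g j (z + p.1 • p.2)) :=
    map_real_smul l l.continuous _ _
  simp only [LL_clm hg]
  rw [h, map_smul, map_sum]
  simp

end

/-- the distance to the mollified function is controlled by `∂∂̄` -/
lemma dist_mol2 [CompleteSpace E] {δ : ℝ} {η Θ : Cm n → ℝ} (m : Mol δ η Θ) {g : Cm n → E}
    (hg : ContDiff ℝ 2 g) {c : Cm n} {r R : ℝ} (hR : r + δ ≤ R) :
    ∫ z in ball c r, ‖mv η g z - g z‖ ^ 2 ≤
      ((∫ p in KK n δ, Θ p.2) ^ 2 * (4 * n)) * ∑ j, ∫ z in ball c R, ‖LL g j z‖ ^ 2 := by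
  have hH : ∀ j, Continuous fun y => LL g j y := fun j => continuous_LL hg j
  have h := basicE (H := fun y => (4 * n) * ∑ j, ‖LL g j y‖ ^ 2)
    (A := fun z => mv η g z - g z)
    (G := fun z p => (2 * p.1 : ℂ) • ∑ j, LL g j (z + p.1 • p.2)) m.th1.continuous m.thn m.thz
    (continuous_const.mul (continuous_finsetSum _ fun j _ => (hH j).norm.pow 2))
    (fun y => by positivity)
    (fun z => rep2 m hg z) (fun z p hp => by
      have hs := hp.1
      have h1 : ‖∑ j, LL g j (z + p.1 • p.2)‖ ≤ ∑ j, ‖LL g j (z + p.1 • p.2)‖ :=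
        norm_sum_le _ _
      have h2 := sum_sq_le fun j => ‖LL g j (z + p.1 • p.2)‖
      rw [norm_smul, norm_mul, Complex.norm_real, Real.norm_of_nonneg hs.1, Complex.norm_ofNat]
      calc (2 * p.1 * ‖∑ j, LL g j (z + p.1 • p.2)‖) ^ 2 ≤
            (2 * 1 * ∑ j, ‖LL g j (z + p.1 • p.2)‖) ^ 2 := by
            have := hs.2
            have := hs.1
            gcongr
        _ = 4 * (∑ j, ‖LL g j (z + p.1 • p.2)‖) ^ 2 := by ring
        _ ≤ 4 * (n * ∑ j, ‖LL g j (z + p.1 • p.2)‖ ^ 2) := by gcongr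
        _ = _ := by ring) (c := c) hR
  rw [integral_const_mul] at h
  have h3 : ∫ z in ball c R, ∑ j, ‖LL g j z‖ ^ 2 = ∑ j, ∫ z in ball c R, ‖LL g j z‖ ^ 2 := by
    refine integral_finsetSum _ fun j _ => ?_
    exact (((hH j).norm.pow 2).continuousOn.integrableOn_compact
      (isCompact_closedBall c R)).mono_set ball_subset_closedBall
  rw [h3] at h
  rw [mul_assoc]
  exact h

end Vale.Agent.P284.H551
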