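import Vale.Agent.P284.H551.L4A

/-!
# P284 (helper551): limits of almost pluriharmonic sequences on a ball
-/

open scoped ContDiff Topology ComplexConjugate InnerProductSpace
open MeasureTheory Set Filter Metric

noncomputable section

namespace Vale.Agent.P284.H551

open Vale.Agent.P272.K Vale.Agent.P272.K.INT Vale.Agent.P284.H513.V Vale.Agent.P284.H366

variable {n : ℕ} {H : ℕ → Type} [∀ k, NormedAddCommGroup (H k)] [∀ k, InnerProductSpace ℂ (H k)]
  {U : Ultrafilter ℕ}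

lemma LL_congr {E : Type*} [NormedAddCommGroup E] [NormedSpace ℂ E] {f g : Cm n → E} {z : Cm n}
    (h : f =ᶠ[𝓝 z] g) (j : Fin n) : LL f j z = LL g j z := by
  have h1 : (fun y => DH f y (bv j)) =ᶠ[𝓝 z] fun y => DH g y (bv j) := by
    filter_upwards [h.eventually_nhds] with y hy
    have hy' : f =ᶠ[𝓝 y] g := hy
    rw [DH, DH, hy'.fderiv_eq]
  unfold LL
  rw [DB_congr h1]

/-- an almost pluriharmonic sequence, bounded in `L²`, on a ball -/
structure PLSeq (U : Ultrafilter ℕ) (c : Cm n) (R : ℝ) (φ : ∀ k, Cm n → H k) : Prop where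
  pos : 0 < R
  smooth : ∀ k, ∀ z ∈ closedBall c R, ContDiffAt ℝ ∞ (φ k) z
  bd : ∃ B : ℝ, ∀ k, ∫ z in ball c R, ‖φ k z‖ ^ 2 ≤ B
  lev : ∀ j, Tendsto (fun k => ∫ z in ball c R, ‖LL (φ k) j z‖ ^ 2) U (𝓝 0)

/-- uniform bounds for the mollified functions -/
structure VB0 (c : Cm n) (r C : ℝ) (v : ∀ k, Cm n → H k) : Prop where
  nn : 0 ≤ C
  bd : ∀ k, ∀ z ∈ closedBall c r, ‖v k z‖ ≤ C
  lip : ∀ k, ∀ z ∈ closedBall c r, ∀ z' ∈ closedBall c r, ‖v k z - v k z'‖ ≤ C * ‖z - z'‖
  diff : ∀ k, ∀ z ∈ ball c r, DifferentiableAt ℝ (v k) z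
  dbd : ∀ k, ∀ z ∈ ball c r, ‖fderiv ℝ (v k) z‖ ≤ C
  dlip : ∀ k, ∀ z ∈ ball c r, ∀ z' ∈ ball c r,
    ‖fderiv ℝ (v k) z - fderiv ℝ (v k) z'‖ ≤ C * ‖z - z'‖

section
variable {c : Cm n} {R r δ : ℝ} {η Θ : Cm n → ℝ} {φ : ∀ k, Cm n → H k}

/-- global models of the functions of the sequence -/
lemma PLSeq.ext (h : PLSeq U c R φ) : ∃ g : ∀ k, Cm n → H k, (∀ k, ContDiff ℝ 4 (g k)) ∧
    (∀ k, HasCompactSupport (g k)) ∧ (∀ k, ∀ z ∈ closedBall c R, φ k =ᶠ[𝓝 z] g k) ∧
    (∃ B : ℝ, 0 ≤ B ∧ ∀ k, ∫ z in ball c R, ‖g k z‖ ≤ B) ∧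
    ∀ j, Tendsto (fun k => ∫ z in ball c R, ‖LL (g k) j z‖ ^ 2) U (𝓝 0) := by
  choose g h1 h2 h3 using fun k => exists_extE h.pos (h.smooth k)
  refine ⟨g, h1, h2, h3, ?_, fun j => ?_⟩
  · obtain ⟨B, hB⟩ := h.bd
    have hv : 0 ≤ volume.real (ball c R) := measureReal_nonneg
    refine ⟨Real.sqrt (volume.real (ball c R) * |B|), Real.sqrt_nonneg _, fun k => ?_⟩
    refine Real.le_sqrt_of_sq_le ((int_norm_le (h1 k).continuous c R).trans ?_)
    refine mul_le_mul_of_nonneg_left (le_trans (le_of_eq ?_) ((hB k).trans (le_abs_self B))) hv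
    refine setIntegral_congr_fun measurableSet_ball fun z hz => ?_
    rw [(h3 k z (ball_subset_closedBall hz)).eq_of_nhds]
  · refine (h.lev j).congr fun k => ?_
    refine setIntegral_congr_fun measurableSet_ball fun z hz => ?_
    rw [LL_congr (h3 k z (ball_subset_closedBall hz))]

variable [∀ k, CompleteSpace (H k)]

lemma PLSeq.vb (h : PLSeq U c R φ) (m : Mol δ η Θ) (hR : r + δ ≤ R) :
    ∃ C, VB0 c r C (fun k => mv η (φ k)) := by
  obtain ⟨g, h1, h2, h3, ⟨B, hB0, hB⟩, -⟩ := h.ext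
  obtain ⟨K, hK⟩ := exists_molC m
  have e0 : ∀ k, ∀ z ∈ closedBall c r, mv η (φ k) z = mv η (g k) z := fun k z hz =>
    mv_eq_of_ext m.zero (h3 k) hR hz
  have e1 : ∀ k, ∀ z ∈ ball c r, mv η (φ k) =ᶠ[𝓝 z] mv η (g k) := fun k z hz =>
    mem_of_superset (isOpen_ball.mem_nhds hz) fun y hy => e0 k y (ball_subset_closedBall hy)
  have d1 : ∀ k z, DifferentiableAt ℝ (mv η (g k)) z := fun k z =>
    (mv_hasFDerivAt m.smooth.continuous m.hcs ((h1 k).of_le (by norm_num)) (h2 k) z).differentiableAt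
  have c1 : ∀ k, Continuous (g k) := fun k => (h1 k).continuous
  refine ⟨K * B, mul_nonneg hK.nn hB0, fun k z hz => ?_, fun k z hz z' hz' => ?_,
    fun k z hz => ?_, fun k z hz => ?_, fun k z hz z' hz' => ?_⟩
  · rw [e0 k z hz]
    exact (norm_mv_le m.zero hK.b0 (c1 k) hz hR).trans (mul_le_mul_of_nonneg_left (hB k) hK.nn)
  · rw [e0 k z hz, e0 k z' hz']
    refine (norm_mv_sub_le m.zero m.smooth.continuous hK.l0 (c1 k) hz hz' hR).trans ?_
    calc K * ‖z - z'‖ * ∫ y in ball c R, ‖g k y‖ ≤ K * ‖z - z'‖ * B :=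
          mul_le_mul_of_nonneg_left (hB k) (mul_nonneg hK.nn (norm_nonneg _))
      _ = _ := by ring
  · exact (d1 k z).congr_of_eventuallyEq (e1 k z hz)
  · rw [(e1 k z hz).fderiv_eq]
    refine ContinuousLinearMap.opNorm_le_bound _ (mul_nonneg hK.nn hB0) fun v => ?_
    rw [fderiv_mv_eq m (h1 k) (h2 k)]
    refine (norm_mv_le (hK.z1 v) (hK.b1 v) (c1 k) (ball_subset_closedBall hz) hR).trans ?_
    calc K * ‖v‖ * ∫ y in ball c R, ‖g k y‖ ≤ K * ‖v‖ * B :=
          mul_le_mul_of_nonneg_left (hB k) (mul_nonneg hK.nn (norm_nonneg _))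
      _ = _ := by ring
  · rw [(e1 k z hz).fderiv_eq, (e1 k z' hz').fderiv_eq]
    refine ContinuousLinearMap.opNorm_le_bound _
      (mul_nonneg (mul_nonneg hK.nn hB0) (norm_nonneg _)) fun v => ?_
    rw [sub_apply, fderiv_mv_eq m (h1 k) (h2 k),
      fderiv_mv_eq m (h1 k) (h2 k)]
    refine (norm_mv_sub_le (hK.z1 v) (hK.c1 v) (hK.l1 v) (c1 k) (ball_subset_closedBall hz)
      (ball_subset_closedBall hz') hR).trans ?_
    calc K * ‖v‖ * ‖z - z'‖ * ∫ y in ball c R, ‖g k y‖ ≤ K * ‖v‖ * ‖z - z'‖ * B :=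
          mul_le_mul_of_nonneg_left (hB k)
            (mul_nonneg (mul_nonneg hK.nn (norm_nonneg _)) (norm_nonneg _))
      _ = _ := by ring

lemma Mol.nonneg_δ (m : Mol δ η Θ) : 0 ≤ δ := by
  by_contra hc
  push Not at hc
  have : ∫ t, η t = 0 := by
    rw [integral_congr_ae (g := fun _ => 0) (Eventually.of_forall fun t =>
      m.zero t (hc.le.trans (norm_nonneg t)))]
    simp
  rw [m.one] at this
  exact one_ne_zero this

/-- the sequence is close to the mollified one -/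
lemma PLSeq.close (h : PLSeq U c R φ) (m : Mol δ η Θ) (hR : r + δ ≤ R) :
    Tendsto (fun k => ∫ z in ball c r, ‖mv η (φ k) z - φ k z‖ ^ 2) U (𝓝 0) := by
  obtain ⟨g, h1, h2, h3, -, h5⟩ := h.ext
  have hd : 0 ≤ δ := Mol.nonneg_δ m
  have hr : ball c r ⊆ closedBall c R := fun z hz => by
    rw [mem_ball] at hz
    rw [mem_closedBall]
    linarith
  have h6 : Tendsto (fun k => ∑ j, ∫ z in ball c R, ‖LL (g k) j z‖ ^ 2) U (𝓝 0) := by
    have := tendsto_finsetSum (f := fun j k => ∫ z in ball c R, ‖LL (g k) j z‖ ^ 2)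
      (a := fun _ => (0 : ℝ)) (x := (U : Filter ℕ)) Finset.univ fun j _ => h5 j
    simpa using this
  refine squeeze_zero (fun k => integral_nonneg fun z => sq_nonneg _) (fun k => ?_)
    (by simpa using h6.const_mul ((∫ p in KK n δ, Θ p.2) ^ 2 * (4 * n)))
  refine le_trans (le_of_eq ?_) (dist_mol2 m ((h1 k).of_le (by norm_num)) hR)
  refine setIntegral_congr_fun measurableSet_ball fun z hz => ?_
  rw [(h3 k z (hr hz)).eq_of_nhds, mv_eq_of_ext m.zero (h3 k) hR (ball_subset_closedBall hz)]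

omit [∀ k, CompleteSpace (H k)] in
lemma PLSeq.contOn (h : PLSeq U c R φ) (k : ℕ) : ContinuousOn (φ k) (closedBall c R) :=
  fun z hz => (h.smooth k z hz).continuousAt.continuousWithinAt

omit [∀ k, CompleteSpace (H k)] in
lemma VB0.contOn {C : ℝ} {v : ∀ k, Cm n → H k} (h : VB0 c r C v) (k : ℕ) :
    ContinuousOn (v k) (closedBall c r) := by
  have hl : LipschitzOnWith (Real.toNNReal C) (v k) (closedBall c r) :=
    LipschitzOnWith.of_dist_le_mul fun z hz z' hz' => by
      rw [dist_eq_norm, dist_eq_norm, Real.coe_toNNReal _ h.nn]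
      exact h.lip k z hz z' hz'
  exact hl.continuousOn

lemma PLSeq.appr (h : PLSeq U c R φ) (m : Mol δ η Θ) (hR : r + δ ≤ R) {z₀ : Cm n}
    (hz : z₀ ∈ ball c r) : Appr U z₀ (fun k => mv η (φ k)) φ := by
  obtain ⟨C, hv⟩ := h.vb m hR
  obtain ⟨ρ, hρ, hb⟩ := Metric.isOpen_iff.1 isOpen_ball z₀ hz
  have hδ := Mol.nonneg_δ m
  have hc : ball c r ⊆ closedBall c R := fun z hz => by
    rw [mem_ball] at hz
    rw [mem_closedBall]
    linarith
  have i1 : ∀ k, IntegrableOn (fun z => ‖mv η (φ k) z - φ k z‖ ^ 2) (ball c r) := fun k =>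
    intOn ((((hv.contOn k).sub ((h.contOn k).mono
      (closedBall_subset_closedBall (by linarith)))).norm).pow 2)
  refine ⟨ρ, C, hρ, hv.nn, fun k z hz => hv.bd k z (ball_subset_closedBall (hb hz)),
    fun k z hz z' hz' => hv.lip k z (ball_subset_closedBall (hb hz)) z'
      (ball_subset_closedBall (hb hz')), fun k => (h.contOn k).mono (hb.trans hc),
    fun k => (i1 k).mono_set hb, ?_⟩
  refine squeeze_zero (fun k => integral_nonneg fun z => sq_nonneg _) (fun k => ?_) (h.close m hR)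
  exact setIntegral_mono_set (i1 k) (Eventually.of_forall fun z => sq_nonneg _) hb.eventuallyLE

/-- mollification commutes with the differential -/
lemma PLSeq.fderiv_mv (h : PLSeq U c R φ) (m : Mol δ η Θ) (hR : r + δ ≤ R) (k : ℕ)
    {z : Cm n} (hz : z ∈ ball c r) (t : Cm n) :
    fderiv ℝ (mv η (φ k)) z t = mv η (fun y => fderiv ℝ (φ k) y t) z := by
  obtain ⟨g, h1, h2, h3, -, -⟩ := h.ext
  have e1 : mv η (φ k) =ᶠ[𝓝 z] mv η (g k) :=
    mem_of_superset (isOpen_ball.mem_nhds hz) fun y hy =>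
      mv_eq_of_ext m.zero (h3 k) hR (ball_subset_closedBall hy)
  rw [e1.fderiv_eq, mv_fderiv m.smooth.continuous m.hcs ((h1 k).of_le (by norm_num)) (h2 k)]
  refine mv_congr m.zero (ball_subset_closedBall hz) hR fun y hy => ?_
  rw [(h3 k y (ball_subset_closedBall hy)).fderiv_eq]

lemma PLSeq.DH_mv (h : PLSeq U c R φ) (m : Mol δ η Θ) (hR : r + δ ≤ R) (k : ℕ)
    {z : Cm n} (hz : z ∈ ball c r) (t : Cm n) :
    DH (mv η (φ k)) z t = mv η (fun y => DH (φ k) y t) z := by
  have cf : ∀ t : Cm n, ContinuousOn (fun y => fderiv ℝ (φ k) y t) (ball c R) := by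
    intro t y hy
    have h1 := h.smooth k y (ball_subset_closedBall hy)
    have h2 : ContinuousAt (fderiv ℝ (φ k)) y :=
      (h1.fderiv_right (m := 0) (by simp)).continuousAt
    exact (h2.clm_apply continuousAt_const).continuousWithinAt
  have e2 : (fun y => DH (φ k) y t) = fun y =>
      (1 / 2 : ℂ) • (fderiv ℝ (φ k) y t + (-Complex.I) • fderiv ℝ (φ k) y (Complex.I • t)) := by
    funext y
    rw [DH, neg_smul, sub_eq_add_neg]
  have e4 := mv_add m hR hz (cf t) (G := fun y => (-Complex.I) •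
    fderiv ℝ (φ k) y (Complex.I • t)) ((cf _).const_smul _)
  rw [e2, mv_smul, e4, mv_smul]
  rw [DH, h.fderiv_mv m hR k hz, h.fderiv_mv m hR k hz, neg_smul, sub_eq_add_neg]

end

/-! ### The limit of a sequence with uniform bounds -/

section
variable {c : Cm n} {r C : ℝ} {v : ∀ k, Cm n → H k}

lemma VB0.bdd (h : VB0 c r C v) {z : Cm n} (hz : z ∈ closedBall c r) : Bd fun k => v k z :=
  ⟨C, fun k => h.bd k z hz⟩

lemma VB0.dbdd (h : VB0 c r C v) {z : Cm n} (hz : z ∈ ball c r) (t : Cm n) :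
    Bd fun k => fderiv ℝ (v k) z t :=
  ⟨C * ‖t‖, fun k => (ContinuousLinearMap.le_opNorm _ _).trans
    (mul_le_mul_of_nonneg_right (h.dbd k z hz) (norm_nonneg _))⟩

/-- the real differential of the limit -/
def VB0.D (h : VB0 c r C v) (U : Ultrafilter ℕ) {z : Cm n} (hz : z ∈ ball c r) :
    Cm n →L[ℝ] UP H U :=
  LinearMap.mkContinuous
    { toFun := fun t => H366.mk U fun k => fderiv ℝ (v k) z t
      map_add' := fun s t => by
        rw [← mk_add (h.dbdd hz s) (h.dbdd hz t)]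
        congr 1
        funext k
        exact map_add _ _ _
      map_smul' := fun x t => by
        have h1 : x • H366.mk U (fun k => fderiv ℝ (v k) z t) =
            (x : ℂ) • H366.mk U (fun k => fderiv ℝ (v k) z t) := (Complex.coe_smul _ _).symm
        rw [RingHom.id_apply, h1, ← mk_smul _ (h.dbdd hz t)]
        congr 1
        funext k
        rw [map_smul]
        exact (Complex.coe_smul x _).symm }
    C fun t => norm_mk_le fun k => (ContinuousLinearMap.le_opNorm _ _).trans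
      (mul_le_mul_of_nonneg_right (h.dbd k z hz) (norm_nonneg _))

lemma VB0.D_apply (h : VB0 c r C v) {z : Cm n} (hz : z ∈ ball c r) (t : Cm n) :
    h.D U hz t = H366.mk U fun k => fderiv ℝ (v k) z t := rfl

/-- the limit is differentiable -/
lemma VB0.hasFDerivAt (h : VB0 c r C v) {z : Cm n} (hz : z ∈ ball c r) :
    HasFDerivAt (𝕜 := ℝ) (fun y => H366.mk U fun k => v k y) (h.D U hz) z := by
  have key : ∀ y ∈ ball c r, ‖(H366.mk U fun k => v k y) - (H366.mk U fun k => v k z) -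
      h.D U hz (y - z)‖ ≤ C * ‖y - z‖ ^ 2 := by
    intro y hy
    have b1 := h.bdd (ball_subset_closedBall hy)
    have b2 := h.bdd (ball_subset_closedBall hz)
    rw [h.D_apply, ← mk_sub b1 b2, ← mk_sub (b1.sub b2) (h.dbdd hz _)]
    refine norm_mk_le fun k => ?_
    simp only [Pi.sub_apply]
    have hseg : segment ℝ z y ⊆ ball c r := (convex_ball c r).segment_subset hz hy
    have := (convex_segment z y).norm_image_sub_le_of_norm_hasFDerivWithin_le'
      (f := v k) (f' := fun x => fderiv ℝ (v k) x) (φ := fderiv ℝ (v k) z) (C := C * ‖y - z‖)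
      (fun x hx => (h.diff k x (hseg hx)).hasFDerivAt.hasFDerivWithinAt)
      (fun x hx => (h.dlip k x (hseg hx) z hz).trans (mul_le_mul_of_nonneg_left ?_ h.nn))
      (left_mem_segment ℝ z y) (right_mem_segment ℝ z y)
    · refine this.trans (le_of_eq (by ring))
    · obtain ⟨a, b, ha, hb, hab, rfl⟩ := hx
      have e : a • z + b • y - z = b • (y - z) := by
        have : a = 1 - b := by linarith
        rw [this, sub_smul, one_smul, smul_sub]; abel
      rw [e, norm_smul, Real.norm_of_nonneg hb]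
      exact mul_le_of_le_one_left (norm_nonneg _) (by linarith)
  rw [hasFDerivAt_iff_isLittleO]
  refine Asymptotics.IsBigO.trans_isLittleO (g := fun y => ‖y - z‖ ^ 2) ?_ ?_
  · refine Asymptotics.IsBigO.of_bound C ?_
    filter_upwards [isOpen_ball.mem_nhds hz] with y hy
    have := key y hy
    rwa [Real.norm_of_nonneg (by positivity)]
  · have h1 : Tendsto (fun y : Cm n => y - z) (𝓝 z) (𝓝 0) := by
      have : Continuous fun y : Cm n => y - z := by fun_prop
      simpa using this.tendsto z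
    have h2 := (Asymptotics.isLittleO_norm_pow_id (E' := Cm n) one_lt_two).comp_tendsto h1
    simpa [Function.comp_def] using h2

lemma VB0.DH_mk (h : VB0 c r C v) {z : Cm n} (hz : z ∈ ball c r) (t : Cm n) :
    DH (fun y => H366.mk U fun k => v k y) z t = H366.mk U fun k => DH (v k) z t := by
  rw [DH, (h.hasFDerivAt hz).fderiv, h.D_apply, h.D_apply,
    ← mk_smul _ (h.dbdd hz _), ← mk_sub (h.dbdd hz _) ((h.dbdd hz _).smul _),
    ← mk_smul _ ((h.dbdd hz _).sub ((h.dbdd hz _).smul _))]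
  rfl

end

/-- a function whose `(1,0)` differential is that of a holomorphic function -/
lemma exists_conj {f G : Cm n → ℂ} {z₀ : Cm n} (hf : ∀ᶠ z in 𝓝 z₀, DifferentiableAt ℝ f z)
    (hG : AnalyticAt ℂ G z₀) (h : ∀ᶠ z in 𝓝 z₀, ∀ ξ, DH f z ξ = fderiv ℂ G z ξ) :
    ∃ k : Cm n → ℂ, AnalyticAt ℂ k z₀ ∧ ∀ᶠ z in 𝓝 z₀, f z = G z + conj (k z) := by
  refine ⟨fun z => conj (f z - G z), ?_, Eventually.of_forall fun z => by simp⟩
  obtain ⟨ρ, hρ, hb⟩ := Metric.eventually_nhds_iff_ball.1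
    (hf.and (hG.eventually_analyticAt.and h))
  refine Vale.Agent.P281.MF.analyticAt_of_differentiableOn (isOpen_ball (x := z₀) (ε := ρ)) ?_
    (mem_ball_self hρ)
  intro z hz
  obtain ⟨h1, h2, h3⟩ := hb z hz
  have hGd : HasFDerivAt G ((fderiv ℂ G z).restrictScalars ℝ) z :=
    h2.differentiableAt.hasFDerivAt.restrictScalars ℝ
  have h4 : HasFDerivAt (fun z => conj (f z - G z))
      ((Complex.conjCLE : ℂ →L[ℝ] ℂ).comp (fderiv ℝ f z - (fderiv ℂ G z).restrictScalars ℝ)) z :=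
    ((Complex.conjCLE : ℂ →L[ℝ] ℂ).hasFDerivAt).comp z (h1.hasFDerivAt.sub hGd)
  have h5 : ∀ t, fderiv ℝ f z t - fderiv ℂ G z t = DB f z t := by
    intro t
    rw [← h3 t, ← DH_add_DB f z t]
    abel
  refine (differentiableAt_iff_restrictScalars ℝ h4.differentiableAt).2 ?_ |>.differentiableWithinAt
  let L : Cm n →L[ℂ] ℂ :=
    { toFun := fun t => conj (DB f z t)
      map_add' := fun s t => by rw [map_add, map_add]
      map_smul' := fun a t => by
        have hI : ∀ t, DB f z (Complex.I • t) = -Complex.I • DB f z t := by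
          intro t
          rw [DB_apply, DB_apply, smul_smul Complex.I Complex.I, Complex.I_mul_I, neg_one_smul,
            map_neg]
          simp only [smul_eq_mul]
          linear_combination (1 / 2 * fderiv ℝ f z (Complex.I • t)) * Complex.I_mul_I
        have e1 : a • t = a.re • t + a.im • (Complex.I • t) := by
          ext i
          simp only [Pi.smul_apply, Pi.add_apply, smul_eq_mul, Complex.real_smul]
          conv_lhs => rw [← Complex.re_add_im a]
          ring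
        rw [e1, map_add, map_smul, map_smul, hI, RingHom.id_apply]
        simp only [Complex.real_smul, smul_eq_mul, map_add, map_mul, Complex.conj_ofReal,
          Complex.conj_I, map_neg, neg_neg]
        conv_rhs => rw [← Complex.re_add_im a]
        ring
      cont := by
        exact Complex.continuous_conj.comp (DB f z).continuous }
  refine ⟨L, ?_⟩
  rw [h4.fderiv]
  ext t
  simp only [ContinuousLinearMap.comp_apply, sub_apply,
    ContinuousLinearMap.coe_restrictScalars']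
  rw [h5]
  rfl

section
variable {c : Cm n} {R r δ : ℝ} {η Θ : Cm n → ℝ} {φ : ∀ k, Cm n → H k}
  [∀ k, CompleteSpace (H k)]

/-- **the potential on a ball** -/
theorem pot_local (h : PLSeq U c R φ) (m : Mol δ η Θ) (hR : r + δ ≤ R) {z₀ : Cm n}
    (hz₀ : z₀ ∈ ball c r) {F : Cm n → UP H U} (hF : AnalyticAt ℂ F z₀)
    (hFΘ : ∀ᶠ z in 𝓝 z₀, ∀ ξ, fderiv ℂ F z ξ = slim U η (fun k y => DH (φ k) y ξ) z)
    (x : UP H U) : ∃ h : Cm n → ℂ, AnalyticAt ℂ h z₀ ∧
      ∀ᶠ z in 𝓝 z₀, ⟪x, slim U η φ z⟫_ℂ = ⟪x, F z⟫_ℂ + conj (h z) := by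
  obtain ⟨C, hv⟩ := h.vb m hR
  have hL : ∀ z, ⟪x, slim U η φ z⟫_ℂ = innerSL ℂ x (slim U η φ z) := fun z => rfl
  have hd : ∀ z ∈ ball c r, DifferentiableAt ℝ (slim U η φ) z := fun z hz =>
    (hv.hasFDerivAt hz).differentiableAt
  have hG : AnalyticAt ℂ (fun z => ⟪x, F z⟫_ℂ) z₀ :=
    ((innerSL ℂ x).analyticAt _).comp hF
  refine exists_conj ?_ hG ?_
  · filter_upwards [isOpen_ball.mem_nhds hz₀] with z hz
    exact ((innerSL ℂ x).restrictScalars ℝ).differentiableAt.comp z (hd z hz)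
  · filter_upwards [isOpen_ball.mem_nhds hz₀, hFΘ, hF.eventually_analyticAt] with z hz h1 h2 ξ
    have e1 : DH (fun z => ⟪x, slim U η φ z⟫_ℂ) z ξ = innerSL ℂ x (DH (slim U η φ) z ξ) :=
      DH_clm (hd z hz) (innerSL ℂ x) ξ
    have e2 : fderiv ℂ (fun z => ⟪x, F z⟫_ℂ) z ξ = innerSL ℂ x (fderiv ℂ F z ξ) := by
      have := ((innerSL ℂ x).hasFDerivAt.comp z h2.differentiableAt.hasFDerivAt).fderiv
      have e3 : (⇑(innerSL ℂ x) ∘ F) = fun z => ⟪x, F z⟫_ℂ := rfl
      rw [e3] at this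
      rw [this]
      rfl
    have e3 : DH (slim U η φ) z ξ = slim U η (fun k y => DH (φ k) y ξ) z := by
      have e4 := hv.DH_mk (U := U) hz ξ
      have e5 : slim U η φ = fun y => H366.mk U fun k => mv η (φ k) y := rfl
      rw [e5, e4]
      unfold slim
      congr 1
      funext k
      exact h.DH_mv m hR k hz ξ
    rw [e1, e2, e3, h1]

end

end Vale.Agent.P284.H551
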