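import Vale.Agent.P284.H551.VN0

/-! # P284 (helper551): Poincaré inequality for Hilbert valued functions. -/

open scoped Topology ENNReal
open Filter Set Metric MeasureTheory

noncomputable section

namespace Vale.Agent.P284.H551

section
variable {β : Type*} [NormedAddCommGroup β] [NormedSpace ℝ β] {E : Type*} [NormedAddCommGroup E]
  [NormedSpace ℝ E]

/-- the increment along a segment -/
theorem inc_leE [CompleteSpace E] {g : β → E} {y u : β}
    (hd : ∀ t ∈ Icc (0 : ℝ) 1, DifferentiableAt ℝ g (y + t • u))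
    (hc : ContinuousOn (fun t : ℝ => fderiv ℝ g (y + t • u) u) (Icc 0 1)) :
    ENNReal.ofReal (‖g (y + u) - g y‖ ^ 2) ≤
      ∫⁻ t in Icc (0 : ℝ) 1, ENNReal.ofReal (‖fderiv ℝ g (y + t • u) u‖ ^ 2) := by
  have hder : ∀ t ∈ Icc (0 : ℝ) 1, HasDerivAt (fun t : ℝ => g (y + t • u))
      (fderiv ℝ g (y + t • u) u) t := by
    intro t ht
    have h0 : HasDerivAt (fun t : ℝ => t • u) ((1 : ℝ) • u) t :=
      (hasDerivAt_id' t).smul_const u
    have h1 : HasDerivAt (fun t : ℝ => y + t • u) u t := by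
      simpa using h0.const_add y
    exact (hd t ht).hasFDerivAt.comp_hasDerivAt t h1
  have hint : IntervalIntegrable (fun t : ℝ => fderiv ℝ g (y + t • u) u) volume 0 1 := by
    apply ContinuousOn.intervalIntegrable
    rwa [uIcc_of_le zero_le_one]
  have h1 : ∫ t in (0 : ℝ)..1, fderiv ℝ g (y + t • u) u = g (y + u) - g y := by
    rw [intervalIntegral.integral_eq_sub_of_hasDerivAt (f := fun t : ℝ => g (y + t • u))
      (fun t ht => hder t (by rwa [uIcc_of_le zero_le_one] at ht)) hint]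
    simp
  have h3 : ‖g (y + u) - g y‖ ≤ ∫ t in (0 : ℝ)..1, ‖fderiv ℝ g (y + t • u) u‖ := by
    rw [← h1]
    exact intervalIntegral.norm_integral_le_integral_norm zero_le_one
  have h2 := sq_int_le hc.norm
  have h4 : ‖g (y + u) - g y‖ ^ 2 ≤ ∫ t in (0 : ℝ)..1, ‖fderiv ℝ g (y + t • u) u‖ ^ 2 :=
    (pow_le_pow_left₀ (norm_nonneg _) h3 2).trans h2
  refine (ENNReal.ofReal_le_ofReal h4).trans ?_
  rw [intervalIntegral.integral_of_le zero_le_one,
    ofReal_integral_eq_lintegral_ofReal ?_ (Eventually.of_forall fun t => sq_nonneg _)]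
  · exact lintegral_mono_set Ioc_subset_Icc_self
  · have := (hc.norm.pow 2).integrableOn_compact isCompact_Icc (μ := volume)
    exact this.mono_set Ioc_subset_Icc_self

variable [MeasurableSpace β] [BorelSpace β] [FiniteDimensional ℝ β] [SecondCountableTopology β]
  (ν : Measure β) [ν.IsAddHaarMeasure]

/-- Poincaré inequality on a ball, two-point form -/
theorem two_pointE [CompleteSpace E] {g : β → E} {y₀ : β} {r : ℝ}
    (hg : ContDiffOn ℝ 1 g (ball y₀ r)) :
    ∫⁻ e in ball y₀ r, ∫⁻ y in ball y₀ r, ENNReal.ofReal (‖g y - g e‖ ^ 2) ∂ν ∂ν ≤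
      ENNReal.ofReal (4 * r ^ 2) * ν (ball 0 (2 * r)) *
        ∫⁻ y in ball y₀ r, ENNReal.ofReal (‖fderiv ℝ g y‖ ^ 2) ∂ν := by
  set B := ball y₀ r with hB
  have hBo : IsOpen B := isOpen_ball
  have hd : ContinuousOn (fun y => ‖fderiv ℝ g y‖ ^ 2) B :=
    ((hg.continuousOn_fderiv_of_isOpen hBo le_rfl).norm).pow 2
  set φ : β → ℝ≥0∞ := B.indicator fun y => ENNReal.ofReal (‖fderiv ℝ g y‖ ^ 2) with hφ
  have hφm : Measurable φ := meas_ind hBo (ENNReal.continuous_ofReal.comp_continuousOn hd)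
  have hφi : ∫⁻ y in B, ENNReal.ofReal (‖fderiv ℝ g y‖ ^ 2) ∂ν = ∫⁻ y, φ y ∂ν := by
    rw [hφ, lintegral_indicator hBo.measurableSet]
  have hconv : Convex ℝ B := convex_ball y₀ r
  -- pointwise bound
  have key : ∀ e ∈ B, ∀ y ∈ B, ENNReal.ofReal (‖g y - g e‖ ^ 2) ≤
      ENNReal.ofReal (4 * r ^ 2) * ∫⁻ t in Icc (0 : ℝ) 1, φ (e + t • (y - e)) := by
    intro e he y hy
    have hseg : ∀ t ∈ Icc (0 : ℝ) 1, e + t • (y - e) ∈ B := fun t ht => by
      have := hconv.add_smul_sub_mem he hy ht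
      exact this
    have hn : ‖y - e‖ ≤ 2 * r := by
      have h1 : dist y y₀ < r := hy
      have h2 : dist e y₀ < r := he
      have h3 := dist_triangle_right y e y₀
      rw [dist_eq_norm] at h3
      linarith
    have hd1 : ∀ t ∈ Icc (0 : ℝ) 1, DifferentiableAt ℝ g (e + t • (y - e)) := fun t ht =>
      (hg.differentiableOn (by simp)).differentiableAt (hBo.mem_nhds (hseg t ht))
    have hc : ContinuousOn (fun t : ℝ => fderiv ℝ g (e + t • (y - e)) (y - e)) (Icc 0 1) := by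
      have h1 : ContinuousOn (fderiv ℝ g) B := hg.continuousOn_fderiv_of_isOpen hBo le_rfl
      have h2 : ContinuousOn (fun t : ℝ => e + t • (y - e)) (Icc 0 1) := by fun_prop
      exact (h1.comp h2 hseg).clm_apply continuousOn_const
    have h1 := inc_leE hd1 hc
    rw [add_sub_cancel] at h1
    refine h1.trans ?_
    rw [← lintegral_const_mul]
    · refine setLIntegral_mono' measurableSet_Icc fun t ht => ?_
      rw [hφ, indicator_of_mem (hseg t ht), ← ENNReal.ofReal_mul (by positivity)]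
      apply ENNReal.ofReal_le_ofReal
      have h5 := (fderiv ℝ g (e + t • (y - e))).le_opNorm (y - e)
      calc ‖fderiv ℝ g (e + t • (y - e)) (y - e)‖ ^ 2
          ≤ (‖fderiv ℝ g (e + t • (y - e))‖ * ‖y - e‖) ^ 2 := by gcongr
        _ ≤ (‖fderiv ℝ g (e + t • (y - e))‖ * (2 * r)) ^ 2 := by gcongr
        _ = _ := by ring
    · exact hφm.comp (by fun_prop)
  calc ∫⁻ e in B, ∫⁻ y in B, ENNReal.ofReal (‖g y - g e‖ ^ 2) ∂ν ∂ν
      ≤ ∫⁻ e in B, ∫⁻ y in B, ENNReal.ofReal (4 * r ^ 2) *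
          (∫⁻ t in Icc (0 : ℝ) 1, φ (e + t • (y - e))) ∂ν ∂ν := by
        refine setLIntegral_mono' hBo.measurableSet fun e he => ?_
        exact setLIntegral_mono' hBo.measurableSet fun y hy => key e he y hy
    _ ≤ ∫⁻ e in B, ∫⁻ u in ball (0 : β) (2 * r), ENNReal.ofReal (4 * r ^ 2) *
          (∫⁻ t in Icc (0 : ℝ) 1, φ (e + t • u)) ∂ν ∂ν := by
        refine setLIntegral_mono' hBo.measurableSet fun e he => ?_
        rw [← lintegral_indicator hBo.measurableSet, ← lintegral_indicator measurableSet_ball]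
        rw [← lintegral_sub_right_eq_self (μ := ν) ((ball (0 : β) (2 * r)).indicator _) e]
        refine lintegral_mono fun y => ?_
        by_cases hy : y ∈ B
        · rw [indicator_of_mem hy, indicator_of_mem]
          have h1 : dist y y₀ < r := hy
          have h2 : dist e y₀ < r := he
          have h3 := dist_triangle_right y e y₀
          rw [mem_ball_zero_iff, ← dist_eq_norm]
          linarith
        · rw [indicator_of_notMem hy]
          exact zero_le
    _ ≤ ∫⁻ e, ∫⁻ u in ball (0 : β) (2 * r), ENNReal.ofReal (4 * r ^ 2) *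
          (∫⁻ t in Icc (0 : ℝ) 1, φ (e + t • u)) ∂ν ∂ν := setLIntegral_le_lintegral _ _
    _ = ∫⁻ u in ball (0 : β) (2 * r), ∫⁻ e, ENNReal.ofReal (4 * r ^ 2) *
          (∫⁻ t in Icc (0 : ℝ) 1, φ (e + t • u)) ∂ν ∂ν := by
        rw [lintegral_lintegral_swap]
        apply Measurable.aemeasurable
        apply Measurable.const_mul
        apply Measurable.lintegral_prod_right'
          (f := fun p : (β × β) × ℝ => φ (p.1.1 + p.2 • p.1.2))
        exact hφm.comp (by fun_prop)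
    _ = ∫⁻ u in ball (0 : β) (2 * r), ENNReal.ofReal (4 * r ^ 2) * ∫⁻ y, φ y ∂ν ∂ν := by
        congr 1
        ext u
        rw [lintegral_const_mul]
        · rw [lintegral_lintegral_swap]
          · simp only [lintegral_add_right_eq_self]
            simp
          · apply Measurable.aemeasurable
            exact hφm.comp (by fun_prop)
        · apply Measurable.lintegral_prod_right' (f := fun p : β × ℝ => φ (p.1 + p.2 • u))
          exact hφm.comp (by fun_prop)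
    _ = ENNReal.ofReal (4 * r ^ 2) * ν (ball 0 (2 * r)) * ∫⁻ y, φ y ∂ν := by
        rw [lintegral_const]
        simp only [Measure.restrict_apply_univ]
        ring
    _ = _ := by rw [hφi]

/-- a good base point -/
theorem exists_pt [CompleteSpace E] {g : β → E} {y₀ : β} {r : ℝ} (hr : 0 < r)
    (hg : ContDiffOn ℝ 1 g (ball y₀ r)) :
    ∃ e ∈ ball y₀ r, ∫⁻ y in ball y₀ r, ENNReal.ofReal (‖g y - g e‖ ^ 2) ∂ν ≤
      ENNReal.ofReal (4 * r ^ 2) * ν (ball 0 (2 * r)) * (ν (ball y₀ r))⁻¹ *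
        ∫⁻ y in ball y₀ r, ENNReal.ofReal (‖fderiv ℝ g y‖ ^ 2) ∂ν := by
  set B := ball y₀ r with hB
  have hBo : IsOpen B := isOpen_ball
  set m : β × β → ℝ≥0∞ := (B ×ˢ B).indicator fun p => ENNReal.ofReal (‖g p.2 - g p.1‖ ^ 2) with hm
  have hmm : Measurable m := by
    refine meas_ind (hBo.prod hBo) (ENNReal.continuous_ofReal.comp_continuousOn ?_)
    refine ContinuousOn.pow (ContinuousOn.norm (ContinuousOn.sub ?_ ?_)) 2
    · exact hg.continuousOn.comp continuousOn_snd fun p hp => hp.2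
    · exact hg.continuousOn.comp continuousOn_fst fun p hp => hp.1
  have hme : ∀ e ∈ B, ∀ y ∈ B, m (e, y) = ENNReal.ofReal (‖g y - g e‖ ^ 2) := fun e he y hy =>
    indicator_of_mem (show (e, y) ∈ B ×ˢ B from ⟨he, hy⟩) _
  set f : β → ℝ≥0∞ := fun e => ∫⁻ y in B, m (e, y) ∂ν with hf
  have hfm : Measurable f := hmm.lintegral_prod_right'
  have hBpos : ν B ≠ 0 := (measure_ball_pos ν y₀ hr).ne'
  have hBtop : ν B ≠ ∞ := measure_ball_lt_top.ne
  obtain ⟨e, he, hfe⟩ := exists_le_setLAverage hBpos hBtop hfm.aemeasurable (μ := ν)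
  refine ⟨e, he, ?_⟩
  have e1 : ∫⁻ y in B, ENNReal.ofReal (‖g y - g e‖ ^ 2) ∂ν = f e := by
    refine setLIntegral_congr_fun hBo.measurableSet fun y hy => ?_
    exact (hme e he y hy).symm
  rw [e1]
  refine hfe.trans ?_
  rw [setLAverage_eq, ENNReal.div_eq_inv_mul]
  have e2 : ∫⁻ e in B, f e ∂ν ≤ ENNReal.ofReal (4 * r ^ 2) * ν (ball 0 (2 * r)) *
      ∫⁻ y in B, ENNReal.ofReal (‖fderiv ℝ g y‖ ^ 2) ∂ν := by
    refine le_trans (le_of_eq ?_) (two_pointE ν hg)
    refine setLIntegral_congr_fun hBo.measurableSet fun e he => ?_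
    exact setLIntegral_congr_fun hBo.measurableSet fun y hy => hme e he y hy
  calc (ν B)⁻¹ * ∫⁻ e in B, f e ∂ν ≤ (ν B)⁻¹ * (ENNReal.ofReal (4 * r ^ 2) * ν (ball 0 (2 * r)) *
      ∫⁻ y in B, ENNReal.ofReal (‖fderiv ℝ g y‖ ^ 2) ∂ν) := by gcongr
    _ = _ := by ring

/-- from a subset to the ball -/
theorem spread [CompleteSpace E] {g : β → E} {y₀ : β} {r : ℝ}
    (hg : ContDiffOn ℝ 1 g (ball y₀ r)) {S : Set β} (hS : MeasurableSet S)
    (hSB : S ⊆ ball y₀ r) :
    ν S * ∫⁻ y in ball y₀ r, ENNReal.ofReal (‖g y‖ ^ 2) ∂ν ≤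
      2 * (ENNReal.ofReal (4 * r ^ 2) * ν (ball 0 (2 * r)) *
        ∫⁻ y in ball y₀ r, ENNReal.ofReal (‖fderiv ℝ g y‖ ^ 2) ∂ν) +
      2 * ν (ball y₀ r) * ∫⁻ y in S, ENNReal.ofReal (‖g y‖ ^ 2) ∂ν := by
  set B := ball y₀ r with hB
  have hBo : IsOpen B := isOpen_ball
  have hc : ContinuousOn (fun y => ENNReal.ofReal (‖g y‖ ^ 2)) B :=
    ENNReal.continuous_ofReal.comp_continuousOn ((hg.continuousOn.norm).pow 2)
  have hcS : AEMeasurable (fun y => ENNReal.ofReal (‖g y‖ ^ 2)) (ν.restrict S) :=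
    (hc.mono hSB).aemeasurable hS
  have hpt : ∀ x y : β, ENNReal.ofReal (‖g x‖ ^ 2) ≤
      2 * ENNReal.ofReal (‖g x - g y‖ ^ 2) + 2 * ENNReal.ofReal (‖g y‖ ^ 2) := by
    intro x y
    have h1 : ‖g x‖ ≤ ‖g x - g y‖ + ‖g y‖ := by
      calc ‖g x‖ = ‖(g x - g y) + g y‖ := by rw [sub_add_cancel]
        _ ≤ _ := norm_add_le _ _
    have h2 : ‖g x‖ ^ 2 ≤ 2 * ‖g x - g y‖ ^ 2 + 2 * ‖g y‖ ^ 2 := by
      have := norm_nonneg (g x)
      nlinarith [sq_nonneg (‖g x - g y‖ - ‖g y‖), norm_nonneg (g x - g y), norm_nonneg (g y)]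
    refine (ENNReal.ofReal_le_ofReal h2).trans (le_of_eq ?_)
    rw [ENNReal.ofReal_add (by positivity) (by positivity), ENNReal.ofReal_mul (by norm_num),
      ENNReal.ofReal_mul (by norm_num)]
    norm_num
  calc ν S * ∫⁻ x in B, ENNReal.ofReal (‖g x‖ ^ 2) ∂ν
      = ∫⁻ y in S, ∫⁻ x in B, ENNReal.ofReal (‖g x‖ ^ 2) ∂ν ∂ν := by
        rw [lintegral_const, Measure.restrict_apply_univ, mul_comm]
    _ ≤ ∫⁻ y in S, (2 * ∫⁻ x in B, ENNReal.ofReal (‖g x - g y‖ ^ 2) ∂ν +
          2 * ν B * ENNReal.ofReal (‖g y‖ ^ 2)) ∂ν := by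
        refine lintegral_mono fun y => ?_
        calc ∫⁻ x in B, ENNReal.ofReal (‖g x‖ ^ 2) ∂ν
            ≤ ∫⁻ x in B, (2 * ENNReal.ofReal (‖g x - g y‖ ^ 2) +
                2 * ENNReal.ofReal (‖g y‖ ^ 2)) ∂ν := lintegral_mono fun x => hpt x y
          _ = _ := by
              rw [lintegral_add_right _ measurable_const, lintegral_const_mul' _ _ (by norm_num),
                lintegral_const, Measure.restrict_apply_univ]
              ring
    _ = ∫⁻ y in S, 2 * ∫⁻ x in B, ENNReal.ofReal (‖g x - g y‖ ^ 2) ∂ν ∂ν +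
          ∫⁻ y in S, 2 * ν B * ENNReal.ofReal (‖g y‖ ^ 2) ∂ν := by
        rw [lintegral_add_right' _ (hcS.const_mul _)]
    _ ≤ 2 * ∫⁻ y in B, ∫⁻ x in B, ENNReal.ofReal (‖g x - g y‖ ^ 2) ∂ν ∂ν +
          2 * ν B * ∫⁻ y in S, ENNReal.ofReal (‖g y‖ ^ 2) ∂ν := by
        rw [lintegral_const_mul' _ _ (by norm_num), lintegral_const_mul' _ _
          (ENNReal.mul_ne_top (by norm_num) measure_ball_lt_top.ne)]
        gcongr
    _ ≤ _ := by
        gcongr
        exact two_pointE ν hg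

end

end Vale.Agent.P284.H551
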