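import Vale.Agent.P284.H551.L4T
import Vale.Agent.P284.H551.L4C

/-! # P284 (helper551), L4: the maps are bounded in `L²` on every piece, up to a constant. -/

open scoped Manifold ContDiff Topology InnerProductSpace ENNReal
open Filter Set Metric MeasureTheory

noncomputable section

namespace Vale.Agent.P284.H551

open Vale.Agent.P272.K Vale.Agent.P284.H894 Vale.Agent.P284.H894.G
  Vale.Agent.P284.H894.V Vale.Agent.P284.H366

section real
variable {n : ℕ}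

lemma lint_eq {E : Type*} [NormedAddCommGroup E] {S : Set (Cm n)} {g : Cm n → E}
    (hi : IntegrableOn (fun y => ‖g y‖ ^ 2) S) :
    ∫⁻ y in S, ENNReal.ofReal (‖g y‖ ^ 2) = ENNReal.ofReal (∫ y in S, ‖g y‖ ^ 2) :=
  (ofReal_integral_eq_lintegral_ofReal hi (Eventually.of_forall fun _ => sq_nonneg _)).symm

lemma int_g {E : Type*} [NormedAddCommGroup E] {y₀ : Cm n} {r : ℝ} {g : Cm n → E}
    (hg : ContinuousOn g (closedBall y₀ r)) : IntegrableOn (fun y => ‖g y‖ ^ 2) (ball y₀ r) :=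
  (((hg.norm).pow 2).integrableOn_compact (isCompact_closedBall _ _)).mono_set
    ball_subset_closedBall

lemma contOn_of {E : Type*} [NormedAddCommGroup E] [NormedSpace ℝ E] {S : Set (Cm n)}
    {g : Cm n → E} (hg : ∀ z ∈ S, ContDiffAt ℝ 1 g z) : ContinuousOn g S :=
  fun z hz => (hg z hz).continuousAt.continuousWithinAt

lemma contOn_fderiv {E : Type*} [NormedAddCommGroup E] [NormedSpace ℝ E] {S : Set (Cm n)}
    {g : Cm n → E} (hg : ∀ z ∈ S, ContDiffAt ℝ 1 g z) : ContinuousOn (fderiv ℝ g) S :=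
  fun z hz => ((hg z hz).fderiv_right (m := 0) (by norm_num)).continuousAt.continuousWithinAt

theorem exists_pt_real (y₀ : Cm n) {r : ℝ} (hr : 0 < r) : ∃ A : ℝ, 0 ≤ A ∧
    ∀ (E : Type) [NormedAddCommGroup E] [NormedSpace ℝ E] [CompleteSpace E] (g : Cm n → E),
      (∀ z ∈ closedBall y₀ r, ContDiffAt ℝ 1 g z) →
      ∃ e ∈ ball y₀ r, ∫ y in ball y₀ r, ‖g y - g e‖ ^ 2 ≤
        A * ∫ y in ball y₀ r, ‖fderiv ℝ g y‖ ^ 2 := by
  set A : ℝ≥0∞ := ENNReal.ofReal (4 * r ^ 2) * volume (ball (0 : Cm n) (2 * r)) *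
    (volume (ball y₀ r))⁻¹ with hA
  have hAt : A ≠ ⊤ := ENNReal.mul_ne_top (ENNReal.mul_ne_top ENNReal.ofReal_ne_top
    measure_ball_lt_top.ne) (ENNReal.inv_ne_top.2 (measure_ball_pos _ _ hr).ne')
  refine ⟨A.toReal, ENNReal.toReal_nonneg, ?_⟩
  intro E _ _ _ g hg
  have hgo : ContDiffOn ℝ 1 g (ball y₀ r) := fun z hz =>
    (hg z (ball_subset_closedBall hz)).contDiffWithinAt
  obtain ⟨e, he, h1⟩ := exists_pt (volume : Measure (Cm n)) hr hgo
  refine ⟨e, he, ?_⟩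
  have i1 : IntegrableOn (fun y => ‖g y - g e‖ ^ 2) (ball y₀ r) :=
    int_g (g := fun y => g y - g e) ((contOn_of hg).sub continuousOn_const)
  have i2 : IntegrableOn (fun y => ‖fderiv ℝ g y‖ ^ 2) (ball y₀ r) := int_g (contOn_fderiv hg)
  rw [lint_eq (g := fun y => g y - g e) i1, lint_eq i2, ← hA] at h1
  have h2 := ENNReal.toReal_mono (ENNReal.mul_ne_top hAt ENNReal.ofReal_ne_top) h1
  rwa [ENNReal.toReal_mul, ENNReal.toReal_ofReal (integral_nonneg fun _ => sq_nonneg _),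
    ENNReal.toReal_ofReal (integral_nonneg fun _ => sq_nonneg _)] at h2

theorem spread_real (y₀ : Cm n) {r : ℝ} (hr : 0 < r) {S : Set (Cm n)} (hS : MeasurableSet S)
    (hSB : S ⊆ ball y₀ r) (hpos : volume S ≠ 0) : ∃ A : ℝ, 0 ≤ A ∧
    ∀ (E : Type) [NormedAddCommGroup E] [NormedSpace ℝ E] [CompleteSpace E] (g : Cm n → E),
      (∀ z ∈ closedBall y₀ r, ContDiffAt ℝ 1 g z) →
      ∫ y in ball y₀ r, ‖g y‖ ^ 2 ≤
        A * ((∫ y in ball y₀ r, ‖fderiv ℝ g y‖ ^ 2) + ∫ y in S, ‖g y‖ ^ 2) := by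
  obtain ⟨c₁, hc₁⟩ : ∃ c₁ : ℝ≥0∞, c₁ = 2 * (ENNReal.ofReal (4 * r ^ 2) *
    volume (ball (0 : Cm n) (2 * r))) := ⟨_, rfl⟩
  obtain ⟨c₂, hc₂⟩ : ∃ c₂ : ℝ≥0∞, c₂ = 2 * volume (ball y₀ r) := ⟨_, rfl⟩
  set v : ℝ := (volume S).toReal with hv
  have hStop : volume S ≠ ⊤ := ((measure_mono hSB).trans_lt measure_ball_lt_top).ne
  have hv0 : 0 < v := ENNReal.toReal_pos hpos hStop
  have hc₁t : c₁ ≠ ⊤ := by
    rw [hc₁]
    exact ENNReal.mul_ne_top (by norm_num)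
      (ENNReal.mul_ne_top ENNReal.ofReal_ne_top measure_ball_lt_top.ne)
  have hc₂t : c₂ ≠ ⊤ := by
    rw [hc₂]
    exact ENNReal.mul_ne_top (by norm_num) measure_ball_lt_top.ne
  refine ⟨(c₁.toReal + c₂.toReal) / v, by positivity, ?_⟩
  intro E _ _ _ g hg
  have hgo : ContDiffOn ℝ 1 g (ball y₀ r) := fun z hz =>
    (hg z (ball_subset_closedBall hz)).contDiffWithinAt
  have h1 := spread (volume : Measure (Cm n)) hgo hS hSB
  have i1 : IntegrableOn (fun y => ‖g y‖ ^ 2) (ball y₀ r) := int_g (contOn_of hg)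
  have i2 : IntegrableOn (fun y => ‖fderiv ℝ g y‖ ^ 2) (ball y₀ r) := int_g (contOn_fderiv hg)
  rw [lint_eq i1, lint_eq i2, lint_eq (i1.mono_set hSB), ← mul_assoc, ← hc₁, ← hc₂] at h1
  have h2 := ENNReal.toReal_mono (ENNReal.add_ne_top.2
    ⟨ENNReal.mul_ne_top hc₁t ENNReal.ofReal_ne_top,
      ENNReal.mul_ne_top hc₂t ENNReal.ofReal_ne_top⟩) h1
  rw [ENNReal.toReal_add (ENNReal.mul_ne_top hc₁t ENNReal.ofReal_ne_top)
    (ENNReal.mul_ne_top hc₂t ENNReal.ofReal_ne_top), ENNReal.toReal_mul, ENNReal.toReal_mul,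
    ENNReal.toReal_mul, ENNReal.toReal_ofReal (integral_nonneg fun _ => sq_nonneg _),
    ENNReal.toReal_ofReal (integral_nonneg fun _ => sq_nonneg _),
    ENNReal.toReal_ofReal (integral_nonneg fun _ => sq_nonneg _), ← hv] at h2
  have p1 : 0 ≤ ∫ y in ball y₀ r, ‖fderiv ℝ g y‖ ^ 2 := integral_nonneg fun _ => sq_nonneg _
  have p2 : 0 ≤ ∫ y in S, ‖g y‖ ^ 2 := integral_nonneg fun _ => sq_nonneg _
  have q1 : 0 ≤ c₁.toReal := ENNReal.toReal_nonneg
  have q2 : 0 ≤ c₂.toReal := ENNReal.toReal_nonneg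
  rw [div_mul_eq_mul_div, le_div_iff₀ hv0]
  nlinarith [mul_nonneg q1 p2, mul_nonneg q2 p1]

end real

section
variable {n : ℕ} {Γ : Type} [Group Γ] {H : ℕ → Type} [∀ k, NormedAddCommGroup (H k)]
    [∀ k, InnerProductSpace ℂ (H k)] {C : Coc n Γ} {U : Ultrafilter ℕ}
    {π : ∀ k, Γ →* (H k ≃ₗᵢ[ℂ] H k)} {b : ∀ k, Γ → H k} {u : ∀ k, Γ → C.I → Cm n → H k}

lemma cball_Ω (a : C.I) : closedBall (C.c a) (3 * C.r a) ⊆ C.Ω a :=
  closedBall_subset_ball (by linarith [C.r_pos a])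

/-- the derivatives on the other sheets -/
lemma PHSeqV.fderiv_eq (h : PHSeqV C U π b u) (k : ℕ) (g γ : Γ) {a : C.I} {z : Cm n}
    (hz : z ∈ C.V a) (t : Cm n) :
    fderiv ℝ (u k (g * γ) a) z t = π k g (fderiv ℝ (u k γ a) z t) := by
  have h1 : u k (g * γ) a =ᶠ[𝓝 z] fun y => π k g (u k γ a y) + b k g := by
    filter_upwards [isOpen_ball.mem_nhds hz] with y hy
    exact h.equi k g γ a y hy
  have h2 : DifferentiableAt ℝ (u k γ a) z :=
    (h.smooth k γ a z (cball_Ω a (ball_subset_closedBall hz))).differentiableAt (by simp)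
  rw [h1.fderiv_eq, fderiv_add_const]
  exact fderiv_clm h2 ((π k g).toContinuousLinearEquiv : H k →L[ℂ] H k) t

lemma PHSeqV.norm_fderiv_eq (h : PHSeqV C U π b u) (k : ℕ) (γ : Γ) {a : C.I} {z : Cm n}
    (hz : z ∈ C.V a) : ‖fderiv ℝ (u k γ a) z‖ = ‖fderiv ℝ (u k 1 a) z‖ := by
  have h1 : ∀ t, ‖fderiv ℝ (u k γ a) z t‖ = ‖fderiv ℝ (u k 1 a) z t‖ := by
    intro t
    have := h.fderiv_eq k γ 1 hz t
    rw [mul_one] at this
    rw [this, LinearIsometryEquiv.norm_map]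
  refine le_antisymm ?_ ?_
  · refine ContinuousLinearMap.opNorm_le_bound _ (norm_nonneg _) fun t => ?_
    rw [h1]
    exact ContinuousLinearMap.le_opNorm _ _
  · refine ContinuousLinearMap.opNorm_le_bound _ (norm_nonneg _) fun t => ?_
    rw [← h1]
    exact ContinuousLinearMap.le_opNorm _ _

variable [∀ k, CompleteSpace (H k)]

/-- **bounds** -/
theorem PHSeqV.exists_c (h : PHSeqV C U π b u) : ∃ c : ∀ k, H k, ∀ γ a, ∃ A : ℝ, ∀ k,
    ∫ z in C.V a, ‖u k γ a z - c k‖ ^ 2 ≤ A := by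
  obtain ⟨B, hB⟩ := h.bd
  obtain ⟨a₀⟩ := C.ne
  obtain ⟨A₀, hA₀, hpt⟩ := exists_pt_real (C.c a₀) (r := 3 * C.r a₀) (by linarith [C.r_pos a₀])
  have hcd : ∀ k γ a, ∀ z ∈ closedBall (C.c a) (3 * C.r a), ContDiffAt ℝ 1 (u k γ a) z :=
    fun k γ a z hz => (h.smooth k γ a z (cball_Ω a hz)).of_le (by exact_mod_cast le_top)
  have hBγ : ∀ k γ a, ∫ z in C.V a, ‖fderiv ℝ (u k γ a) z‖ ^ 2 ≤ B := by
    intro k γ a
    refine le_trans (le_of_eq ?_) (hB k a)
    refine setIntegral_congr_fun measurableSet_ball fun z hz => ?_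
    simp only [h.norm_fderiv_eq k γ hz]
  have h1 : ∀ k, ∃ c : H k, ∫ z in C.V a₀, ‖u k 1 a₀ z - c‖ ^ 2 ≤ A₀ * B := by
    intro k
    obtain ⟨e, -, he⟩ := hpt (H k) (u k 1 a₀) (hcd k 1 a₀)
    exact ⟨_, he.trans (mul_le_mul_of_nonneg_left (hBγ k 1 a₀) hA₀)⟩
  choose c hc using h1
  refine ⟨c, fun γ a => ?_⟩
  refine C.conn (fun γ a => ∃ A : ℝ, ∀ k, ∫ z in C.V a, ‖u k γ a z - c k‖ ^ 2 ≤ A) ?_ 1 a₀ γ a
    ⟨A₀ * B, hc⟩
  rintro γ a d z hz hza hzd ⟨A, hA⟩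
  set w₀ := C.T a d z with hw₀
  set κ₀ := C.κ a d z with hκ₀
  have hw₀O : w₀ ∈ C.O d a := C.T_mem a d z hz
  have hTT : C.T d a w₀ = z := by
    have h2 := C.trans_mem a d a z hz (C.T_mem a d z hz)
    have h3 := C.trans_T a d a z hz (C.T_mem a d z hz)
    rw [C.T_self a z h2] at h3
    exact h3.symm
  have hTc : ContinuousAt (C.T d a) w₀ :=
    ((C.T_holo d a).differentiableAt ((C.O_open d a).mem_nhds hw₀O)).continuousAt
  have e1 : ∀ᶠ w in 𝓝 w₀, w ∈ C.O d a := (C.O_open d a).mem_nhds hw₀O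
  have e2 : ∀ᶠ w in 𝓝 w₀, w ∈ C.V d := isOpen_ball.mem_nhds hzd
  have e3 : ∀ᶠ w in 𝓝 w₀, C.T d a w ∈ C.V a :=
    hTc.eventually (by rw [hTT]; exact isOpen_ball.mem_nhds hza)
  have e4 : ∀ᶠ w in 𝓝 w₀, C.κ a d (C.T d a w) = κ₀ :=
    hTc.eventually (p := fun y => C.κ a d y = κ₀) (by rw [hTT]; exact C.κ_loc a d z hz)
  obtain ⟨s, hs, hall⟩ := Metric.nhds_basis_closedBall.mem_iff.1
    (Filter.inter_mem (Filter.inter_mem e1 e2) (Filter.inter_mem e3 e4))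
  have hO : closedBall w₀ s ⊆ C.O d a := fun w hw => (hall hw).1.1
  have hV : closedBall w₀ s ⊆ C.V d := fun w hw => (hall hw).1.2
  have hTV : ∀ w ∈ closedBall w₀ s, C.T d a w ∈ C.V a := fun w hw => (hall hw).2.1
  have hκ : ∀ w ∈ closedBall w₀ s, C.κ a d (C.T d a w) = κ₀ := fun w hw => (hall hw).2.2
  obtain ⟨A₁, hA₁, hsp⟩ := spread_real (C.c d) (r := 3 * C.r d) (by linarith [C.r_pos d])
    (S := ball w₀ s) measurableSet_ball (ball_subset_closedBall.trans hV)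
    (measure_ball_pos _ _ hs).ne'
  obtain ⟨D, hD0, hD⟩ := H35.V.change C
  refine ⟨A₁ * (B + D * A), fun k => ?_⟩
  have hcd' : ∀ y ∈ closedBall (C.c d) (3 * C.r d),
      ContDiffAt ℝ 1 (fun y => u k (γ * κ₀) d y - c k) y := fun y hy =>
    (hcd k (γ * κ₀) d y hy).sub contDiffAt_const
  have h2 := hsp (H k) (fun y => u k (γ * κ₀) d y - c k) hcd'
  have h3 : ∫ y in ball (C.c d) (3 * C.r d), ‖fderiv ℝ (fun y => u k (γ * κ₀) d y - c k) y‖ ^ 2 ≤
      B := by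
    refine le_trans (le_of_eq ?_) (hBγ k (γ * κ₀) d)
    refine setIntegral_congr_fun measurableSet_ball fun y _ => ?_
    simp only [fderiv_sub_const]
  have heq : ∀ w ∈ closedBall w₀ s, u k (γ * κ₀) d w = u k γ a (C.T d a w) := by
    intro w hw
    have g1 := C.T_mem d a w (hO hw)
    have g2 : C.T a d (C.T d a w) = w := by
      have h2 := C.trans_mem d a d w (hO hw) g1
      have h3 := C.trans_T d a d w (hO hw) g1
      rw [C.T_self d w h2] at h3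
      exact h3.symm
    have g3 := h.compat k γ a d (C.T d a w) g1 (hTV w hw) (by rw [g2]; exact hV hw)
    rw [g2, hκ w hw] at g3
    exact g3.symm
  have i1 : IntegrableOn (fun y => ‖u k γ a y - c k‖ ^ 2) (C.V a) :=
    int_g (g := fun y => u k γ a y - c k) ((contOn_of (hcd k γ a)).sub continuousOn_const)
  have i2 : IntegrableOn (fun w => ‖u k γ a (C.T d a w) - c k‖ ^ 2) (ball w₀ s) := by
    refine int_g (g := fun w => u k γ a (C.T d a w) - c k) ?_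
    refine ContinuousOn.sub ?_ continuousOn_const
    refine (contOn_of (hcd k γ a)).comp ((C.T_holo d a).continuousOn.mono hO) fun w hw => ?_
    exact ball_subset_closedBall (hTV w hw)
  have h4 : ∫ w in ball w₀ s, ‖u k (γ * κ₀) d w - c k‖ ^ 2 ≤ D * A := by
    calc ∫ w in ball w₀ s, ‖u k (γ * κ₀) d w - c k‖ ^ 2
        = ∫ w in ball w₀ s, ‖u k γ a (C.T d a w) - c k‖ ^ 2 := by
          refine setIntegral_congr_fun measurableSet_ball fun w hw => ?_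
          simp only [heq w (ball_subset_closedBall hw)]
      _ ≤ D * ∫ y in C.V a, ‖u k γ a y - c k‖ ^ 2 :=
          hD d a (ball w₀ s) isOpen_ball (ball_subset_closedBall.trans hO)
            (ball_subset_closedBall.trans hV) (fun y hy => hTV y (ball_subset_closedBall hy))
            (fun y => ‖u k γ a y - c k‖ ^ 2) (fun y => sq_nonneg _) i2 (C.V a)
            measurableSet_ball (fun y hy => hTV y (ball_subset_closedBall hy)) i1
      _ ≤ D * A := mul_le_mul_of_nonneg_left (hA k) hD0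
  exact h2.trans (mul_le_mul_of_nonneg_left (add_le_add h3 h4) hA₁)

end

end Vale.Agent.P284.H551
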