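import Vale.Agent.P284.H551.L4B
import Vale.Agent.P284.H551.L4D
import Mathlib.MeasureTheory.Integral.CurveIntegral.Poincare

/-!
# P284 (helper551), L4: calculus of `∂`, the sequences of forms and their limits
-/

open scoped Manifold ContDiff Topology InnerProductSpace ENNReal ComplexConjugate
open Filter Set Metric MeasureTheory

noncomputable section

namespace Vale.Agent.P284.H551

open Vale.Agent.P272.K Vale.Agent.P284.H894 Vale.Agent.P284.H894.G
  Vale.Agent.P284.H894.V Vale.Agent.P284.H366 Vale.Agent.P284.H513.V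

section cal
variable {n : ℕ} {E : Type*} [NormedAddCommGroup E] [NormedSpace ℂ E]

lemma DH_smul_vec (g : Cm n → E) (z : Cm n) (c : ℂ) (t : Cm n) :
    DH g z (c • t) = c • DH g z t := by
  have e0 : ∀ v : Cm n, c • v = c.re • v + c.im • (Complex.I • v) := by
    intro v
    ext i
    simp only [Pi.smul_apply, Pi.add_apply, smul_eq_mul, Complex.real_smul]
    conv_lhs => rw [← Complex.re_add_im c]
    ring
  have e1 : fderiv ℝ g z (c • t) =
      (c.re : ℂ) • fderiv ℝ g z t + (c.im : ℂ) • fderiv ℝ g z (Complex.I • t) := by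
    rw [e0 t, map_add, map_smul, map_smul]
    rw [Complex.coe_smul, Complex.coe_smul]
  have e2 : fderiv ℝ g z (Complex.I • (c • t)) =
      (c.re : ℂ) • fderiv ℝ g z (Complex.I • t) - (c.im : ℂ) • fderiv ℝ g z t := by
    have e3 : Complex.I • (c • t) = c.re • (Complex.I • t) - c.im • t := by
      rw [e0 t]
      ext i
      simp only [Pi.smul_apply, Pi.add_apply, Pi.sub_apply, smul_eq_mul, Complex.real_smul]
      linear_combination (c.im : ℂ) * t i * Complex.I_mul_I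
    rw [e3, map_sub]
    rw [(fderiv ℝ g z).map_smul c.re, (fderiv ℝ g z).map_smul c.im]
    rw [Complex.coe_smul, Complex.coe_smul]
  rw [DH, DH, e1, e2]
  set A := fderiv ℝ g z t
  set B := fderiv ℝ g z (Complex.I • t)
  have hc : c = c.re + c.im * Complex.I := (Complex.re_add_im c).symm
  set x : ℂ := (c.re : ℂ)
  set y : ℂ := (c.im : ℂ)
  rw [hc]
  have h1 : (1 / 2 : ℂ) • (x • A + y • B - Complex.I • (x • B - y • A)) =
      (1 / 2 * (x + y * Complex.I)) • A + (1 / 2 * (y - Complex.I * x)) • B := by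
    module
  have h2 : (x + y * Complex.I) • (1 / 2 : ℂ) • (A - Complex.I • B) =
      (1 / 2 * (x + y * Complex.I)) • A + (-(x + y * Complex.I) * (1 / 2) * Complex.I) • B := by
    module
  rw [h1, h2]
  congr 2
  linear_combination (1 / 2 * y) * Complex.I_mul_I

lemma DH_add_vec (g : Cm n → E) (z : Cm n) (s t : Cm n) :
    DH g z (s + t) = DH g z s + DH g z t := by
  rw [DH, DH, DH, smul_add, map_add, map_add]
  module

/-- `∂g` as a complex linear map -/
def DHL (g : Cm n → E) (z : Cm n) : Cm n →ₗ[ℂ] E where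
  toFun := DH g z
  map_add' := DH_add_vec g z
  map_smul' := DH_smul_vec g z

/-- `∂g` as a form of degree 1 -/
def dForm (g : Cm n → E) (z : Cm n) : Cm n [⋀^Fin 1]→ₗ[ℂ] E :=
  AlternatingMap.ofSubsingleton ℂ (Cm n) E (0 : Fin 1) (DHL g z)

lemma dForm_apply (g : Cm n → E) (z : Cm n) (ξ : Fin 1 → Cm n) : dForm g z ξ = DH g z (ξ 0) := rfl

lemma norm_DH_le (g : Cm n → E) (z t : Cm n) : ‖DH g z t‖ ≤ ‖fderiv ℝ g z‖ * ‖t‖ := by
  have h1 : ‖fderiv ℝ g z t‖ ≤ ‖fderiv ℝ g z‖ * ‖t‖ := ContinuousLinearMap.le_opNorm _ _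
  have h2 : ‖fderiv ℝ g z (Complex.I • t)‖ ≤ ‖fderiv ℝ g z‖ * ‖t‖ := by
    refine (ContinuousLinearMap.le_opNorm _ _).trans (le_of_eq ?_)
    rw [norm_smul, Complex.norm_I, one_mul]
  rw [DH, norm_smul]
  have h3 : ‖fderiv ℝ g z t - Complex.I • fderiv ℝ g z (Complex.I • t)‖ ≤
      ‖fderiv ℝ g z t‖ + ‖fderiv ℝ g z (Complex.I • t)‖ := by
    refine (norm_sub_le _ _).trans (le_of_eq ?_)
    rw [norm_smul, Complex.norm_I, one_mul]
  have h4 : ‖(1 / 2 : ℂ)‖ = 1 / 2 := by simp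
  rw [h4]
  linarith

lemma DH_congr {f g : Cm n → E} {z : Cm n} (h : f =ᶠ[𝓝 z] g) (t : Cm n) :
    DH f z t = DH g z t := by
  rw [DH, DH, h.fderiv_eq]

lemma DH_sub_const (g : Cm n → E) (z : Cm n) (c : E) (t : Cm n) :
    DH (fun y => g y - c) z t = DH g z t := by
  rw [DH, DH, fderiv_sub_const]

lemma DH_comp {g : Cm n → E} {T : Cm n → Cm n} {z : Cm n} (hg : DifferentiableAt ℝ g (T z))
    (hT : DifferentiableAt ℂ T z) (t : Cm n) :
    DH (fun y => g (T y)) z t = DH g (T z) (fderiv ℂ T z t) := by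
  have h1 : HasFDerivAt T ((fderiv ℂ T z).restrictScalars ℝ) z :=
    hT.hasFDerivAt.restrictScalars ℝ
  have h2 : fderiv ℝ (fun y => g (T y)) z = (fderiv ℝ g (T z)).comp
      ((fderiv ℂ T z).restrictScalars ℝ) := (hg.hasFDerivAt.comp z h1).fderiv
  rw [DH, DH, h2]
  simp only [ContinuousLinearMap.comp_apply, ContinuousLinearMap.coe_restrictScalars', map_smul]

lemma cdAt_DH {g : Cm n → E} {z : Cm n} (hg : ContDiffAt ℝ ∞ g z) (t : Cm n) :
    ContDiffAt ℝ ∞ (fun y => DH g y t) z := by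
  have h : ContDiffAt ℝ ∞ (fderiv ℝ g) z := hg.fderiv_right (by simp)
  have h1 : ∀ t, ContDiffAt ℝ ∞ (fun y => fderiv ℝ g y t) z := fun t =>
    h.clm_apply contDiffAt_const
  exact ((h1 t).sub ((h1 _).const_smul Complex.I)).const_smul (1 / 2 : ℂ)

lemma fderiv_DH {g : Cm n → E} {z : Cm n} (hg : ContDiffAt ℝ ∞ g z) (s t : Cm n) :
    fderiv ℝ (fun y => DH g y s) z t = (1 / 2 : ℂ) • (fderiv ℝ (fderiv ℝ g) z t s -
      Complex.I • fderiv ℝ (fderiv ℝ g) z t (Complex.I • s)) := by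
  have h : DifferentiableAt ℝ (fderiv ℝ g) z :=
    (hg.fderiv_right (m := 1) (by norm_cast)).differentiableAt (by norm_num)
  have h1 : ∀ s, HasFDerivAt (fun y => fderiv ℝ g y s)
      ((ContinuousLinearMap.apply ℝ E s).comp (fderiv ℝ (fderiv ℝ g) z)) z := fun s =>
    (ContinuousLinearMap.apply ℝ E s).hasFDerivAt.comp z h.hasFDerivAt
  have h2 : HasFDerivAt (fun y => DH g y s) _ z :=
    ((h1 s).sub ((h1 (Complex.I • s)).const_smul Complex.I)).const_smul (1 / 2 : ℂ)
  rw [h2.fderiv]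
  rfl

lemma DH_DH_symm {g : Cm n → E} {z : Cm n} (hg : ContDiffAt ℝ ∞ g z) (s t : Cm n) :
    DH (fun y => DH g y s) z t = DH (fun y => DH g y t) z s := by
  have hs : IsSymmSndFDerivAt ℝ g z := hg.isSymmSndFDerivAt (by
    rw [minSmoothness_of_isRCLikeNormedField]
    norm_cast)
  rw [DH, DH, fderiv_DH hg, fderiv_DH hg, fderiv_DH hg, fderiv_DH hg, hs.eq t s,
    hs.eq t (Complex.I • s), hs.eq (Complex.I • t) s, hs.eq (Complex.I • t) (Complex.I • s)]
  module

/-- a closed holomorphic form of degree 1 has local primitives -/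
theorem exists_primitive {W : Type*} [NormedAddCommGroup W] [NormedSpace ℂ W] [CompleteSpace W]
    {s : Cm n → Cm n [⋀^Fin 1]→L[ℂ] W} {z₀ : Cm n} (hs : AnalyticAt ℂ s z₀)
    (hcl : ∀ᶠ z in 𝓝 z₀, extDeriv s z = 0) : ∃ F : Cm n → W, AnalyticAt ℂ F z₀ ∧
      ∀ᶠ z in 𝓝 z₀, ∀ t, fderiv ℂ F z t = s z (fun _ => t) := by
  obtain ⟨ρ, hρ, hb⟩ := Metric.eventually_nhds_iff_ball.1 (hs.eventually_analyticAt.and hcl)
  set L := (ContinuousAlternatingMap.ofSubsingletonLIE (𝕜 := ℂ) (E := Cm n) (F := W)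
    (0 : Fin 1)).symm with hL
  set θ : Cm n → (Cm n →L[ℂ] W) := fun z => L (s z) with hθ
  have hθa : ∀ z t, θ z t = s z (fun _ => t) := fun z t => rfl
  have hd : ∀ z ∈ ball z₀ ρ, DifferentiableAt ℂ θ z := fun z hz =>
    L.toContinuousLinearEquiv.differentiableAt.comp z (hb z hz).1.differentiableAt
  have hd1 : DifferentiableOn ℝ θ (ball z₀ ρ) := fun z hz =>
    ((hd z hz).restrictScalars ℝ).differentiableWithinAt
  have hd2 : ∀ z ∈ ball z₀ ρ, ∀ η ζ : Cm n, fderiv ℝ θ z η ζ = fderiv ℝ θ z ζ η := by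
    intro z hz η ζ
    rw [(hd z hz).fderiv_restrictScalars ℝ]
    have h1 : ∀ η ζ : Cm n, fderiv ℂ θ z η ζ = fderiv ℂ (fun y => s y (fun _ => ζ)) z η := by
      intro η ζ
      have h2 := ((ContinuousLinearMap.apply ℂ W ζ).hasFDerivAt.comp z
        (hd z hz).hasFDerivAt).fderiv
      have h3 : (⇑(ContinuousLinearMap.apply ℂ W ζ) ∘ θ) = fun y => s y (fun _ => ζ) := rfl
      rw [h3] at h2
      rw [h2]
      rfl
    show fderiv ℂ θ z η ζ = fderiv ℂ θ z ζ η
    rw [h1, h1]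
    have h4 := extDeriv_apply (hb z hz).1.differentiableAt ![η, ζ]
    rw [(hb z hz).2, Fin.sum_univ_two] at h4
    have h5 : (0 : Fin 2).removeNth ![η, ζ] = fun _ => ζ := by
      funext i
      rw [Subsingleton.elim i 0]
      rfl
    have h6 : (1 : Fin 2).removeNth ![η, ζ] = fun _ => η := by
      funext i
      rw [Subsingleton.elim i 0]
      rfl
    rw [h5, h6] at h4
    simp only [Fin.val_zero, pow_zero, one_smul, Fin.val_one, pow_one, neg_smul,
      Matrix.cons_val_zero, Matrix.cons_val_one] at h4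
    have h7 : (0 : W) = fderiv ℂ (fun y => s y (fun _ => ζ)) z η +
        -fderiv ℂ (fun y => s y (fun _ => η)) z ζ := h4
    have h8 := h7.symm
    rw [← sub_eq_add_neg, sub_eq_zero] at h8
    exact h8
  obtain ⟨P, hP⟩ := (convex_ball z₀ ρ).exists_forall_hasFDerivAt_of_fderiv_symmetric
    isOpen_ball hd1 hd2
  refine ⟨P, Vale.Agent.P281.MF.analyticAt_of_differentiableOn (isOpen_ball (x := z₀) (ε := ρ))
    (fun z hz => (hP z hz).differentiableAt.differentiableWithinAt) (mem_ball_self hρ), ?_⟩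
  filter_upwards [isOpen_ball.mem_nhds (mem_ball_self hρ)] with z hz t
  rw [(hP z hz).fderiv]
  exact hθa z t

end cal

end Vale.Agent.P284.H551
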