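import Vale.Agent.P284.H551.L4E

/-!
# P284 (helper551), L4: the limit form on the pieces
-/

open scoped Manifold ContDiff Topology InnerProductSpace ENNReal ComplexConjugate
open Filter Set Metric MeasureTheory

noncomputable section

namespace Vale.Agent.P284.H551

open Vale.Agent.P272.K Vale.Agent.P284.H894 Vale.Agent.P284.H894.G
  Vale.Agent.P284.H894.V Vale.Agent.P284.H366 Vale.Agent.P284.H513.V

section
variable {n : ℕ} {Γ : Type} [Group Γ] {H : ℕ → Type} [∀ k, NormedAddCommGroup (H k)]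
    [∀ k, InnerProductSpace ℂ (H k)] {C : Coc n Γ} {U : Ultrafilter ℕ}
    {π : ∀ k, Γ →* (H k ≃ₗᵢ[ℂ] H k)} {b : ∀ k, Γ → H k} {u : ∀ k, Γ → C.I → Cm n → H k}

lemma PHSeqV.DH_eq (h : PHSeqV C U π b u) (k : ℕ) (g γ : Γ) {a : C.I} {z : Cm n}
    (hz : z ∈ C.V a) (t : Cm n) : DH (u k (g * γ) a) z t = π k g (DH (u k γ a) z t) := by
  rw [DH, DH, h.fderiv_eq k g γ hz, h.fderiv_eq k g γ hz, (π k g).map_smul, (π k g).map_sub,
    (π k g).map_smul]

lemma PHSeqV.norm_DH (h : PHSeqV C U π b u) (k : ℕ) (γ : Γ) {a : C.I} {z : Cm n}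
    (hz : z ∈ C.V a) (t : Cm n) : ‖DH (u k γ a) z t‖ = ‖DH (u k 1 a) z t‖ := by
  have := h.DH_eq k γ 1 hz t
  rw [mul_one] at this
  rw [this, LinearIsometryEquiv.norm_map]

lemma PHSeqV.norm_DBDH (h : PHSeqV C U π b u) (k : ℕ) (γ : Γ) {a : C.I} {z : Cm n}
    (hz : z ∈ C.V a) (t : Cm n) :
    ‖DB (fun y => DH (u k γ a) y t) z‖ = ‖DB (fun y => DH (u k 1 a) y t) z‖ := by
  have hd : DifferentiableAt ℝ (fun y => DH (u k 1 a) y t) z :=
    (cdAt_DH (h.smooth k 1 a z (cball_Ω a (ball_subset_closedBall hz))) t).differentiableAt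
      (by simp)
  have e1 : (fun y => DH (u k γ a) y t) =ᶠ[𝓝 z]
      fun y => ((π k γ).toContinuousLinearEquiv : H k →L[ℂ] H k) (DH (u k 1 a) y t) := by
    filter_upwards [isOpen_ball.mem_nhds hz] with y hy
    have := h.DH_eq k γ 1 hy t
    rw [mul_one] at this
    exact this
  have e2 : ∀ s, ‖DB (fun y => DH (u k γ a) y t) z s‖ = ‖DB (fun y => DH (u k 1 a) y t) z s‖ := by
    intro s
    rw [DB_congr e1, DB_clm hd]
    exact (π k γ).norm_map _
  refine le_antisymm ?_ ?_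
  · refine ContinuousLinearMap.opNorm_le_bound _ (norm_nonneg _) fun t => ?_
    rw [e2]
    exact ContinuousLinearMap.le_opNorm _ _
  · refine ContinuousLinearMap.opNorm_le_bound _ (norm_nonneg _) fun t => ?_
    rw [← e2]
    exact ContinuousLinearMap.le_opNorm _ _

lemma contAt_DB {E : Type*} [NormedAddCommGroup E] [NormedSpace ℂ E] {g : Cm n → E} {z : Cm n}
    (hg : ContDiffAt ℝ ∞ g z) : ContinuousAt (DB g) z := by
  have h2 : ContinuousAt (fderiv ℝ g) z := (hg.fderiv_right (m := 0) (by simp)).continuousAt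
  unfold DB alp
  exact (h2.add ((h2.clm_comp continuousAt_const).const_smul Complex.I)).const_smul (1 / 2 : ℂ)

lemma R_pos (Dm : MD C) (a : C.I) : 0 < Dm.ρ a + Dm.δ := by
  have := Dm.low a
  have := Dm.pos
  have := C.r_pos a
  linarith

/-- integrability on `V a` -/
lemma intVa {f : Cm n → ℝ} {a : C.I} (hf : ∀ z ∈ C.Ω a, ContinuousAt f z) :
    IntegrableOn f (C.V a) :=
  intOn fun z hz => (hf z (cball_Ω a hz)).continuousWithinAt

/-- the sequences `∂_t u k` are almost holomorphic and bounded -/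
lemma PHSeqV.lseq (h : PHSeqV C U π b u) (Dm : MD C) (γ : Γ) (a : C.I) (t : Cm n) :
    LSeq U (C.c a) (Dm.ρ a + Dm.δ) fun k z => DH (u k γ a) z t := by
  have hV : closedBall (C.c a) (Dm.ρ a + Dm.δ) ⊆ C.V a := Dm.cb_sub a
  have hV' : ball (C.c a) (Dm.ρ a + Dm.δ) ⊆ C.V a := ball_subset_closedBall.trans hV
  have hsm : ∀ k, ∀ z ∈ C.Ω a, ContDiffAt ℝ ∞ (fun y => DH (u k γ a) y t) z := fun k z hz =>
    cdAt_DH (h.smooth k γ a z hz) t
  have i1 : ∀ k, IntegrableOn (fun z => ‖DH (u k γ a) z t‖ ^ 2) (C.V a) := fun k =>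
    intVa fun z hz => (hsm k z hz).continuousAt.norm.pow 2
  have i2 : ∀ k, IntegrableOn (fun z => ‖DB (fun y => DH (u k γ a) y t) z‖ ^ 2) (C.V a) :=
    fun k => intVa fun z hz => (contAt_DB (hsm k z hz)).norm.pow 2
  have i3 : ∀ k, IntegrableOn (fun z => ‖fderiv ℝ (u k 1 a) z‖ ^ 2) (C.V a) := fun k =>
    intVa fun z hz => ((h.smooth k 1 a z hz).fderiv_right (m := 0)
      (by simp)).continuousAt.norm.pow 2
  refine ⟨R_pos Dm a, fun k z hz => hsm k z (V_sub_Ω C a (hV hz)), ?_, ?_⟩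
  · obtain ⟨B, hB⟩ := h.bd
    refine ⟨‖t‖ ^ 2 * B, fun k => ?_⟩
    calc ∫ z in ball (C.c a) (Dm.ρ a + Dm.δ), ‖DH (u k γ a) z t‖ ^ 2
        ≤ ∫ z in C.V a, ‖DH (u k γ a) z t‖ ^ 2 :=
          setIntegral_mono_set (i1 k) (Eventually.of_forall fun z => sq_nonneg _) hV'.eventuallyLE
      _ ≤ ∫ z in C.V a, ‖t‖ ^ 2 * ‖fderiv ℝ (u k 1 a) z‖ ^ 2 := by
          refine setIntegral_mono_on (i1 k) ((i3 k).const_mul _) measurableSet_ball fun z hz => ?_
          rw [h.norm_DH k γ hz, ← mul_pow, mul_comm]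
          exact pow_le_pow_left₀ (norm_nonneg _) (norm_DH_le _ _ _) 2
      _ = ‖t‖ ^ 2 * ∫ z in C.V a, ‖fderiv ℝ (u k 1 a) z‖ ^ 2 := integral_const_mul _ _
      _ ≤ _ := mul_le_mul_of_nonneg_left (hB k a) (sq_nonneg _)
  · refine squeeze_zero (fun k => integral_nonneg fun z => sq_nonneg _) (fun k => ?_) (h.lev a t)
    calc ∫ z in ball (C.c a) (Dm.ρ a + Dm.δ), ‖DB (fun y => DH (u k γ a) y t) z‖ ^ 2
        ≤ ∫ z in C.V a, ‖DB (fun y => DH (u k γ a) y t) z‖ ^ 2 :=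
          setIntegral_mono_set (i2 k) (Eventually.of_forall fun z => sq_nonneg _) hV'.eventuallyLE
      _ = _ := setIntegral_congr_fun measurableSet_ball fun z hz => by
          simp only [h.norm_DBDH k γ hz t]

lemma PHSeqV.fseq (h : PHSeqV C U π b u) (Dm : MD C) (γ : Γ) (a : C.I) :
    FSeq (p := 1) U (C.c a) (Dm.ρ a + Dm.δ) fun k => dForm (u k γ a) :=
  fun ξ => h.lseq Dm γ a (ξ 0)

/-- the sequences `u k - c k` -/
lemma PHSeqV.plseq (h : PHSeqV C U π b u) (Dm : MD C) {c : ∀ k, H k}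
    (hc : ∀ γ a, ∃ A : ℝ, ∀ k, ∫ z in C.V a, ‖u k γ a z - c k‖ ^ 2 ≤ A) (γ : Γ) (a : C.I) :
    PLSeq U (C.c a) (Dm.ρ a + Dm.δ) fun k z => u k γ a z - c k := by
  have hV : closedBall (C.c a) (Dm.ρ a + Dm.δ) ⊆ C.V a := Dm.cb_sub a
  have hV' : ball (C.c a) (Dm.ρ a + Dm.δ) ⊆ C.V a := ball_subset_closedBall.trans hV
  refine ⟨R_pos Dm a, fun k z hz => (h.smooth k γ a z (V_sub_Ω C a (hV hz))).sub
    contDiffAt_const, ?_, fun j => ?_⟩
  · obtain ⟨A, hA⟩ := hc γ a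
    refine ⟨A, fun k => le_trans ?_ (hA k)⟩
    refine setIntegral_mono_set (intVa fun z hz => ?_) (Eventually.of_forall fun z => sq_nonneg _)
      hV'.eventuallyLE
    exact ((h.smooth k γ a z hz).continuousAt.sub continuousAt_const).norm.pow 2
  · have hl := (h.lseq Dm γ a (bv j)).dbar
    have hi : ∀ k, IntegrableOn (fun z => ‖DB (fun y => DH (u k γ a) y (bv j)) z‖ ^ 2)
        (ball (C.c a) (Dm.ρ a + Dm.δ)) := fun k => by
      refine IntegrableOn.mono_set (intVa fun z hz => ?_) hV'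
      exact (contAt_DB (cdAt_DH (h.smooth k γ a z hz) (bv j))).norm.pow 2
    have e0 : ∀ k z, LL (fun z => u k γ a z - c k) j z =
        DB (fun y => DH (u k γ a) y (bv j)) z (bv j) := by
      intro k z
      unfold LL
      simp only [DH_sub_const]
    have e1 : ∀ k z, ‖LL (fun z => u k γ a z - c k) j z‖ ^ 2 ≤
        ‖DB (fun y => DH (u k γ a) y (bv j)) z‖ ^ 2 := by
      intro k z
      rw [e0]
      refine pow_le_pow_left₀ (norm_nonneg _) ((ContinuousLinearMap.le_opNorm _ _).trans ?_) 2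
      exact mul_le_of_le_one_right (norm_nonneg _) (norm_bv_le j)
    refine squeeze_zero (fun k => integral_nonneg fun z => sq_nonneg _) (fun k => ?_) hl
    refine setIntegral_mono_on ?_ (hi k) measurableSet_ball fun z _ => e1 k z
    simp only [e0]
    refine IntegrableOn.mono_set (intVa fun z hz => ?_) hV'
    exact ((contAt_DB (cdAt_DH (h.smooth k γ a z hz) (bv j))).clm_apply
      continuousAt_const).norm.pow 2

variable [∀ k, CompleteSpace (H k)]

/-- the limit form -/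
def sfm (Dm : MD C) (U : Ultrafilter ℕ) (u : ∀ k, Γ → C.I → Cm n → H k) (γ : Γ) (a : C.I)
    (z : Cm n) : Cm n [⋀^Fin 1]→L[ℂ] UP H U :=
  SF U Dm.η (fun k => dForm (u k γ a)) z

lemma sfm_apply (h : PHSeqV C U π b u) (Dm : MD C) (γ : Γ) (a : C.I) {z : Cm n}
    (hz : z ∈ Dm.Q a) (ξ : Fin 1 → Cm n) :
    sfm Dm U u γ a z ξ = slim U Dm.η (fun k y => DH (u k γ a) y (ξ 0)) z :=
  SF_apply (h.fseq Dm γ a) Dm.mol Dm.pos.le le_rfl hz ξ

omit [∀ k, CompleteSpace (H k)] in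
/-- the compatibility on overlaps -/
lemma PHSeqV.comp_ev (h : PHSeqV C U π b u) (γ : Γ) (a d : C.I) {z : Cm n} (hO : z ∈ C.O a d)
    (hz : z ∈ C.V a) (hz' : C.T a d z ∈ C.V d) :
    ∀ᶠ y in 𝓝 z, ∀ k, u k γ a y = u k (γ * C.κ a d z) d (C.T a d y) := by
  have hc : ContinuousAt (C.T a d) z :=
    ((C.T_holo a d).differentiableAt ((C.O_open a d).mem_nhds hO)).continuousAt
  filter_upwards [(C.O_open a d).mem_nhds hO, isOpen_ball.mem_nhds hz,
    hc.eventually (isOpen_ball.mem_nhds hz'), C.κ_loc a d z hO] with y h1 h2 h3 h4 k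
  rw [← h4]
  exact h.compat k γ a d y h1 h2 h3

lemma sfm_cform (h : PHSeqV C U π b u) (Dm : MD C) : CForm C Dm.Q (sfm Dm U u) where
  isOpen := Dm.Q_open
  W_sub := Dm.W_sub
  sub_Ω := fun a => (Dm.Q_sub a).trans (V_sub_Ω C a)
  an := fun γ a _ hz => SF_analyticAt (h.fseq Dm γ a) Dm.mol le_rfl hz
  change := fun γ a d z hO hz hz' => by
    refine SF_change C (h.fseq Dm γ a) (h.fseq Dm (γ * C.κ a d z) d) Dm.mol Dm.pos.le le_rfl
      le_rfl hz hO (Dm.Q_sub a hz) (Dm.Q_sub d hz') hz' ?_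
    have hc : ContinuousAt (C.T a d) z :=
      ((C.T_holo a d).differentiableAt ((C.O_open a d).mem_nhds hO)).continuousAt
    filter_upwards [(h.comp_ev γ a d hO (Dm.Q_sub a hz) (Dm.Q_sub d hz')).eventually_nhds,
      (C.O_open a d).mem_nhds hO, hc.eventually ((Dm.Q_open d).mem_nhds hz')] with y h1 h2 h3 k ξ
    rw [dForm_apply, dForm_apply]
    have e1 : u k γ a =ᶠ[𝓝 y] fun x => u k (γ * C.κ a d z) d (C.T a d x) := by
      filter_upwards [h1] with x hx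
      exact hx k
    rw [DH_congr e1]
    exact DH_comp ((h.smooth k _ d _ (V_sub_Ω C d (Dm.Q_sub d h3))).differentiableAt (by simp))
      ((C.T_holo a d).differentiableAt ((C.O_open a d).mem_nhds h2)) _

lemma sfm_closed (h : PHSeqV C U π b u) (Dm : MD C) (γ : Γ) (a : C.I) {z : Cm n}
    (hz : z ∈ Dm.Q a) : extDeriv (sfm Dm U u γ a) z = 0 := by
  refine SF_closed (h.fseq Dm γ a) Dm.mol Dm.pos.le le_rfl (fun k y hy ξ => ?_) hz
  have hyΩ := V_sub_Ω C a (Dm.cb_sub a (ball_subset_closedBall hy))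
  rw [Fin.sum_univ_two]
  simp only [dForm_apply]
  have e1 : (0 : Fin 2).removeNth ξ 0 = ξ 1 := rfl
  have e2 : (1 : Fin 2).removeNth ξ 0 = ξ 0 := rfl
  rw [e1, e2, DH_DH_symm (h.smooth k γ a y hyΩ) (ξ 1) (ξ 0)]
  simp

lemma sfm_equiv (h : PHSeqV C U π b u) (Dm : MD C) (g γ : Γ) (a : C.I) {z : Cm n}
    (hz : z ∈ Dm.Q a) (ξ : Fin 1 → Cm n) :
    sfm Dm U u (g * γ) a z ξ = upRep U π g (sfm Dm U u γ a z ξ) := by
  have hbd : Bd fun k => mv Dm.η (fun y => DH (u k γ a) y (ξ 0)) z :=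
    slim_bd (h.fseq Dm γ a) Dm.mol Dm.pos.le le_rfl hz ξ
  rw [sfm_apply h Dm _ a hz, sfm_apply h Dm _ a hz, slim, slim, upRep_mk _ _ hbd]
  congr 1
  funext k
  have e1 : mv Dm.η (fun y => DH (u k (g * γ) a) y (ξ 0)) z =
      mv Dm.η (fun y => ((π k g).toContinuousLinearEquiv : H k →L[ℂ] H k)
        (DH (u k γ a) y (ξ 0))) z := by
    refine mv_congr Dm.mol.zero (ball_subset_closedBall hz) le_rfl fun y hy => ?_
    exact h.DH_eq k g γ (Dm.cb_sub a (ball_subset_closedBall hy)) _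
  rw [e1]
  refine mv_clm_loc Dm.mol le_rfl hz (g := fun y => DH (u k γ a) y (ξ 0)) ?_
    ((π k g).toContinuousLinearEquiv : H k →L[ℂ] H k)
  exact ((h.lseq Dm γ a (ξ 0)).contOn k).mono ball_subset_closedBall

lemma sfm_ne (h : PHSeqV C U π b u) (Dm : MD C) {a : C.I} {K : Set (Cm n)}
    (hKQ : K ⊆ Dm.Q a) {t : Cm n}
    (ht : ¬ Tendsto (fun k => ∫ z in K, ‖DH (u k 1 a) z t‖ ^ 2) U (𝓝 0)) :
    ∃ z ∈ Dm.Q a, sfm Dm U u 1 a z ≠ 0 := by
  by_contra hcon
  push Not at hcon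
  refine ht ?_
  have hl := h.lseq Dm 1 a t
  have h1 := tendsto_zero_of_slim hl Dm.mol Dm.pos.le le_rfl (fun z hz => by
    rw [← sfm_apply h Dm 1 a hz fun _ => t, hcon z hz]
    rfl)
  refine squeeze_zero (fun k => integral_nonneg fun z => sq_nonneg _) (fun k => ?_) h1
  refine setIntegral_mono_set ?_ (Eventually.of_forall fun z => sq_nonneg _) hKQ.eventuallyLE
  refine IntegrableOn.mono_set (intOn (c := C.c a) (r := Dm.ρ a + Dm.δ)
    ((hl.contOn k).norm.pow 2)) (ball_subset_ball (by linarith [Dm.pos]))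

end

end Vale.Agent.P284.H551
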