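import Vale.Agent.P284.H551.ECoc
import Vale.Agent.P284.H551.EMap
import Vale.Agent.P284.H366.AF
import Vale.Agent.P284.H501.ExtS
import Vale.Agent.P272.K.Inv.Chart

/-!
# P284 (helper551): from forms on the pieces to forms on the covering space
-/

open scoped Manifold ContDiff Topology ENNReal
open Filter Set Metric MeasureTheory

noncomputable section

namespace Vale.Agent.P284.H551

open Vale.Agent.P272.K Vale.Agent.P284.H248 Vale.Agent.P284.H894 Vale.Agent.P284.H894.G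
  Vale.Agent.P284.H894.V Vale.Agent.P284.H894.W Vale.Agent.P284.H366 Vale.Agent.P284.H501

section an
variable {n m : ℕ} {W : Type*} [NormedAddCommGroup W] [NormedSpace ℂ W]

theorem an_cJ {z : Cm n} {ξ : Fin m → Cm n → Cm n} (hξ : ∀ i, AnalyticAt ℂ (ξ i) z)
    (J : Fin m → Fin n) : AnalyticAt ℂ (fun y => cJ (fun i => ξ i y) J) z := by
  unfold cJ
  refine analyticAt_const.mul ?_
  simp only [Matrix.det_apply']
  refine Finset.analyticAt_fun_sum _ fun σ _ => ?_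
  refine analyticAt_const.mul ?_
  refine Finset.analyticAt_fun_prod _ fun i _ => ?_
  simp only [Matrix.of_apply]
  exact (analyticAt_pi_iff.1 (hξ (σ i))) (J i)

/-- the pull-back of an analytic form is analytic -/
theorem an_pull {s : Cm n → Cm n [⋀^Fin m]→L[ℂ] W} {L : Cm n → (Cm n →L[ℂ] Cm n)} {z : Cm n}
    (hs : AnalyticAt ℂ s z) (hL : AnalyticAt ℂ L z) :
    AnalyticAt ℂ (fun y => (s y).compContinuousLinearMap (L y)) z := by
  have h1 : (fun y => (s y).compContinuousLinearMap (L y)) =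
      fun y => AF fun J => (s y).compContinuousLinearMap (L y) (eJ J) := by
    funext y
    ext ξ
    exact (AF_eq ((s y).compContinuousLinearMap (L y)).toAlternatingMap ξ).symm
  rw [h1]
  refine AF_analyticAt fun J => ?_
  have h2 : (fun y => (s y).compContinuousLinearMap (L y) (eJ J)) =
      fun y => ∑ J', cJ (fun i => L y (eJ J i)) J' • s y (eJ J') := by
    funext y
    rw [expandL]
    rfl
  rw [h2]
  refine Finset.analyticAt_fun_sum _ fun J' _ => ?_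
  refine AnalyticAt.fun_smul (an_cJ (fun i => ?_) J') ?_
  · exact ((ContinuousLinearMap.apply ℂ (Cm n) (eJ J i)).analyticAt _).comp hL
  · exact ((ContinuousAlternatingMap.apply ℂ (Cm n) W (eJ J')).analyticAt _).comp hs

/-- norm of a pull-back -/
theorem norm_pull_le (f : Cm n [⋀^Fin m]→L[ℂ] W) (L : Cm n →L[ℂ] Cm n) :
    ‖f.compContinuousLinearMap L‖ ≤ ‖f‖ * ‖L‖ ^ m := by
  refine ContinuousAlternatingMap.opNorm_le_bound _ (by positivity) fun v => ?_
  rw [ContinuousAlternatingMap.compContinuousLinearMap_apply]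
  refine (f.le_opNorm _).trans ?_
  rw [mul_assoc]
  gcongr
  calc ∏ i, ‖(L ∘ v) i‖ ≤ ∏ i, (‖L‖ * ‖v i‖) :=
        Finset.prod_le_prod (fun _ _ => norm_nonneg _) fun i _ => L.le_opNorm (v i)
    _ = ‖L‖ ^ m * ∏ i, ‖v i‖ := by rw [Finset.prod_mul_distrib]; simp

end an

section
variable {n m q : ℕ} {Γ X E : Type} [Group Γ] [TopologicalSpace X] [ChartedSpace (Cm n) X]
    [TopologicalSpace E] [MulAction Γ E] {p : E → X} {C : Coc n Γ}
    {W : Type} [NormedAddCommGroup W] [NormedSpace ℂ W]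

/-- a holomorphic form on the pieces, defined on the open sets `Q a` -/
structure CForm (C : Coc n Γ) (Q : C.I → Set (Cm n))
    (s : Γ → C.I → Cm n → Cm n [⋀^Fin m]→L[ℂ] W) : Prop where
  isOpen : ∀ a, IsOpen (Q a)
  W_sub : ∀ a, C.W a ⊆ Q a
  sub_Ω : ∀ a, Q a ⊆ C.Ω a
  an : ∀ γ a, ∀ z ∈ Q a, AnalyticAt ℂ (s γ a) z
  change : ∀ γ a b z, z ∈ C.O a b → z ∈ Q a → C.T a b z ∈ Q b →
    s γ a z = (s (γ * C.κ a b z) b (C.T a b z)).compContinuousLinearMap (fderiv ℂ (C.T a b) z)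

variable (hG : IsGalois Γ p) (D : ECoc p C) {Q : C.I → Set (Cm n)}
  {s : Γ → C.I → Cm n → Cm n [⋀^Fin m]→L[ℂ] W}

/-- the form on the covering space -/
def SE (hG : IsGalois Γ p) (D : ECoc p C) (s : Γ → C.I → Cm n → Cm n [⋀^Fin m]→L[ℂ] W)
    (y : E) (e : Chart n X) : Cm n [⋀^Fin m]→L[ℂ] W :=
  (s (D.exists_sheet hG y).choose (D.exists_sheet hG y).choose_spec.choose
    (D.e (D.exists_sheet hG y).choose_spec.choose (p y))).compContinuousLinearMap
    (fderiv ℂ (fun z => D.e (D.exists_sheet hG y).choose_spec.choose (e.symm z)) (e (p y)))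

/-- change of charts, differentials -/
theorem fderiv_chart [IsManifold 𝓘(ℂ, Cm n) ω X] {x : X} {e e' e'' : Chart n X} (h : At e x)
    (h' : At e' x) (h'' : At e'' x) :
    fderiv ℂ (fun z => e'' (e.symm z)) (e x) =
      (fderiv ℂ (fun z => e'' (e'.symm z)) (e' x)).comp
        (fderiv ℂ (fun z => e' (e.symm z)) (e x)) := by
  have h1 : (fun z => e'' (e.symm z)) =ᶠ[𝓝 (e x)]
      fun z => (fun z => e'' (e'.symm z)) ((fun z => e' (e.symm z)) z) := by
    filter_upwards [h.nhds_at h'] with z hz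
    show e'' (e.symm z) = e'' (e'.symm (e' (e.symm z)))
    rw [e'.left_inv hz.2.2.2]
  have h2 : (fun z => e' (e.symm z)) (e x) = e' x := by
    show e' (e.symm (e x)) = e' x
    rw [e.left_inv h.2]
  rw [h1.fderiv_eq]
  have h3 : DifferentiableAt ℂ (fun z => e'' (e'.symm z)) ((fun z => e' (e.symm z)) (e x)) := by
    rw [h2]; exact transition_differentiableAt h' h''
  have h4 := fderiv_comp (g := fun z => e'' (e'.symm z)) (f := fun z => e' (e.symm z)) (e x) h3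
    (transition_differentiableAt h h')
  have h2' : e' (e.symm (e x)) = e' x := h2
  simp only [h2'] at h4
  exact h4

include hG in
/-- the form on the covering space in terms of any sheet -/
theorem SE_eq [IsManifold 𝓘(ℂ, Cm n) ω X] (hs : CForm C Q s) (γ : Γ) {a : C.I} {z : Cm n}
    (hz : z ∈ Q a) {e : Chart n X} (he : At e (p (γ • D.σ a z))) :
    SE hG D s (γ • D.σ a z) e = (s γ a z).compContinuousLinearMap
      (fderiv ℂ (fun z => D.e a (e.symm z)) (e (p (γ • D.σ a z)))) := by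
  unfold SE
  set y := γ • D.σ a z with hy
  set γ' := (D.exists_sheet hG y).choose with hγ'
  set b := (D.exists_sheet hG y).choose_spec.choose with hb
  obtain ⟨h1, h2, h3⟩ := (D.exists_sheet hG y).choose_spec.choose_spec
  rw [← hb] at h1 h2 h3
  rw [← hγ'] at h3
  have hzΩ := hs.sub_Ω a hz
  have h2Q := hs.W_sub b h2
  have h2Ω := hs.sub_Ω b h2Q
  obtain ⟨hO, hT, hκ⟩ := D.eq_imp hG hzΩ h2Ω (h3.symm : γ • D.σ a z = _)
  have h4 := hs.change γ a b z hO hz (by rw [hT]; exact h2Q)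
  rw [hT, ← hκ] at h4
  rw [h4]
  have ha : At (D.e a) (p y) := D.at_sheet hG γ hzΩ
  have hbt : At (D.e b) (p y) := ⟨D.mem b, h1⟩
  have h5 := fderiv_chart he ha hbt
  have h6 : C.T a b = fun z => D.e b ((D.e a).symm z) := by
    funext z; exact D.T_eq a b z
  have h7 : D.e a (p y) = z := D.e_proj hG γ hzΩ
  rw [h5, h7, h6]
  ext ξ
  rfl

include hG in
theorem SE_loc [IsManifold 𝓘(ℂ, Cm n) ω X] (hs : CForm C Q s) (γ : Γ) {a : C.I} {z : Cm n}
    (hz : z ∈ Q a) {e : Chart n X} (he : At e (p (γ • D.σ a z))) :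
    ∀ᶠ y' in 𝓝 (γ • D.σ a z), SE hG D s y' e =
      (s γ a (D.e a (e.symm (e (p y'))))).compContinuousLinearMap
        (fderiv ℂ (fun z => D.e a (e.symm z)) (e (p y'))) := by
  have hzΩ := hs.sub_Ω a hz
  have hcπ : ContinuousAt p (γ • D.σ a z) := hG.cov.continuous.continuousAt
  have hpy : p (γ • D.σ a z) = (D.e a).symm z := D.proj' hG γ hzΩ
  have hea : ContinuousAt (fun y => D.e a (p y)) (γ • D.σ a z) := by
    refine ContinuousAt.comp ?_ hcπ
    rw [hpy]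
    exact (D.e a).continuousAt (D.source hzΩ)
  have h1 : ∀ᶠ y' in 𝓝 (γ • D.σ a z), D.e a (p y') ∈ Q a := by
    refine hea.eventually ?_
    show ∀ᶠ y' in 𝓝 (D.e a (p (γ • D.σ a z))), y' ∈ Q a
    rw [D.e_proj hG γ hzΩ]
    exact (hs.isOpen a).mem_nhds hz
  have h2 : ∀ᶠ y' in 𝓝 (γ • D.σ a z), p y' ∈ e.source :=
    hcπ.eventually (e.open_source.mem_nhds he.2)
  filter_upwards [h1, h2, D.ev hG γ hzΩ] with y' h3 h4 h5
  have h6 := SE_eq hG D hs γ h3 (e := e) (by rw [h5.2.2]; exact ⟨he.1, h4⟩)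
  rw [h5.2.2] at h6
  rw [h6, e.left_inv h4]

include hG in
/-- the local representatives -/
theorem rep_eq {y : E} {e : Chart n X} (he : At e (p y)) {T : Type*} {f g : Cm n → T}
    (h : ∀ᶠ y' in 𝓝 y, f (e (p y')) = g (e (p y'))) : f =ᶠ[𝓝 (e (p y))] g := by
  have hmap : map (fun y' => e (p y')) (𝓝 y) = 𝓝 (e (p y)) := by
    rw [← e.map_nhds_eq he.2, ← hG.cov.isLocalHomeomorph.map_nhds_eq y, Filter.map_map]
    rfl
  have h2 : ∀ᶠ z in map (fun y' => e (p y')) (𝓝 y), f z = g z := by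
    rw [Filter.eventually_map]
    exact h
  rwa [hmap] at h2

include hG in
theorem SE_form [IsManifold 𝓘(ℂ, Cm n) ω X] (hs : CForm C Q s) : FormE p (SE hG D s) where
  holo := fun y e he => by
    obtain ⟨γ, a, h1, h2, h3⟩ := D.exists_sheet hG y
    have h2Q := hs.W_sub a h2
    have hloc := SE_loc hG D hs γ h2Q (e := e) (by rw [h3]; exact he)
    rw [h3] at hloc
    refine ⟨fun x => (s γ a (D.e a (e.symm x))).compContinuousLinearMap
      (fderiv ℂ (fun z => D.e a (e.symm z)) x), ?_, hloc⟩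
    have hτ : AnalyticAt ℂ (fun z => D.e a (e.symm z)) (e (p y)) :=
      (transition he ⟨D.mem a, h1⟩).analyticAt
    refine an_pull ?_ hτ.fderiv
    refine AnalyticAt.comp (g := s γ a) ?_ hτ
    rw [e.left_inv he.2]
    exact hs.an γ a _ h2Q
  change := fun y e e' he he' ξ => by
    obtain ⟨γ, a, h1, h2, h3⟩ := D.exists_sheet hG y
    have h2Q := hs.W_sub a h2
    have e1 := SE_eq hG D hs γ h2Q (e := e) (by rw [h3]; exact he)
    have e2 := SE_eq hG D hs γ h2Q (e := e') (by rw [h3]; exact he')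
    rw [h3] at e1 e2
    rw [e1, e2, fderiv_chart he he' ⟨D.mem a, h1⟩]
    rfl

include hG in
/-- closedness -/
theorem SE_closed [IsManifold 𝓘(ℂ, Cm n) ω X] (hs : CForm C Q s)
    (hcl : ∀ γ a, ∀ z ∈ Q a, extDeriv (s γ a) z = 0) (y : E) (e : Chart n X)
    (f : Cm n → Cm n [⋀^Fin m]→L[ℂ] W) (he : At e (p y))
    (hf : ∀ᶠ y' in 𝓝 y, SE hG D s y' e = f (e (p y'))) :
    ∀ᶠ z in 𝓝 (e (p y)), extDeriv f z = 0 := by
  obtain ⟨γ, a, h1, h2, h3⟩ := D.exists_sheet hG y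
  have h2Q := hs.W_sub a h2
  have hloc := SE_loc hG D hs γ h2Q (e := e) (by rw [h3]; exact he)
  rw [h3] at hloc
  have h4 : f =ᶠ[𝓝 (e (p y))] fun z => (s γ a (D.e a (e.symm z))).compContinuousLinearMap
      (fderiv ℂ (fun z => D.e a (e.symm z)) z) := by
    refine rep_eq hG he ?_
    filter_upwards [hf, hloc] with y' h5 h6
    rw [← h5, h6]
  have ha : At (D.e a) (p y) := ⟨D.mem a, h1⟩
  have hτ : ∀ᶠ z in 𝓝 (e (p y)), ContDiffAt ℂ ω (fun z => D.e a (e.symm z)) z :=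
    (transition he ha).eventually (by simp)
  have hτc : ContinuousAt (fun z => D.e a (e.symm z)) (e (p y)) := (transition he ha).continuousAt
  have h5 : ∀ᶠ z in 𝓝 (e (p y)), D.e a (e.symm z) ∈ Q a := by
    refine hτc.eventually ?_
    show ∀ᶠ z in 𝓝 (D.e a (e.symm (e (p y)))), z ∈ Q a
    rw [e.left_inv he.2]
    exact (hs.isOpen a).mem_nhds h2Q
  filter_upwards [h4.eventually_nhds, hτ, h5] with z h6 h7 h8
  have h6' : f =ᶠ[𝓝 z] fun z => (s γ a (D.e a (e.symm z))).compContinuousLinearMap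
      (fderiv ℂ (fun z => D.e a (e.symm z)) z) := h6
  have h9 := extDeriv_pullback (𝕜 := ℂ) (r := ω)
    (f := fun z : Cm n => D.e a (e.symm z)) (x := z) (hs.an γ a _ h8).differentiableAt h7 (by simp)
  rw [h6'.extDeriv_eq, h9, hcl γ a _ h8]
  rfl

include hG in
/-- equivariance -/
theorem SE_equiv [IsManifold 𝓘(ℂ, Cm n) ω X] (hs : CForm C Q s) {π : Γ → W → W}
    (hπ : ∀ g γ a, ∀ z ∈ Q a, ∀ ξ, s (g * γ) a z ξ = π g (s γ a z ξ)) (g : Γ) (y : E)
    {e : Chart n X} (he : At e (p y)) (ξ : Fin m → Cm n) :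
    SE hG D s (g • y) e ξ = π g (SE hG D s y e ξ) := by
  obtain ⟨γ, a, h1, h2, h3⟩ := D.exists_sheet hG y
  have h2Q := hs.W_sub a h2
  have e1 := SE_eq hG D hs γ h2Q (e := e) (by rw [h3]; exact he)
  have hgy : (g * γ) • D.σ a (D.e a (p y)) = g • y := by rw [mul_smul, h3]
  have hp : p (g • y) = p y := ECoc.p_smul hG g y
  have e2 := SE_eq hG D hs (g * γ) h2Q (e := e) (by rw [hgy, hp]; exact he)
  rw [h3] at e1
  rw [hgy] at e2
  rw [e1, e2, hp, ContinuousAlternatingMap.compContinuousLinearMap_apply,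
    ContinuousAlternatingMap.compContinuousLinearMap_apply, hπ g γ a _ h2Q]

include hG in
/-- the form is not zero -/
theorem SE_ne [IsManifold 𝓘(ℂ, Cm n) ω X] (hs : CForm C Q s)
    (h0 : ∃ γ a, ∃ z ∈ Q a, s γ a z ≠ 0) : ∃ y e ξ, At e (p y) ∧ SE hG D s y e ξ ≠ 0 := by
  obtain ⟨γ, a, z, hz, hne⟩ := h0
  obtain ⟨ξ, hξ⟩ : ∃ ξ, s γ a z ξ ≠ 0 := by
    by_contra hcon
    push Not at hcon
    exact hne (by ext ξ; exact hcon ξ)
  have hzΩ := hs.sub_Ω a hz
  have hat := D.at_sheet hG γ hzΩ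
  refine ⟨γ • D.σ a z, D.e a, ξ, hat, ?_⟩
  rw [SE_eq hG D hs γ hz hat, ContinuousAlternatingMap.compContinuousLinearMap_apply]
  have h1 : (fun z => D.e a ((D.e a).symm z)) =ᶠ[𝓝 (D.e a (p (γ • D.σ a z)))] id := by
    filter_upwards [(D.e a).open_target.mem_nhds ((D.e a).map_source hat.2)] with x hx
    exact (D.e a).right_inv hx
  rw [h1.fderiv_eq, fderiv_id]
  exact hξ

/-- the representatives of `F` -/
theorem F_rep [IsManifold 𝓘(ℂ, Cm n) ω X] (hG : IsGalois Γ p) (D : ECoc p C) {F : E → Cm q}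
    {γ : Γ} {a : C.I} {z : Cm n} (hz : z ∈ C.Ω a) {e : Chart n X}
    (he : At e (p (γ • D.σ a z))) {f : Cm n → Cm q}
    (hf : ∀ᶠ y' in 𝓝 (γ • D.σ a z), F y' = f (e (p y'))) :
    f =ᶠ[𝓝 (e (p (γ • D.σ a z)))] fun x => Fc D F γ a (D.e a (e.symm x)) := by
  refine rep_eq hG he ?_
  have h2 : ∀ᶠ y' in 𝓝 (γ • D.σ a z), p y' ∈ e.source :=
    hG.cov.continuous.continuousAt.eventually (e.open_source.mem_nhds he.2)
  filter_upwards [hf, Fc_rep hG D F γ hz, h2] with y' h3 h4 h5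
  rw [← h3, h4, e.left_inv h5]

include hG in
/-- the relation `S = O ∧ Θ` -/
theorem SE_rel [IsManifold 𝓘(ℂ, Cm n) ω X] (hs : CForm C Q s) {F : E → Cm q}
    (hF : ∀ y (e : Chart n X), At e (p y) → ∃ f, Rep p F y e f) {i j : Fin m}
    (hrel : ∀ γ a, ∀ z ∈ Q a, Function.Surjective (fderiv ℂ (Fc D F γ a) z) →
      ∀ ξ : Fin m → Cm n, fderiv ℂ (Fc D F γ a) z (ξ i) = 0 →
        fderiv ℂ (Fc D F γ a) z (ξ j) = 0 → s γ a z ξ = 0)
    {y : E} {e : Chart n X} {f : Cm n → Cm q} (he : At e (p y)) (hf : Rep p F y e f)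
    (hsur : Function.Surjective (fderiv ℂ f (e (p y)))) {ξ : Fin m → Cm n}
    (hi : fderiv ℂ f (e (p y)) (ξ i) = 0) (hj : fderiv ℂ f (e (p y)) (ξ j) = 0) :
    SE hG D s y e ξ = 0 := by
  obtain ⟨γ, a, h1, h2, h3⟩ := D.exists_sheet hG y
  have h2Q := hs.W_sub a h2
  have h2Ω := hs.sub_Ω a h2Q
  have ha : At (D.e a) (p y) := ⟨D.mem a, h1⟩
  have e1 := SE_eq hG D hs γ h2Q (e := e) (by rw [h3]; exact he)
  have hrep := F_rep hG D (F := F) (γ := γ) h2Ω (e := e) (by rw [h3]; exact he) (f := f)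
    (by rw [h3]; exact hf.2)
  rw [h3] at e1 hrep
  obtain ⟨fa, hfa⟩ := hF y (D.e a) ha
  have hFa : fa =ᶠ[𝓝 (D.e a (p y))] fun x => Fc D F γ a x := by
    have h5 := F_rep hG D (F := F) (γ := γ) h2Ω (e := D.e a) (by rw [h3]; exact ha) (f := fa)
      (by rw [h3]; exact hfa.2)
    rw [h3] at h5
    filter_upwards [h5, (D.e a).open_target.mem_nhds ((D.e a).map_source h1)] with x h6 h7
    rw [h6, (D.e a).right_inv h7]
  have hFd : DifferentiableAt ℂ (Fc D F γ a) (D.e a (p y)) :=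
    (hfa.1.congr hFa).differentiableAt
  have hτ := transition_differentiableAt he ha
  have hval : D.e a (e.symm (e (p y))) = D.e a (p y) := by rw [e.left_inv he.2]
  have h4 : fderiv ℂ f (e (p y)) = (fderiv ℂ (Fc D F γ a) (D.e a (p y))).comp
      (fderiv ℂ (fun z => D.e a (e.symm z)) (e (p y))) := by
    rw [hrep.fderiv_eq]
    have h5 := fderiv_comp (g := Fc D F γ a) (f := fun z => D.e a (e.symm z)) (e (p y))
      (by simp only [hval]; exact hFd) hτ
    simp only [hval] at h5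
    exact h5
  rw [e1, ContinuousAlternatingMap.compContinuousLinearMap_apply]
  rw [h4] at hsur hi hj
  refine hrel γ a _ h2Q (fun t => ?_) _ hi hj
  obtain ⟨x, hx⟩ := hsur t
  exact ⟨_, hx⟩

/-- change of variables under a change of charts -/
theorem push_chart [IsManifold 𝓘(ℂ, Cm n) ω X] {x : X} {e e' : Chart n X} (he : At e x)
    (he' : At e' x) {V : Set (Cm n)} (hV : V ∈ 𝓝 (e' x)) :
    ∀ᶠ ρ in 𝓝[>] (0 : ℝ), (∀ z ∈ ball (e x) ρ, e' (e.symm z) ∈ V) ∧
      ∃ M : ℝ≥0∞, M ≠ ⊤ ∧ ∀ G : Cm n → ℝ≥0∞,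
        ∫⁻ z in ball (e x) ρ, G (e' (e.symm z)) ≤ M * ∫⁻ z in V, G z := by
  set T : Cm n → Cm n := fun z => e' (e.symm z) with hT
  set z₀ := e x with hz₀
  have hTz : T z₀ = e' x := by
    show e' (e.symm (e x)) = e' x
    rw [e.left_inv he.2]
  have hTan : ContDiffAt ℂ ω T z₀ := INT.transition_contDiffAt he he'
  have hTan' : AnalyticAt ℂ T z₀ := hTan.analyticAt
  have hTd : DifferentiableAt ℂ T z₀ := hTan.differentiableAt (by simp)
  have hTc : ContinuousAt T z₀ := hTd.continuousAt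
  have hdetc : ContinuousAt (fun z => |(fderiv ℝ T z).det|) z₀ := by
    have h5 : ContinuousAt (fun z => fderiv ℝ T z) z₀ := by
      have h6 : ContDiffAt ℝ 1 T z₀ := (hTan.restrict_scalars ℝ).of_le (by exact le_top)
      exact h6.continuousAt_fderiv (by norm_num)
    exact (ContinuousLinearMap.continuous_det.continuousAt.comp h5).abs
  have hdet0 : 0 < |(fderiv ℝ T z₀).det| := by
    have h5 := INT.det_trans he he'
    have h6 : (fderiv ℝ T z₀).det = ‖(jacM e e' x).det‖ ^ 2 := h5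
    rw [h6, abs_of_nonneg (by positivity)]
    exact pow_pos (norm_pos_iff.2 (jacM_det_ne_zero he he')) 2
  set δ : ℝ := |(fderiv ℝ T z₀).det| / 2 with hδ
  have hδ0 : 0 < δ := by positivity
  have hdetδ : ∀ᶠ z in 𝓝 z₀, δ ≤ |(fderiv ℝ T z).det| := by
    filter_upwards [hdetc.eventually (lt_mem_nhds (show δ < |(fderiv ℝ T z₀).det| by
      rw [hδ]; linarith))] with z hz using hz.le
  have hVmem : ∀ᶠ z in 𝓝 z₀, T z ∈ V := hTc.eventually (by rw [hTz]; exact hV)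
  have hTd' : ∀ᶠ z in 𝓝 z₀, DifferentiableAt ℂ T z :=
    hTan'.eventually_analyticAt.mono fun z hz => hz.differentiableAt
  have hsrc : ∀ᶠ z in 𝓝 z₀, z ∈ (e.symm ≫ₕ e').source := by
    refine (e.symm ≫ₕ e').open_source.mem_nhds ?_
    rw [OpenPartialHomeomorph.trans_source]
    exact ⟨e.map_source he.2, by
      show e.symm (e x) ∈ e'.source
      rw [e.left_inv he.2]; exact he'.2⟩
  obtain ⟨ρ, hρ, hball⟩ := Metric.eventually_nhds_iff_ball.1
    (hdetδ.and (hVmem.and (hTd'.and hsrc)))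
  filter_upwards [Ioo_mem_nhdsGT hρ] with ρ' hρ'
  have hsubρ : ball z₀ ρ' ⊆ ball z₀ ρ := ball_subset_ball hρ'.2.le
  refine ⟨fun z hz => (hball z (hsubρ hz)).2.1, ENNReal.ofReal δ⁻¹, ENNReal.ofReal_ne_top,
    fun G => ?_⟩
  have hinj : InjOn T (ball z₀ ρ') := by
    intro z hz z' hz' h
    exact (e.symm ≫ₕ e').injOn (hball z (hsubρ hz)).2.2.2 (hball z' (hsubρ hz')).2.2.2 h
  have hcov := lintegral_image_eq_lintegral_abs_det_fderiv_mul volume
    (measurableSet_ball (x := z₀) (ε := ρ')) (f := T) (f' := fun z => fderiv ℝ T z)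
    (fun z hz => ((hball z (hsubρ hz)).2.2.1.restrictScalars ℝ).hasFDerivAt.hasFDerivWithinAt)
    hinj G
  have hsub : T '' (ball z₀ ρ') ⊆ V := by
    rintro _ ⟨z, hz, rfl⟩
    exact (hball z (hsubρ hz)).2.1
  calc ∫⁻ z in ball z₀ ρ', G (T z)
      ≤ ∫⁻ z in ball z₀ ρ', ENNReal.ofReal δ⁻¹ * (ENNReal.ofReal |(fderiv ℝ T z).det| * G (T z)) := by
        refine setLIntegral_mono' measurableSet_ball fun z hz => ?_
        rw [← mul_assoc, ← ENNReal.ofReal_mul (by positivity)]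
        refine le_mul_of_one_le_left' ?_
        rw [ENNReal.one_le_ofReal]
        have := (hball z (hsubρ hz)).1
        rw [inv_mul_eq_div, le_div_iff₀ hδ0, one_mul]
        exact this
    _ = ENNReal.ofReal δ⁻¹ * ∫⁻ z in T '' (ball z₀ ρ'), G z := by
        rw [lintegral_const_mul' _ _ ENNReal.ofReal_ne_top, hcov]
    _ ≤ ENNReal.ofReal δ⁻¹ * ∫⁻ z in V, G z := by gcongr

include hG in
/-- the bound for the push-forward -/
theorem SE_push [IsManifold 𝓘(ℂ, Cm n) ω X] (hs : CForm C Q s) {F : E → Cm q}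
    (hpush : ∀ γ a, ∀ z ∈ Q a, ∃ V ∈ 𝓝 z, ∃ A : ℝ≥0∞, A ≠ ⊤ ∧ ∀ g : Cm q → ℝ≥0∞, Measurable g →
      ∫⁻ x in V, g (Fc D F γ a x) * ‖s γ a x‖ₑ ^ 2 ≤ A * ∫⁻ t, g t)
    {y : E} {e : Chart n X} {f : Cm n → Cm q} {s' : Cm n → Cm n [⋀^Fin m]→L[ℂ] W}
    (he : At e (p y)) (hf : ∀ᶠ y' in 𝓝 y, F y' = f (e (p y')))
    (hs' : ∀ᶠ y' in 𝓝 y, SE hG D s y' e = s' (e (p y'))) :
    ∃ V ∈ 𝓝 (e (p y)), ∃ A : ℝ≥0∞, A ≠ ⊤ ∧ ∀ g : Cm q → ℝ≥0∞, Measurable g →
      ∫⁻ z in V, g (f z) * ‖s' z‖ₑ ^ 2 ≤ A * ∫⁻ t, g t := by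
  obtain ⟨γ, a, h1, h2, h3⟩ := D.exists_sheet hG y
  have h2Q := hs.W_sub a h2
  have h2Ω := hs.sub_Ω a h2Q
  have ha : At (D.e a) (p y) := ⟨D.mem a, h1⟩
  have hloc := SE_loc hG D hs γ h2Q (e := e) (by rw [h3]; exact he)
  have hrep := F_rep hG D (F := F) (γ := γ) h2Ω (e := e) (by rw [h3]; exact he) (f := f)
    (by rw [h3]; exact hf)
  rw [h3] at hloc hrep
  have h4 : s' =ᶠ[𝓝 (e (p y))] fun z => (s γ a (D.e a (e.symm z))).compContinuousLinearMap
      (fderiv ℂ (fun z => D.e a (e.symm z)) z) := by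
    refine rep_eq hG he ?_
    filter_upwards [hs', hloc] with y' h5 h6
    rw [← h5, h6]
  obtain ⟨V, hV, A, hA, hpA⟩ := hpush γ a _ h2Q
  set T : Cm n → Cm n := fun z => D.e a (e.symm z) with hT
  have hTan : AnalyticAt ℂ T (e (p y)) := (transition he ha).analyticAt
  set B : ℝ := ‖fderiv ℂ T (e (p y))‖ + 1 with hB
  have hB0 : 0 < B := by positivity
  have hTB : ∀ᶠ z in 𝓝 (e (p y)), ‖fderiv ℂ T z‖ ≤ B := by
    have h5 : ContinuousAt (fun z => ‖fderiv ℂ T z‖) (e (p y)) := hTan.fderiv.continuousAt.norm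
    filter_upwards [h5.eventually (gt_mem_nhds (show ‖fderiv ℂ T (e (p y))‖ < B by
      rw [hB]; linarith))] with z hz using hz.le
  obtain ⟨ρ₁, hρ₁, hball⟩ := Metric.eventually_nhds_iff_ball.1 (hTB.and (h4.and hrep))
  obtain ⟨ρ, ⟨hρV, M, hM, hcv⟩, hρ⟩ := ((push_chart he ha hV).and (Ioo_mem_nhdsGT hρ₁)).exists
  refine ⟨ball (e (p y)) ρ, ball_mem_nhds _ hρ.1, ENNReal.ofReal (B ^ m) ^ 2 * (M * A), ?_,
    fun g hg => ?_⟩
  · exact ENNReal.mul_ne_top (ENNReal.pow_ne_top ENNReal.ofReal_ne_top) (ENNReal.mul_ne_top hM hA)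
  calc ∫⁻ z in ball (e (p y)) ρ, g (f z) * ‖s' z‖ₑ ^ 2
      ≤ ∫⁻ z in ball (e (p y)) ρ, ENNReal.ofReal (B ^ m) ^ 2 *
          (g (Fc D F γ a (T z)) * ‖s γ a (T z)‖ₑ ^ 2) := by
        refine setLIntegral_mono' measurableSet_ball fun z hz => ?_
        obtain ⟨g1, g2, g3⟩ := hball z (ball_subset_ball hρ.2.le hz)
        rw [g2, g3]
        have h5 : ‖(s γ a (T z)).compContinuousLinearMap (fderiv ℂ T z)‖ₑ ≤
            ENNReal.ofReal (B ^ m) * ‖s γ a (T z)‖ₑ := by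
          rw [← ofReal_norm, ← ofReal_norm, ← ENNReal.ofReal_mul (by positivity)]
          refine ENNReal.ofReal_le_ofReal ?_
          refine (norm_pull_le _ _).trans ?_
          rw [mul_comm]
          gcongr
        calc g (Fc D F γ a (T z)) *
              ‖(s γ a (T z)).compContinuousLinearMap (fderiv ℂ T z)‖ₑ ^ 2
            ≤ g (Fc D F γ a (T z)) * (ENNReal.ofReal (B ^ m) * ‖s γ a (T z)‖ₑ) ^ 2 := by
              gcongr
          _ = _ := by ring
    _ = ENNReal.ofReal (B ^ m) ^ 2 * ∫⁻ z in ball (e (p y)) ρ,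
          (g (Fc D F γ a (T z)) * ‖s γ a (T z)‖ₑ ^ 2) := by
        rw [lintegral_const_mul' _ _ (ENNReal.pow_ne_top ENNReal.ofReal_ne_top)]
    _ ≤ ENNReal.ofReal (B ^ m) ^ 2 * (M * ∫⁻ z in V, g (Fc D F γ a z) * ‖s γ a z‖ₑ ^ 2) := by
        gcongr
        exact hcv fun z => g (Fc D F γ a z) * ‖s γ a z‖ₑ ^ 2
    _ ≤ ENNReal.ofReal (B ^ m) ^ 2 * (M * (A * ∫⁻ t, g t)) := by
        gcongr
        exact hpA g hg
    _ = _ := by ring

end

end Vale.Agent.P284.H551
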