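import Mathlib.MeasureTheory.Integral.IntervalIntegral.FundThmCalculus
import Mathlib.MeasureTheory.Integral.Prod
import Mathlib.MeasureTheory.Group.LIntegral
import Mathlib.MeasureTheory.Integral.Average
import Mathlib.MeasureTheory.Measure.Haar.NormedSpace
import Mathlib.Analysis.Calculus.ContDiff.Basic
import Mathlib.Analysis.Calculus.Deriv.Mul

/-! # P284 (helper551), VN: Poincaré inequality by translations, with a parameter. -/

open scoped Topology ENNReal
open Filter Set Metric MeasureTheory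

noncomputable section

namespace Vale.Agent.P284.H551

/-- Cauchy-Schwarz on the unit interval -/
theorem sq_int_le {φ : ℝ → ℝ} (hφ : ContinuousOn φ (Icc 0 1)) :
    (∫ t in (0 : ℝ)..1, φ t) ^ 2 ≤ ∫ t in (0 : ℝ)..1, φ t ^ 2 := by
  have hφ' : ContinuousOn φ (uIcc (0 : ℝ) 1) := by rwa [uIcc_of_le zero_le_one]
  set c := ∫ t in (0 : ℝ)..1, φ t with hc
  have i1 : IntervalIntegrable φ volume 0 1 := hφ'.intervalIntegrable
  have i2 : IntervalIntegrable (fun t => φ t ^ 2) volume 0 1 := (hφ'.pow 2).intervalIntegrable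
  have h0 : 0 ≤ ∫ t in (0 : ℝ)..1, (φ t - c) ^ 2 :=
    intervalIntegral.integral_nonneg zero_le_one fun t _ => sq_nonneg _
  have h1 : ∫ t in (0 : ℝ)..1, (φ t - c) ^ 2 =
      (∫ t in (0 : ℝ)..1, φ t ^ 2) - 2 * c * c + c ^ 2 := by
    have e : ∀ t, (φ t - c) ^ 2 = φ t ^ 2 - 2 * c * φ t + c ^ 2 := fun t => by ring
    simp only [e]
    rw [intervalIntegral.integral_add (i2.sub (i1.const_mul _)) intervalIntegrable_const,
      intervalIntegral.integral_sub i2 (i1.const_mul _), intervalIntegral.integral_const_mul,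
      intervalIntegral.integral_const, ← hc]
    simp
  rw [h1] at h0
  nlinarith

section
variable {β : Type*} [NormedAddCommGroup β] [NormedSpace ℝ β]

/-- the increment along a segment -/
theorem inc_le {g : β → ℝ} {y u : β}
    (hd : ∀ t ∈ Icc (0 : ℝ) 1, DifferentiableAt ℝ g (y + t • u))
    (hc : ContinuousOn (fun t : ℝ => fderiv ℝ g (y + t • u) u) (Icc 0 1)) :
    ENNReal.ofReal ((g (y + u) - g y) ^ 2) ≤
      ∫⁻ t in Icc (0 : ℝ) 1, ENNReal.ofReal ((fderiv ℝ g (y + t • u) u) ^ 2) := by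
  have hder : ∀ t ∈ Icc (0 : ℝ) 1, HasDerivAt (fun t : ℝ => g (y + t • u))
      (fderiv ℝ g (y + t • u) u) t := by
    intro t ht
    have h0 : HasDerivAt (fun t : ℝ => t • u) ((1 : ℝ) • u) t :=
      (hasDerivAt_id' t).smul_const u
    have h1 : HasDerivAt (fun t : ℝ => y + t • u) u t := by
      simpa using h0.const_add y
    exact (hd t ht).hasFDerivAt.comp_hasDerivAt t h1
  have hint : IntervalIntegrable (fun t : ℝ => fderiv ℝ g (y + t • u) u) volume 0 1 := by
    apply ContinuousOn.intervalIntegrable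
    rwa [uIcc_of_le zero_le_one]
  have h1 : ∫ t in (0 : ℝ)..1, fderiv ℝ g (y + t • u) u = g (y + u) - g y := by
    rw [intervalIntegral.integral_eq_sub_of_hasDerivAt (f := fun t : ℝ => g (y + t • u))
      (fun t ht => hder t (by rwa [uIcc_of_le zero_le_one] at ht)) hint]
    simp
  have h2 := sq_int_le hc
  rw [h1] at h2
  refine (ENNReal.ofReal_le_ofReal h2).trans ?_
  rw [intervalIntegral.integral_of_le zero_le_one,
    ofReal_integral_eq_lintegral_ofReal ?_ (Eventually.of_forall fun t => sq_nonneg _)]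
  · exact lintegral_mono_set Ioc_subset_Icc_self
  · have := (hc.pow 2).integrableOn_compact isCompact_Icc (μ := volume)
    exact this.mono_set Ioc_subset_Icc_self

variable [MeasurableSpace β] [BorelSpace β] [FiniteDimensional ℝ β] [SecondCountableTopology β]
  (ν : Measure β) [ν.IsAddHaarMeasure]

theorem meas_ind {X : Type*} [TopologicalSpace X] [MeasurableSpace X] [BorelSpace X]
    {Y : Type*} [TopologicalSpace Y] [MeasurableSpace Y] [BorelSpace Y] [Zero Y]
    {B : Set X} (hB : IsOpen B) {d : X → Y} (hd : ContinuousOn d B) :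
    Measurable (B.indicator d) := by
  classical
  have := hd.measurable_piecewise (g := (0 : X → Y)) continuousOn_const hB.measurableSet
  rwa [piecewise_eq_indicator] at this

/-- Poincaré inequality on a ball, two-point form -/
theorem two_point {g : β → ℝ} {y₀ : β} {r : ℝ} (hg : ContDiffOn ℝ 1 g (ball y₀ r))
    {d : β → ℝ} (hd : ContinuousOn d (ball y₀ r)) (hd0 : ∀ y ∈ ball y₀ r, 0 ≤ d y)
    (hd' : ∀ y ∈ ball y₀ r, ∀ u, (fderiv ℝ g y u) ^ 2 ≤ d y * ‖u‖ ^ 2) :
    ∫⁻ e in ball y₀ r, ∫⁻ y in ball y₀ r, ENNReal.ofReal ((g y - g e) ^ 2) ∂ν ∂ν ≤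
      ENNReal.ofReal (4 * r ^ 2) * ν (ball 0 (2 * r)) *
        ∫⁻ y in ball y₀ r, ENNReal.ofReal (d y) ∂ν := by
  set B := ball y₀ r with hB
  have hBo : IsOpen B := isOpen_ball
  set φ : β → ℝ≥0∞ := B.indicator fun y => ENNReal.ofReal (d y) with hφ
  have hφm : Measurable φ := meas_ind hBo (ENNReal.continuous_ofReal.comp_continuousOn hd)
  have hφi : ∫⁻ y in B, ENNReal.ofReal (d y) ∂ν = ∫⁻ y, φ y ∂ν := by
    rw [hφ, lintegral_indicator hBo.measurableSet]
  have hconv : Convex ℝ B := convex_ball y₀ r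
  -- pointwise bound
  have key : ∀ e ∈ B, ∀ y ∈ B, ENNReal.ofReal ((g y - g e) ^ 2) ≤
      ENNReal.ofReal (4 * r ^ 2) * ∫⁻ t in Icc (0 : ℝ) 1, φ (e + t • (y - e)) := by
    intro e he y hy
    have hseg : ∀ t ∈ Icc (0 : ℝ) 1, e + t • (y - e) ∈ B := fun t ht => by
      have := hconv.add_smul_sub_mem he hy ht
      exact this
    have hn : ‖y - e‖ ≤ 2 * r := by
      have h1 : dist y y₀ < r := hy
      have h2 : dist e y₀ < r := he
      have h3 := dist_triangle_right y e y₀
      rw [dist_eq_norm] at h3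
      linarith
    have hd1 : ∀ t ∈ Icc (0 : ℝ) 1, DifferentiableAt ℝ g (e + t • (y - e)) := fun t ht =>
      (hg.differentiableOn (by simp)).differentiableAt (hBo.mem_nhds (hseg t ht))
    have hc : ContinuousOn (fun t : ℝ => fderiv ℝ g (e + t • (y - e)) (y - e)) (Icc 0 1) := by
      have h1 : ContinuousOn (fderiv ℝ g) B := hg.continuousOn_fderiv_of_isOpen hBo le_rfl
      have h2 : ContinuousOn (fun t : ℝ => e + t • (y - e)) (Icc 0 1) := by fun_prop
      exact (h1.comp h2 hseg).clm_apply continuousOn_const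
    have h1 := inc_le hd1 hc
    rw [add_sub_cancel] at h1
    refine h1.trans ?_
    rw [← lintegral_const_mul]
    · refine setLIntegral_mono' measurableSet_Icc fun t ht => ?_
      rw [hφ, indicator_of_mem (hseg t ht), ← ENNReal.ofReal_mul (by positivity)]
      apply ENNReal.ofReal_le_ofReal
      refine (hd' _ (hseg t ht) (y - e)).trans ?_
      have h3 : 0 ≤ d (e + t • (y - e)) := hd0 _ (hseg t ht)
      have h4 : ‖y - e‖ ^ 2 ≤ 4 * r ^ 2 := by
        have := norm_nonneg (y - e)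
        nlinarith
      rw [mul_comm]
      exact mul_le_mul_of_nonneg_right h4 h3
    · exact hφm.comp (by fun_prop)
  calc ∫⁻ e in B, ∫⁻ y in B, ENNReal.ofReal ((g y - g e) ^ 2) ∂ν ∂ν
      ≤ ∫⁻ e in B, ∫⁻ y in B, ENNReal.ofReal (4 * r ^ 2) *
          (∫⁻ t in Icc (0 : ℝ) 1, φ (e + t • (y - e))) ∂ν ∂ν := by
        refine setLIntegral_mono' hBo.measurableSet fun e he => ?_
        exact setLIntegral_mono' hBo.measurableSet fun y hy => key e he y hy
    _ ≤ ∫⁻ e in B, ∫⁻ u in ball (0 : β) (2 * r), ENNReal.ofReal (4 * r ^ 2) *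
          (∫⁻ t in Icc (0 : ℝ) 1, φ (e + t • u)) ∂ν ∂ν := by
        refine setLIntegral_mono' hBo.measurableSet fun e he => ?_
        rw [← lintegral_indicator hBo.measurableSet, ← lintegral_indicator measurableSet_ball]
        rw [← lintegral_sub_right_eq_self (μ := ν) ((ball (0 : β) (2 * r)).indicator _) e]
        refine lintegral_mono fun y => ?_
        by_cases hy : y ∈ B
        · rw [indicator_of_mem hy, indicator_of_mem]
          have h1 : dist y y₀ < r := hy
          have h2 : dist e y₀ < r := he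
          have h3 := dist_triangle_right y e y₀
          rw [mem_ball_zero_iff, ← dist_eq_norm]
          linarith
        · rw [indicator_of_notMem hy]
          exact zero_le
    _ ≤ ∫⁻ e, ∫⁻ u in ball (0 : β) (2 * r), ENNReal.ofReal (4 * r ^ 2) *
          (∫⁻ t in Icc (0 : ℝ) 1, φ (e + t • u)) ∂ν ∂ν := setLIntegral_le_lintegral _ _
    _ = ∫⁻ u in ball (0 : β) (2 * r), ∫⁻ e, ENNReal.ofReal (4 * r ^ 2) *
          (∫⁻ t in Icc (0 : ℝ) 1, φ (e + t • u)) ∂ν ∂ν := by
        rw [lintegral_lintegral_swap]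
        apply Measurable.aemeasurable
        apply Measurable.const_mul
        apply Measurable.lintegral_prod_right'
          (f := fun p : (β × β) × ℝ => φ (p.1.1 + p.2 • p.1.2))
        exact hφm.comp (by fun_prop)
    _ = ∫⁻ u in ball (0 : β) (2 * r), ENNReal.ofReal (4 * r ^ 2) * ∫⁻ y, φ y ∂ν ∂ν := by
        congr 1
        ext u
        rw [lintegral_const_mul]
        · rw [lintegral_lintegral_swap]
          · simp only [lintegral_add_right_eq_self]
            simp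
          · apply Measurable.aemeasurable
            exact hφm.comp (by fun_prop)
        · apply Measurable.lintegral_prod_right' (f := fun p : β × ℝ => φ (p.1 + p.2 • u))
          exact hφm.comp (by fun_prop)
    _ = ENNReal.ofReal (4 * r ^ 2) * ν (ball 0 (2 * r)) * ∫⁻ y, φ y ∂ν := by
        rw [lintegral_const]
        simp only [Measure.restrict_apply_univ]
        ring
    _ = _ := by rw [hφi]

/-- Poincaré inequality with a parameter -/
theorem slice_poinc {α : Type*} [TopologicalSpace α] [MeasurableSpace α] [BorelSpace α]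
    [SecondCountableTopology α] (μ : Measure α) [SFinite μ] {S : Set α} (hS : IsOpen S)
    {y₀ : β} {r : ℝ} (hr : 0 < r) {H d : α × β → ℝ} (hH : ContinuousOn H (S ×ˢ ball y₀ r))
    (hg : ∀ s ∈ S, ContDiffOn ℝ 1 (fun y => H (s, y)) (ball y₀ r))
    (hd : ContinuousOn d (S ×ˢ ball y₀ r)) (hd0 : ∀ p ∈ S ×ˢ ball y₀ r, 0 ≤ d p)
    (hd' : ∀ s ∈ S, ∀ y ∈ ball y₀ r, ∀ u,
      (fderiv ℝ (fun y => H (s, y)) y u) ^ 2 ≤ d (s, y) * ‖u‖ ^ 2) :
    ∃ e ∈ ball y₀ r, ∫⁻ s in S, ∫⁻ y in ball y₀ r, ENNReal.ofReal ((H (s, y) - H (s, e)) ^ 2) ∂ν ∂μ ≤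
      ENNReal.ofReal (4 * r ^ 2) * ν (ball 0 (2 * r)) * (ν (ball y₀ r))⁻¹ *
        ∫⁻ s in S, ∫⁻ y in ball y₀ r, ENNReal.ofReal (d (s, y)) ∂ν ∂μ := by
  set B := ball y₀ r with hB
  have hBo : IsOpen B := isOpen_ball
  have hSB : IsOpen (S ×ˢ B) := hS.prod hBo
  set H' : α × β → ℝ := (S ×ˢ B).indicator H with hH'
  have hH'm : Measurable H' := meas_ind hSB hH
  have hHe : ∀ s ∈ S, ∀ y ∈ B, H' (s, y) = H (s, y) := fun s hs y hy =>
    indicator_of_mem (show (s, y) ∈ S ×ˢ B from ⟨hs, hy⟩) _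
  set f : β → ℝ≥0∞ := fun e => ∫⁻ s in S, ∫⁻ y in B,
    ENNReal.ofReal ((H' (s, y) - H' (s, e)) ^ 2) ∂ν ∂μ with hf
  have m1 : Measurable fun p : (β × α) × β =>
      ENNReal.ofReal ((H' (p.1.2, p.2) - H' (p.1.2, p.1.1)) ^ 2) := by
    apply ENNReal.measurable_ofReal.comp
    apply Measurable.pow_const
    exact (hH'm.comp (by fun_prop)).sub (hH'm.comp (by fun_prop))
  have m2 : Measurable fun p : β × α => ∫⁻ y in B,
      ENNReal.ofReal ((H' (p.2, y) - H' (p.2, p.1)) ^ 2) ∂ν := m1.lintegral_prod_right'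
  have hfm : Measurable f := m2.lintegral_prod_right'
  have hBpos : ν B ≠ 0 := (measure_ball_pos ν y₀ hr).ne'
  have hBtop : ν B ≠ ∞ := measure_ball_lt_top.ne
  obtain ⟨e, he, hfe⟩ := exists_le_setLAverage hBpos hBtop hfm.aemeasurable (μ := ν)
  refine ⟨e, he, ?_⟩
  have e1 : ∫⁻ s in S, ∫⁻ y in B, ENNReal.ofReal ((H (s, y) - H (s, e)) ^ 2) ∂ν ∂μ = f e := by
    refine setLIntegral_congr_fun hS.measurableSet fun s hs => ?_
    refine setLIntegral_congr_fun hBo.measurableSet fun y hy => ?_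
    simp only [hHe s hs y hy, hHe s hs e he]
  rw [e1]
  refine hfe.trans ?_
  rw [setLAverage_eq, ENNReal.div_eq_inv_mul]
  have e2 : ∫⁻ e in B, f e ∂ν ≤ ENNReal.ofReal (4 * r ^ 2) * ν (ball 0 (2 * r)) *
      ∫⁻ s in S, ∫⁻ y in B, ENNReal.ofReal (d (s, y)) ∂ν ∂μ := by
    rw [hf, lintegral_lintegral_swap m2.aemeasurable]
    have hdm : Measurable fun p : α × β => (S ×ˢ B).indicator (fun p => ENNReal.ofReal (d p)) p :=
      meas_ind hSB (ENNReal.continuous_ofReal.comp_continuousOn hd)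
    have hdi : ∫⁻ s in S, ∫⁻ y in B, ENNReal.ofReal (d (s, y)) ∂ν ∂μ =
        ∫⁻ s in S, ∫⁻ y in B, (S ×ˢ B).indicator (fun p => ENNReal.ofReal (d p)) (s, y) ∂ν ∂μ := by
      refine setLIntegral_congr_fun hS.measurableSet fun s hs => ?_
      refine setLIntegral_congr_fun hBo.measurableSet fun y hy => ?_
      rw [indicator_of_mem (show (s, y) ∈ S ×ˢ B from ⟨hs, hy⟩)]
    rw [hdi, ← lintegral_const_mul _ hdm.lintegral_prod_right']
    refine setLIntegral_mono' hS.measurableSet fun s hs => ?_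
    have h1 := two_point ν (hg s hs) (d := fun y => d (s, y))
      (hd.comp (by fun_prop) fun y hy => ⟨hs, hy⟩) (fun y hy => hd0 _ ⟨hs, hy⟩) (hd' s hs)
    have h2 : ∫⁻ e in B, ∫⁻ y in B, ENNReal.ofReal ((H' (s, y) - H' (s, e)) ^ 2) ∂ν ∂ν =
        ∫⁻ e in B, ∫⁻ y in B, ENNReal.ofReal ((H (s, y) - H (s, e)) ^ 2) ∂ν ∂ν := by
      refine setLIntegral_congr_fun hBo.measurableSet fun e he => ?_
      refine setLIntegral_congr_fun hBo.measurableSet fun y hy => ?_
      simp only [hHe s hs y hy, hHe s hs e he]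
    rw [h2]
    refine h1.trans (le_of_eq ?_)
    congr 1
    refine setLIntegral_congr_fun hBo.measurableSet fun y hy => ?_
    rw [indicator_of_mem (show (s, y) ∈ S ×ˢ B from ⟨hs, hy⟩)]
  calc (ν B)⁻¹ * ∫⁻ e in B, f e ∂ν ≤ (ν B)⁻¹ * (ENNReal.ofReal (4 * r ^ 2) * ν (ball 0 (2 * r)) *
      ∫⁻ s in S, ∫⁻ y in B, ENNReal.ofReal (d (s, y)) ∂ν ∂μ) := by gcongr
    _ = _ := by ring

end

end Vale.Agent.P284.H551
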