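import Vale.Agent.P284.H551.VN0
import Vale.Agent.P284.H5.FibP
import Mathlib.MeasureTheory.Measure.Haar.Unique
import Mathlib.MeasureTheory.Function.Jacobian

/-! # P284 (helper551), VN: the box chart of a submersion. -/

open scoped Manifold ContDiff Topology ENNReal
open Filter Set Metric MeasureTheory

noncomputable section

namespace Vale.Agent.P284.H551

open Vale.Agent.P272.K

/-- the measures of a linear change of variables are proportional -/
theorem map_equiv_eq {n q m : ℕ} (T : Cm n ≃L[ℂ] Cm q × Cm m) :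
    ∃ c : ℝ, 0 < c ∧ ∀ (A : Set (Cm q × Cm m)), MeasurableSet A → ∀ u : Cm q × Cm m → ℝ≥0∞,
      ∫⁻ w in T ⁻¹' A, u (T w) = ENNReal.ofReal c * ∫⁻ p in A, u p := by
  have h0 : (volume : Measure (Cm q × Cm m)).IsAddHaarMeasure := by
    have : ((volume : Measure (Cm q)).prod (volume : Measure (Cm m))).IsAddHaarMeasure := by
      apply Measure.prod.instIsAddHaarMeasure
    exact this
  have h1 : (volume.map T : Measure (Cm q × Cm m)).IsAddHaarMeasure := inferInstance
  have h2 := Measure.isAddLeftInvariant_eq_smul (volume.map T : Measure (Cm q × Cm m)) volume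
  have h3 := Measure.addHaarScalarFactor_pos_of_isAddHaarMeasure
    (volume.map T : Measure (Cm q × Cm m)) volume
  set c := Measure.addHaarScalarFactor (volume.map T : Measure (Cm q × Cm m)) volume with hc
  refine ⟨c, by exact_mod_cast h3, fun A hA u => ?_⟩
  have e1 : ∫⁻ w in T ⁻¹' A, u (T w) = ∫⁻ p in A, u p ∂(volume.map T) := by
    set e := T.toHomeomorph.toMeasurableEquiv with he
    have h4 : (volume.map T : Measure (Cm q × Cm m)) = volume.map e := rfl
    rw [h4, e.measurableEmbedding.restrict_map, e.measurableEmbedding.lintegral_map]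
    rfl
  rw [e1, h2, Measure.restrict_smul]
  rw [lintegral_smul_measure]
  simp [ENNReal.smul_def]

/-- the box chart of a submersion -/
theorem exists_box {n q m : ℕ} (hqm : q + m = n) {f : Cm n → Cm q} {z₀ : Cm n}
    (hf : ∀ᶠ z in 𝓝 z₀, DifferentiableAt ℂ f z) (hs : Function.Surjective (fderiv ℂ f z₀)) :
    ∃ (G : Cm q × Cm m → Cm n) (y₀ : Cm m) (R : ℝ) (C : ℝ), 0 < R ∧ 0 < C ∧
      G (f z₀, y₀) = z₀ ∧ ContinuousAt G (f z₀, y₀) ∧
      (∀ p ∈ ball (f z₀, y₀) R, f (G p) = p.1 ∧ DifferentiableAt ℂ f (G p) ∧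
        ContDiffAt ℝ 1 G p ∧ ‖fderiv ℝ G p‖ ≤ C) ∧
      (∀ ρ, 0 < ρ → ρ ≤ R → G '' ball (f z₀, y₀) ρ ∈ 𝓝 z₀) ∧
      (∀ A, IsOpen A → A ⊆ ball (f z₀, y₀) R → ∀ u : Cm n → ℝ≥0∞,
        ∫⁻ z in G '' A, u z ≤ ENNReal.ofReal C * ∫⁻ p in A, u (G p) ∧
        ∫⁻ p in A, u (G p) ≤ ENNReal.ofReal C * ∫⁻ z in G '' A, u z) := by
  obtain ⟨L, T, hT⟩ := H5.W.exists_compl hqm (fderiv ℂ f z₀) hs
  have hfa : ContDiffAt ℂ ω f z₀ := H5.W.holo_contDiffAt' hf
  set K : Cm n → Cm q × Cm m := fun z => (f z, L z) with hKdef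
  have hK : ContDiffAt ℂ ω K z₀ := hfa.prodMk L.contDiff.contDiffAt
  have hK' : HasFDerivAt K (T : Cm n →L[ℂ] Cm q × Cm m) z₀ := by
    have h1 : HasFDerivAt K ((fderiv ℂ f z₀).prod L) z₀ :=
      (hfa.differentiableAt (by simp)).hasFDerivAt.prodMk L.hasFDerivAt
    have h2 : (T : Cm n →L[ℂ] Cm q × Cm m) = (fderiv ℂ f z₀).prod L := by
      ext1 v
      exact hT v
    rw [h2]
    exact h1
  have hn : (ω : WithTop ℕ∞) ≠ 0 := by simp
  set H := hK.toOpenPartialHomeomorph K hK' hn with hH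
  have hHK : (H : Cm n → Cm q × Cm m) = K := rfl
  have hHs : z₀ ∈ H.source := ContDiffAt.mem_toOpenPartialHomeomorph_source hK hK' hn
  have hHt : K z₀ ∈ H.target := ContDiffAt.image_mem_toOpenPartialHomeomorph_target hK hK' hn
  have hHi : H.symm (K z₀) = z₀ := H.left_inv hHs
  have hHc : ContDiffAt ℂ ω H.symm (K z₀) := hK.to_localInverse hK' hn
  have hHd : HasFDerivAt H.symm (T.symm : Cm q × Cm m →L[ℂ] Cm n) (K z₀) :=
    H.hasFDerivAt_symm hHt (by rw [hHi]; exact hK')
  obtain ⟨c, hc, hcT⟩ := map_equiv_eq T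
  set G : Cm q × Cm m → Cm n := ⇑H.symm with hG
  set p₀ : Cm q × Cm m := K z₀ with hp₀
  -- real derivatives
  have hGr : ∀ᶠ p in 𝓝 p₀, ContDiffAt ℂ ω G p := hHc.eventually (by simp)
  have hGr1 : ∀ᶠ p in 𝓝 p₀, ContDiffAt ℝ 1 G p := hGr.mono fun p hp =>
    (hp.restrict_scalars ℝ).of_le (by simp)
  have hfc : ContinuousAt (fderiv ℝ G) p₀ :=
    (hGr1.self_of_nhds.fderiv_right (m := 0) (by simp)).continuousAt
  have hfd : fderiv ℝ G p₀ = (T.symm : Cm q × Cm m →L[ℂ] Cm n).restrictScalars ℝ :=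
    (hHd.restrictScalars ℝ).fderiv
  set TR : Cm n →L[ℝ] Cm q × Cm m := (T : Cm n →L[ℂ] Cm q × Cm m).restrictScalars ℝ with hTR
  have hdet : ContinuousAt (fun p => |((fderiv ℝ G p).comp TR).det|) p₀ := by
    apply ContinuousAt.abs
    apply ContinuousLinearMap.continuous_det.continuousAt.comp
    exact hfc.clm_comp continuousAt_const
  have hdet0 : |((fderiv ℝ G p₀).comp TR).det| = 1 := by
    have : (fderiv ℝ G p₀).comp TR = ContinuousLinearMap.id ℝ (Cm n) := by
      rw [hfd]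
      ext1 v
      simp [hTR]
    rw [this]
    simp [ContinuousLinearMap.det]
  have e1 : ∀ᶠ p in 𝓝 p₀, ‖fderiv ℝ G p‖ < ‖fderiv ℝ G p₀‖ + 1 :=
    hfc.norm.eventually_lt continuousAt_const (lt_add_one _)
  have e2 : ∀ᶠ p in 𝓝 p₀, |((fderiv ℝ G p).comp TR).det| < 2 :=
    hdet.eventually_lt continuousAt_const (by rw [hdet0]; norm_num)
  have e3 : ∀ᶠ p in 𝓝 p₀, 1 / 2 < |((fderiv ℝ G p).comp TR).det| :=
    continuousAt_const.eventually_lt hdet (by rw [hdet0]; norm_num)
  have e4 : ∀ᶠ p in 𝓝 p₀, p ∈ H.target := H.open_target.mem_nhds hHt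
  have hGc : ContinuousAt G p₀ := hHc.continuousAt
  have e5 : ∀ᶠ p in 𝓝 p₀, DifferentiableAt ℂ f (G p) := by
    have : Tendsto G (𝓝 p₀) (𝓝 z₀) := by
      have h := hGc.tendsto
      rwa [hHi] at h
    exact this.eventually hf
  obtain ⟨R, hR, hball⟩ := Metric.eventually_nhds_iff_ball.1
    (hGr1.and (e1.and (e2.and (e3.and (e4.and e5)))))
  set C : ℝ := max (‖fderiv ℝ G p₀‖ + 1) (max (2 * c) (2 / c)) with hC
  have hC0 : 0 < C := by
    have : 0 < 2 * c := by positivity
    exact lt_of_lt_of_le this ((le_max_left _ _).trans (le_max_right _ _))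
  refine ⟨G, L z₀, R, C, hR, hC0, hHi, hGc, ?_, ?_, ?_⟩
  · intro p hp
    obtain ⟨h1, h2, h3, h4, h5, h6⟩ := hball p hp
    refine ⟨?_, h6, h1, h2.le.trans (le_max_left _ _)⟩
    have h7 : K (G p) = p := H.right_inv h5
    exact congrArg Prod.fst h7
  · intro ρ hρ hρR
    have h1 : ∀ᶠ z in 𝓝 z₀, K z ∈ ball p₀ ρ :=
      hK.continuousAt.eventually (isOpen_ball.mem_nhds (mem_ball_self hρ))
    have h2 : ∀ᶠ z in 𝓝 z₀, z ∈ H.source := H.open_source.mem_nhds hHs
    filter_upwards [h1, h2] with z hz1 hz2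
    exact ⟨K z, hz1, H.left_inv hz2⟩
  · intro A hA hAR u
    have hTA : MeasurableSet (T ⁻¹' A) := (hA.preimage T.continuous).measurableSet
    have hinj : InjOn (fun w : Cm n => G (T w)) (T ⁻¹' A) := by
      intro w hw w' hw' hww
      have h1 := (hball _ (hAR hw)).2.2.2.2.1
      have h2 := (hball _ (hAR hw')).2.2.2.2.1
      exact T.injective (H.symm.injOn h1 h2 hww)
    have hder : ∀ w ∈ T ⁻¹' A, HasFDerivWithinAt (fun w : Cm n => G (T w))
        ((fderiv ℝ G (T w)).comp TR) (T ⁻¹' A) w := by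
      intro w hw
      have h1 : HasFDerivAt G (fderiv ℝ G (T w)) (T w) :=
        ((hball _ (hAR hw)).1.differentiableAt (by simp)).hasFDerivAt
      exact (h1.comp w TR.hasFDerivAt).hasFDerivWithinAt
    have himg : (fun w : Cm n => G (T w)) '' (T ⁻¹' A) = G '' A := by
      have : (fun w : Cm n => G (T w)) = G ∘ T := rfl
      rw [this, image_comp, image_preimage_eq A T.surjective]
    have hcv := lintegral_image_eq_lintegral_abs_det_fderiv_mul volume hTA hder hinj u
    rw [himg] at hcv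
    have hcu := hcT A hA.measurableSet fun p => u (G p)
    constructor
    · rw [hcv]
      calc ∫⁻ w in T ⁻¹' A, ENNReal.ofReal |((fderiv ℝ G (T w)).comp TR).det| * u (G (T w))
          ≤ ∫⁻ w in T ⁻¹' A, ENNReal.ofReal 2 * u (G (T w)) := by
            refine setLIntegral_mono' hTA fun w hw => ?_
            gcongr
            exact (hball _ (hAR hw)).2.2.1.le
        _ = ENNReal.ofReal 2 * ∫⁻ w in T ⁻¹' A, u (G (T w)) := by
            rw [lintegral_const_mul' _ _ ENNReal.ofReal_ne_top]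
        _ = ENNReal.ofReal (2 * c) * ∫⁻ p in A, u (G p) := by
            rw [hcu, ← mul_assoc, ← ENNReal.ofReal_mul (by norm_num)]
        _ ≤ _ := by
            gcongr
            exact (le_max_left _ _).trans (le_max_right _ _)
    · have h1 : ENNReal.ofReal (1 / 2) * ∫⁻ w in T ⁻¹' A, u (G (T w)) ≤ ∫⁻ z in G '' A, u z := by
        rw [hcv, ← lintegral_const_mul' _ _ ENNReal.ofReal_ne_top]
        refine setLIntegral_mono' hTA fun w hw => ?_
        gcongr
        exact (hball _ (hAR hw)).2.2.2.1.le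
      have h2 : ∫⁻ p in A, u (G p) =
          ENNReal.ofReal (2 / c) * (ENNReal.ofReal (1 / 2) * ∫⁻ w in T ⁻¹' A, u (G (T w))) := by
        rw [hcu, ← mul_assoc, ← mul_assoc, ← ENNReal.ofReal_mul (by positivity),
          ← ENNReal.ofReal_mul (by positivity)]
        have : 2 / c * (1 / 2) * c = 1 := by field_simp
        rw [this]
        simp
      rw [h2]
      gcongr
      exact (le_max_right _ _).trans (le_max_right _ _)

end Vale.Agent.P284.H551
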