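import Vale.Agent.P284.H551.VN1

/-! # P284 (helper551), VN: local integral inequalities along a submersion. -/

open scoped Topology ENNReal
open Filter Set Metric MeasureTheory

noncomputable section

namespace Vale.Agent.P284.H551

open Vale.Agent.P272.K

theorem le_of_surj {n q : ℕ} {A : Cm n →L[ℂ] Cm q} (hA : Function.Surjective A) : q ≤ n := by
  have h := LinearMap.finrank_le_finrank_of_surjective (f := (A : Cm n →ₗ[ℂ] Cm q)) hA
  simpa using h

theorem lint_ball_prod {q m : ℕ} (s₀ : Cm q) (y₀ : Cm m) (ρ : ℝ) {u : Cm q × Cm m → ℝ≥0∞}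
    (hu : AEMeasurable u (volume.restrict (ball (s₀, y₀) ρ))) :
    ∫⁻ p in ball (s₀, y₀) ρ, u p = ∫⁻ s in ball s₀ ρ, ∫⁻ y in ball y₀ ρ, u (s, y) := by
  rw [← ball_prod_same, Measure.volume_eq_prod, ← Measure.prod_restrict] at hu
  rw [← ball_prod_same, Measure.volume_eq_prod, ← Measure.prod_restrict, lintegral_prod _ hu]

section
variable {n q : ℕ} {f : Cm n → Cm q} {z₀ : Cm n}

/-- integrals over small balls of values are controlled by integrals near the point -/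
theorem push_low (hf : ∀ᶠ z in 𝓝 z₀, DifferentiableAt ℂ f z)
    (hs : Function.Surjective (fderiv ℂ f z₀)) {O : Set (Cm n)} (hO : O ∈ 𝓝 z₀) :
    ∃ ρ : ℝ, 0 < ρ ∧ ∃ C : ℝ≥0∞, C ≠ ∞ ∧ ∀ g : Cm q → ℝ≥0∞, Measurable g →
      ∫⁻ s in ball (f z₀) ρ, g s ≤ C * ∫⁻ z in O, g (f z) := by
  obtain ⟨m, hm⟩ := Nat.exists_eq_add_of_le (le_of_surj hs)
  obtain ⟨G, y₀, R, C, hR, hC, hG0, hGc, hG, hGn, hGi⟩ := exists_box hm.symm hf hs
  have h1 : ∀ᶠ p in 𝓝 (f z₀, y₀), G p ∈ O := by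
    have := hGc.tendsto
    rw [hG0] at this
    exact this hO
  obtain ⟨ρ₁, hρ₁, hρO⟩ := Metric.eventually_nhds_iff_ball.1 h1
  set ρ := min R ρ₁ with hρ
  have hρ0 : 0 < ρ := lt_min hR hρ₁
  set v : ℝ≥0∞ := volume (ball y₀ ρ) with hv
  have hv0 : v ≠ 0 := (measure_ball_pos volume y₀ hρ0).ne'
  have hvt : v ≠ ∞ := measure_ball_lt_top.ne
  refine ⟨ρ, hρ0, v⁻¹ * ENNReal.ofReal C, ENNReal.mul_ne_top (ENNReal.inv_ne_top.2 hv0)
    ENNReal.ofReal_ne_top, fun g hg => ?_⟩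
  have hsub : ball (f z₀, y₀) ρ ⊆ ball (f z₀, y₀) R := ball_subset_ball (min_le_left _ _)
  have e1 : ∫⁻ p in ball (f z₀, y₀) ρ, g (f (G p)) = v * ∫⁻ s in ball (f z₀) ρ, g s := by
    have e2 : ∫⁻ p in ball (f z₀, y₀) ρ, g (f (G p)) = ∫⁻ p in ball (f z₀, y₀) ρ, g p.1 :=
      setLIntegral_congr_fun measurableSet_ball fun p hp => by
        simp only [(hG p (hsub hp)).1]
    rw [e2, lint_ball_prod (u := fun p => g p.1) _ _ _ (hg.comp measurable_fst).aemeasurable]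
    simp only [lintegral_const, Measure.restrict_apply_univ]
    rw [lintegral_mul_const _ hg, mul_comm]
  have e3 := (hGi _ isOpen_ball hsub fun z => g (f z)).2
  rw [e1] at e3
  calc ∫⁻ s in ball (f z₀) ρ, g s = v⁻¹ * (v * ∫⁻ s in ball (f z₀) ρ, g s) := by
        rw [← mul_assoc, ENNReal.inv_mul_cancel hv0 hvt, one_mul]
    _ ≤ v⁻¹ * (ENNReal.ofReal C * ∫⁻ z in G '' ball (f z₀, y₀) ρ, g (f z)) := by gcongr
    _ ≤ v⁻¹ * (ENNReal.ofReal C * ∫⁻ z in O, g (f z)) := by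
        gcongr
        rintro _ ⟨p, hp, rfl⟩
        exact hρO p (ball_subset_ball (min_le_right _ _) hp)
    _ = _ := by ring

/-- integrals near the point of functions of the value -/
theorem push_up (hf : ∀ᶠ z in 𝓝 z₀, DifferentiableAt ℂ f z)
    (hs : Function.Surjective (fderiv ℂ f z₀)) {ρ : ℝ} (hρ : 0 < ρ) :
    ∃ O ∈ 𝓝 z₀, ∃ C : ℝ≥0∞, C ≠ ∞ ∧ ∀ g : Cm q → ℝ≥0∞, Measurable g →
      ∫⁻ z in O, g (f z) ≤ C * ∫⁻ s in ball (f z₀) ρ, g s := by
  obtain ⟨m, hm⟩ := Nat.exists_eq_add_of_le (le_of_surj hs)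
  obtain ⟨G, y₀, R, C, hR, hC, hG0, hGc, hG, hGn, hGi⟩ := exists_box hm.symm hf hs
  set ρ' := min R ρ with hρ'
  have hρ0 : 0 < ρ' := lt_min hR hρ
  set v : ℝ≥0∞ := volume (ball y₀ ρ') with hv
  have hvt : v ≠ ∞ := measure_ball_lt_top.ne
  have hsub : ball (f z₀, y₀) ρ' ⊆ ball (f z₀, y₀) R := ball_subset_ball (min_le_left _ _)
  refine ⟨G '' ball (f z₀, y₀) ρ', hGn _ hρ0 (min_le_left _ _), ENNReal.ofReal C * v,
    ENNReal.mul_ne_top ENNReal.ofReal_ne_top hvt, fun g hg => ?_⟩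
  have e1 : ∫⁻ p in ball (f z₀, y₀) ρ', g (f (G p)) = v * ∫⁻ s in ball (f z₀) ρ', g s := by
    have e2 : ∫⁻ p in ball (f z₀, y₀) ρ', g (f (G p)) = ∫⁻ p in ball (f z₀, y₀) ρ', g p.1 :=
      setLIntegral_congr_fun measurableSet_ball fun p hp => by
        simp only [(hG p (hsub hp)).1]
    rw [e2, lint_ball_prod (u := fun p => g p.1) _ _ _ (hg.comp measurable_fst).aemeasurable]
    simp only [lintegral_const, Measure.restrict_apply_univ]
    rw [lintegral_mul_const _ hg, mul_comm]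
  have e3 := (hGi _ isOpen_ball hsub fun z => g (f z)).1
  rw [e1] at e3
  refine e3.trans ?_
  rw [← mul_assoc]
  gcongr
  exact min_le_right _ _

/-- vertical Poincaré inequality -/
theorem vert_poinc (hf : ∀ᶠ z in 𝓝 z₀, DifferentiableAt ℂ f z)
    (hs : Function.Surjective (fderiv ℂ f z₀)) {U : Set (Cm n)} (hU : U ∈ 𝓝 z₀) :
    ∃ O ∈ 𝓝 z₀, ∃ C : ℝ≥0∞, C ≠ ∞ ∧ ∀ h d : Cm n → ℝ, (∀ z ∈ U, ContDiffAt ℝ 1 h z) →
      ContinuousOn d U → (∀ z ∈ U, 0 ≤ d z) →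
      (∀ z ∈ U, ∀ v, fderiv ℂ f z v = 0 → (fderiv ℝ h z v) ^ 2 ≤ d z * ‖v‖ ^ 2) →
      ∃ M : Cm q → ℝ, Measurable M ∧
        ∫⁻ z in O, ENNReal.ofReal ((h z - M (f z)) ^ 2) ≤ C * ∫⁻ z in U, ENNReal.ofReal (d z) := by
  obtain ⟨m, hm⟩ := Nat.exists_eq_add_of_le (le_of_surj hs)
  obtain ⟨G, y₀, R, C, hR, hC, hG0, hGc, hG, hGn, hGi⟩ := exists_box hm.symm hf hs
  have h1 : ∀ᶠ p in 𝓝 (f z₀, y₀), G p ∈ U := by
    have := hGc.tendsto
    rw [hG0] at this
    exact this hU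
  obtain ⟨ρ₁, hρ₁, hρU⟩ := Metric.eventually_nhds_iff_ball.1 h1
  set ρ := min R ρ₁ with hρ
  have hρ0 : 0 < ρ := lt_min hR hρ₁
  have hsub : ball (f z₀, y₀) ρ ⊆ ball (f z₀, y₀) R := ball_subset_ball (min_le_left _ _)
  have hsub' : ∀ p ∈ ball (f z₀, y₀) ρ, G p ∈ U := fun p hp =>
    hρU p (ball_subset_ball (min_le_right _ _) hp)
  set S := ball (f z₀) ρ with hS
  set B := ball y₀ ρ with hB
  have hSB : S ×ˢ B = ball (f z₀, y₀) ρ := ball_prod_same _ _ _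
  set K : ℝ≥0∞ := ENNReal.ofReal (4 * ρ ^ 2) * volume (ball (0 : Cm m) (2 * ρ)) *
    (volume B)⁻¹ with hK
  have hKt : K ≠ ∞ := by
    refine ENNReal.mul_ne_top (ENNReal.mul_ne_top ENNReal.ofReal_ne_top
      measure_ball_lt_top.ne) (ENNReal.inv_ne_top.2 (measure_ball_pos volume y₀ hρ0).ne')
  refine ⟨G '' ball (f z₀, y₀) ρ, hGn _ hρ0 (min_le_left _ _),
    ENNReal.ofReal C * (K * (ENNReal.ofReal (C ^ 2) * ENNReal.ofReal C)),
    ENNReal.mul_ne_top ENNReal.ofReal_ne_top (ENNReal.mul_ne_top hKt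
      (ENNReal.mul_ne_top ENNReal.ofReal_ne_top ENNReal.ofReal_ne_top)),
    fun h d hh hd hd0 hv => ?_⟩
  have hGcd : ∀ p ∈ ball (f z₀, y₀) ρ, ContDiffAt ℝ 1 G p := fun p hp => (hG p (hsub hp)).2.2.1
  have hGcont : ContinuousOn G (ball (f z₀, y₀) ρ) := fun p hp =>
    (hGcd p hp).continuousAt.continuousWithinAt
  have hHc : ContinuousOn (fun p => h (G p)) (S ×ˢ B) := by
    rw [hSB]
    intro p hp
    exact ((hh _ (hsub' p hp)).continuousAt.comp (hGcd p hp).continuousAt).continuousWithinAt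
  have hdc : ContinuousOn (fun p => C ^ 2 * d (G p)) (S ×ˢ B) := by
    rw [hSB]
    exact continuousOn_const.mul (hd.comp hGcont hsub')
  have hker : ∀ p ∈ ball (f z₀, y₀) ρ, ∀ u : Cm m, fderiv ℂ f (G p) (fderiv ℝ G p (0, u)) = 0 := by
    intro p hp u
    have e1 : HasFDerivAt f ((fderiv ℂ f (G p)).restrictScalars ℝ) (G p) :=
      (hG p (hsub hp)).2.1.hasFDerivAt.restrictScalars ℝ
    have e2 : HasFDerivAt G (fderiv ℝ G p) p :=
      ((hGcd p hp).differentiableAt (by simp)).hasFDerivAt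
    have e3 : HasFDerivAt (fun p => f (G p))
        (((fderiv ℂ f (G p)).restrictScalars ℝ).comp (fderiv ℝ G p)) p := e1.comp p e2
    have e4 : HasFDerivAt (fun p : Cm q × Cm m => f (G p))
        (ContinuousLinearMap.fst ℝ (Cm q) (Cm m)) p := by
      refine hasFDerivAt_fst.congr_of_eventuallyEq ?_
      filter_upwards [isOpen_ball.mem_nhds (hsub hp)] with p' hp'
      exact (hG p' hp').1
    have e5 := e3.unique e4
    have e6 := DFunLike.congr_fun e5 ((0 : Cm q), u)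
    simpa using e6
  obtain ⟨e, he, hpo⟩ := slice_poinc (volume : Measure (Cm m)) (volume : Measure (Cm q))
    (S := S) isOpen_ball (y₀ := y₀) hρ0 (H := fun p => h (G p)) (d := fun p => C ^ 2 * d (G p))
    hHc (fun s hs y hy => by
      have hp : (s, y) ∈ ball (f z₀, y₀) ρ := by rw [← hSB]; exact ⟨hs, hy⟩
      have e1 : ContDiffAt ℝ 1 (fun y : Cm m => (s, y)) y := by fun_prop
      have e2 : ContDiffAt ℝ 1 (fun y : Cm m => G (s, y)) y := (hGcd _ hp).comp y e1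
      exact ((hh _ (hsub' _ hp)).comp y e2).contDiffWithinAt)
    hdc (fun p hp => by
      rw [hSB] at hp
      have := hd0 _ (hsub' p hp)
      positivity)
    (fun s hs y hy u => by
      have hp : (s, y) ∈ ball (f z₀, y₀) ρ := by rw [← hSB]; exact ⟨hs, hy⟩
      have e1 : HasFDerivAt (fun y : Cm m => (s, y)) (ContinuousLinearMap.inr ℝ (Cm q) (Cm m)) y :=
        hasFDerivAt_prodMk_right s y
      have e2 : HasFDerivAt G (fderiv ℝ G (s, y)) (s, y) :=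
        ((hGcd _ hp).differentiableAt (by simp)).hasFDerivAt
      have e3 : HasFDerivAt h (fderiv ℝ h (G (s, y))) (G (s, y)) :=
        ((hh _ (hsub' _ hp)).differentiableAt (by simp)).hasFDerivAt
      have e4 : HasFDerivAt (fun y => h (G (s, y))) (((fderiv ℝ h (G (s, y))).comp
          (fderiv ℝ G (s, y))).comp (ContinuousLinearMap.inr ℝ (Cm q) (Cm m))) y :=
        (e3.comp _ e2).comp y e1
      rw [e4.fderiv]
      simp only [ContinuousLinearMap.comp_apply, ContinuousLinearMap.inr_apply]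
      refine (hv _ (hsub' _ hp) _ (hker _ hp u)).trans ?_
      have e5 : ‖fderiv ℝ G (s, y) (0, u)‖ ≤ C * ‖u‖ := by
        refine ((fderiv ℝ G (s, y)).le_opNorm _).trans ?_
        have : ‖((0 : Cm q), u)‖ = ‖u‖ := by simp [Prod.norm_def]
        rw [this]
        exact mul_le_mul_of_nonneg_right (hG _ (hsub hp)).2.2.2 (norm_nonneg _)
      have e6 := hd0 _ (hsub' _ hp)
      have e7 : ‖fderiv ℝ G (s, y) (0, u)‖ ^ 2 ≤ (C * ‖u‖) ^ 2 :=
        pow_le_pow_left₀ (norm_nonneg _) e5 2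
      calc d (G (s, y)) * ‖fderiv ℝ G (s, y) (0, u)‖ ^ 2 ≤ d (G (s, y)) * (C * ‖u‖) ^ 2 :=
            mul_le_mul_of_nonneg_left e7 e6
        _ = _ := by ring)
  set M : Cm q → ℝ := S.indicator fun s => h (G (s, e)) with hM
  have hMm : Measurable M := by
    apply meas_ind isOpen_ball
    exact hHc.comp (by fun_prop) fun s hs => ⟨hs, he⟩
  refine ⟨M, hMm, ?_⟩
  have i1 := (hGi _ isOpen_ball hsub fun z => ENNReal.ofReal ((h z - M (f z)) ^ 2)).1
  refine i1.trans ?_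
  have i2 : ∫⁻ p in ball (f z₀, y₀) ρ, ENNReal.ofReal ((h (G p) - M (f (G p))) ^ 2) =
      ∫⁻ s in S, ∫⁻ y in B, ENNReal.ofReal ((h (G (s, y)) - h (G (s, e))) ^ 2) := by
    have i3 : ∫⁻ p in ball (f z₀, y₀) ρ, ENNReal.ofReal ((h (G p) - M (f (G p))) ^ 2) =
        ∫⁻ p in ball (f z₀, y₀) ρ, ENNReal.ofReal ((h (G p) - h (G (p.1, e))) ^ 2) := by
      refine setLIntegral_congr_fun measurableSet_ball fun p hp => ?_
      have hp1 : p.1 ∈ S := by rw [← hSB] at hp; exact hp.1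
      simp only [(hG p (hsub hp)).1, hM, indicator_of_mem hp1]
    rw [i3, lint_ball_prod]
    apply ContinuousOn.aemeasurable _ measurableSet_ball
    apply ENNReal.continuous_ofReal.comp_continuousOn
    rw [← hSB]
    refine (hHc.sub (hHc.comp (f := fun p : Cm q × Cm m => (p.1, e)) (by fun_prop)
      fun p hp => ⟨hp.1, he⟩)).pow 2
  have i4 : ∫⁻ s in S, ∫⁻ y in B, ENNReal.ofReal (C ^ 2 * d (G (s, y))) =
      ENNReal.ofReal (C ^ 2) * ∫⁻ p in ball (f z₀, y₀) ρ, ENNReal.ofReal (d (G p)) := by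
    rw [← lintegral_const_mul' _ _ ENNReal.ofReal_ne_top]
    refine (lint_ball_prod (f z₀) y₀ ρ
      (u := fun p => ENNReal.ofReal (C ^ 2 * d (G p))) ?_).symm.trans ?_
    rotate_left
    · refine setLIntegral_congr_fun measurableSet_ball fun p hp => ?_
      simp only [ENNReal.ofReal_mul (sq_nonneg C)]
    · apply ContinuousOn.aemeasurable _ measurableSet_ball
      apply ENNReal.continuous_ofReal.comp_continuousOn
      rw [← hSB]
      exact hdc
  have i5 := (hGi _ isOpen_ball hsub fun z => ENNReal.ofReal (d z)).2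
  rw [i2]
  calc ENNReal.ofReal C * ∫⁻ s in S, ∫⁻ y in B,
        ENNReal.ofReal ((h (G (s, y)) - h (G (s, e))) ^ 2)
      ≤ ENNReal.ofReal C * (K * ∫⁻ s in S, ∫⁻ y in B, ENNReal.ofReal (C ^ 2 * d (G (s, y)))) := by
        gcongr
    _ = ENNReal.ofReal C * (K * (ENNReal.ofReal (C ^ 2) *
          ∫⁻ p in ball (f z₀, y₀) ρ, ENNReal.ofReal (d (G p)))) := by rw [i4]
    _ ≤ ENNReal.ofReal C * (K * (ENNReal.ofReal (C ^ 2) * (ENNReal.ofReal C *
          ∫⁻ z in G '' ball (f z₀, y₀) ρ, ENNReal.ofReal (d z)))) := by gcongr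
    _ ≤ ENNReal.ofReal C * (K * (ENNReal.ofReal (C ^ 2) * (ENNReal.ofReal C *
          ∫⁻ z in U, ENNReal.ofReal (d z)))) := by
        gcongr
        rintro _ ⟨p, hp, rfl⟩
        exact hsub' p hp
    _ = _ := by ring

end

end Vale.Agent.P284.H551
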