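import Vale.Agent.P284.H551.VN3

/-! # P284 (helper551), VN: vertical noncompactness, proofs. -/

open scoped Topology ENNReal
open Filter Set Metric MeasureTheory

noncomputable section

namespace Vale.Agent.P284.H551

open Vale.Agent.P272.K Vale.Agent.P284.H248 Vale.Agent.P284.H894 Vale.Agent.P284.H894.V

section
variable {n q : ℕ} {Γ : Type} [Group Γ] {C : Coc n Γ} {F : Γ → C.I → Cm n → Cm q} {Kk : Set Γ}
  {T : Set (Cm q)} {m : ℕ → C.I → Cm n → ℝ} {h e : ℕ → Γ → C.I → Cm n → ℝ}

/-- the translates by `Kk` are asymptotically equal on compact sets -/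
theorem near_k_Q (hT : TMap C F) (hC : VConn C F Kk T) (hS : VSeq C F T m h e)
    {γ : Γ} {a : C.I} {Q : Set (Cm n)} (hQ : IsCompact Q) (hQV : Q ⊆ C.V a)
    (hQT : ∀ z ∈ Q, F γ a z ∉ T) {k : Γ} (hk : k ∈ Kk) :
    Tendsto (fun j => ∫⁻ z' in Q, ENNReal.ofReal ((h j (k * γ) a z' - h j γ a z') ^ 2))
      atTop (𝓝 0) := by
  refine hQ.induction_on (p := fun s => Tendsto (fun j => ∫⁻ z' in s,
    ENNReal.ofReal ((h j (k * γ) a z' - h j γ a z') ^ 2)) atTop (𝓝 0)) ?_ ?_ ?_ ?_
  · simp
  · intro s t hst ht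
    exact tends_le ht fun j => lintegral_mono_set hst
  · intro s t hs ht
    have h1 := hs.add ht
    rw [add_zero] at h1
    exact tends_le h1 fun j => lintegral_union_le _ s t
  · intro z hz
    obtain ⟨O, hO, hl⟩ := near_k hT hC hS (hQV hz) (hQT z hz) hk
    exact ⟨O, mem_nhdsWithin_of_mem_nhds hO, hl⟩

/-- lower bound of the densities on compact sets -/
theorem low_Q (hS : VSeq C F T m h e)
    {γ : Γ} {a : C.I} {Q : Set (Cm n)} (hQ : IsCompact Q) (hQV : Q ⊆ C.V a)
    (hQT : ∀ z ∈ Q, F γ a z ∉ T) : ∃ c : ℝ, 0 < c ∧ ∀ j, ∀ z ∈ Q, c ≤ m j a z := by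
  refine hQ.induction_on (p := fun s => ∃ c : ℝ, 0 < c ∧ ∀ j, ∀ z ∈ s, c ≤ m j a z) ?_ ?_ ?_ ?_
  · exact ⟨1, one_pos, by simp⟩
  · rintro s t hst ⟨c, hc, h1⟩
    exact ⟨c, hc, fun j z hz => h1 j z (hst hz)⟩
  · rintro s t ⟨c, hc, h1⟩ ⟨c', hc', h2⟩
    refine ⟨min c c', lt_min hc hc', fun j z hz => ?_⟩
    rcases hz with hz | hz
    · exact (min_le_left _ _).trans (h1 j z hz)
    · exact (min_le_right _ _).trans (h2 j z hz)
  · intro z hz
    obtain ⟨U, hU, c, hc, h1⟩ := hS.m_low γ a z (hQV hz) (hQT z hz)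
    exact ⟨U, mem_nhdsWithin_of_mem_nhds hU, c, hc, h1⟩

/-- local `L²` convergence -/
theorem lim_Q (hK : Kk.Infinite) (hT : TMap C F) (hC : VConn C F Kk T) (hS : VSeq C F T m h e)
    {γ : Γ} {a : C.I} {Q : Set (Cm n)} (hQ : IsCompact Q) (hQV : Q ⊆ C.V a)
    (hQT : ∀ z ∈ Q, F γ a z ∉ T) :
    Tendsto (fun j => ∫⁻ z' in Q, ENNReal.ofReal (h j γ a z' ^ 2)) atTop (𝓝 0) := by
  obtain ⟨c, hc, hcQ⟩ := low_Q (h := h) (e := e) hS hQ hQV hQT
  obtain ⟨B, hB⟩ := hS.bdd
  set A : ℝ≥0∞ := ENNReal.ofReal c⁻¹ * ENNReal.ofReal B with hA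
  have hAt : A ≠ ∞ := ENNReal.mul_ne_top ENNReal.ofReal_ne_top ENNReal.ofReal_ne_top
  have hcont : ∀ j γ', ContinuousOn (fun z => h j γ' a z) (C.Ω a) := fun j γ' z hz =>
    (hS.smooth j γ' a z hz).continuousAt.continuousWithinAt
  have hQm : MeasurableSet Q := hQ.measurableSet
  have hsum : ∀ j (S : Finset Γ), ∑ k ∈ S, ∫⁻ z' in Q, ENNReal.ofReal (h j (k * γ) a z' ^ 2) ≤ A := by
    intro j S
    have h1 : ∀ k, ∫⁻ z' in Q, ENNReal.ofReal (h j (k * γ) a z' ^ 2) ≤
        ENNReal.ofReal c⁻¹ * ENNReal.ofReal (∫ z' in C.V a, h j (k * γ) a z' ^ 2 * m j a z') := by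
      intro k
      rw [ofReal_integral_eq_lintegral_ofReal
        (f := fun z' => h j (k * γ) a z' ^ 2 * m j a z')
        (intV (((hcont j (k * γ)).pow 2).mul (hS.m_cont j a)))]
      · rw [← lintegral_const_mul' _ _ ENNReal.ofReal_ne_top]
        refine le_trans ?_ (lintegral_mono_set hQV)
        refine setLIntegral_mono' hQm fun z hz => ?_
        rw [← ENNReal.ofReal_mul (by positivity)]
        apply ENNReal.ofReal_le_ofReal
        have h2 := hcQ j z hz
        have h3 : 1 ≤ c⁻¹ * m j a z := by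
          rw [← div_eq_inv_mul, one_le_div hc]
          exact h2
        nlinarith [sq_nonneg (h j (k * γ) a z)]
      · filter_upwards [ae_restrict_mem (V_open a).measurableSet] with z' hz'
        exact mul_nonneg (sq_nonneg _) (hS.m_nonneg j a z' (V_sub a hz'))
    calc ∑ k ∈ S, ∫⁻ z' in Q, ENNReal.ofReal (h j (k * γ) a z' ^ 2)
        ≤ ∑ k ∈ S, ENNReal.ofReal c⁻¹ *
            ENNReal.ofReal (∫ z' in C.V a, h j (k * γ) a z' ^ 2 * m j a z') :=
          Finset.sum_le_sum fun k _ => h1 k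
      _ = ENNReal.ofReal c⁻¹ *
            ENNReal.ofReal (∑ k ∈ S, ∫ z' in C.V a, h j (k * γ) a z' ^ 2 * m j a z') := by
          rw [← Finset.mul_sum, ENNReal.ofReal_sum_of_nonneg]
          intro k _
          refine setIntegral_nonneg (V_open a).measurableSet fun z' hz' => ?_
          exact mul_nonneg (sq_nonneg _) (hS.m_nonneg j a z' (V_sub a hz'))
      _ ≤ A := by
          have h2 := hB j a (S.map (mulRightEmbedding γ))
          rw [Finset.sum_map] at h2
          rw [hA]
          gcongr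
          exact h2
  rw [ENNReal.tendsto_nhds_zero]
  intro ε hε
  obtain ⟨N, hN⟩ := ENNReal.exists_nat_gt (r := (2 * A + 1) / ε)
    (ENNReal.div_ne_top (by
      refine ENNReal.add_ne_top.2 ⟨ENNReal.mul_ne_top (by norm_num) hAt, by norm_num⟩) hε.ne')
  obtain ⟨S, hSK, hScard⟩ := hK.exists_subset_card_eq N
  have hR : Tendsto (fun j => 2 * ∑ k ∈ S, ∫⁻ z' in Q,
      ENNReal.ofReal ((h j (k * γ) a z' - h j γ a z') ^ 2)) atTop (𝓝 0) := by
    apply tends_mul _ (by norm_num)
    have := tendsto_finsetSum S fun k hk => near_k_Q hT hC hS hQ hQV hQT (hSK hk)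
    simpa using this
  filter_upwards [hR.eventually (eventually_le_nhds (by norm_num : (0 : ℝ≥0∞) < 1))] with j hj
  have hm : ∀ k, AEMeasurable (fun z' => ENNReal.ofReal ((h j (k * γ) a z' - h j γ a z') ^ 2))
      (volume.restrict Q) := fun k => by
    apply ENNReal.measurable_ofReal.comp_aemeasurable
    exact ContinuousOn.aemeasurable ((((hcont j (k * γ)).sub (hcont j γ)).pow 2).mono
      (hQV.trans (V_sub a))) hQm
  have h1 : (N : ℝ≥0∞) * ∫⁻ z' in Q, ENNReal.ofReal (h j γ a z' ^ 2) ≤ 2 * A + 1 := by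
    calc (N : ℝ≥0∞) * ∫⁻ z' in Q, ENNReal.ofReal (h j γ a z' ^ 2)
        = ∑ k ∈ S, ∫⁻ z' in Q, ENNReal.ofReal (h j γ a z' ^ 2) := by
          rw [Finset.sum_const, hScard, nsmul_eq_mul]
      _ ≤ ∑ k ∈ S, (2 * (∫⁻ z' in Q, ENNReal.ofReal (h j (k * γ) a z' ^ 2)) +
            2 * ∫⁻ z' in Q, ENNReal.ofReal ((h j (k * γ) a z' - h j γ a z') ^ 2)) := by
          refine Finset.sum_le_sum fun k _ => ?_
          rw [← lintegral_const_mul' _ _ (by norm_num), ← lintegral_const_mul' _ _ (by norm_num),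
            ← lintegral_add_right' _ ((hm k).const_mul _)]
          refine lintegral_mono fun z' => ?_
          have h2 := ofReal_sq_sub_le (h j γ a z') 0 (h j (k * γ) a z')
          rw [sub_zero, zero_sub, neg_sq, show (h j γ a z' - h j (k * γ) a z') ^ 2 =
            (h j (k * γ) a z' - h j γ a z') ^ 2 by ring] at h2
          rw [add_comm]
          exact h2
      _ = 2 * (∑ k ∈ S, ∫⁻ z' in Q, ENNReal.ofReal (h j (k * γ) a z' ^ 2)) +
            2 * ∑ k ∈ S, ∫⁻ z' in Q, ENNReal.ofReal ((h j (k * γ) a z' - h j γ a z') ^ 2) := by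
          rw [Finset.sum_add_distrib, Finset.mul_sum, Finset.mul_sum]
      _ ≤ 2 * A + 1 := by
          gcongr
          exact hsum j S
  have hε2 : 2 * A + 1 ≤ N * ε := by
    by_cases hεt : ε = ∞
    · rw [hεt, ENNReal.mul_top]
      · exact le_top
      · intro h0
        rw [h0] at hN
        exact not_lt_zero hN
    · have := hN.le
      rwa [ENNReal.div_le_iff hε.ne' hεt] at this
  have hN0 : (N : ℝ≥0∞) ≠ 0 := by
    intro h0
    rw [h0] at hN
    exact not_lt_zero hN
  have hNt : (N : ℝ≥0∞) ≠ ∞ := ENNReal.natCast_ne_top N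
  exact (ENNReal.mul_le_mul_iff_right hN0 hNt).1 (h1.trans hε2)

end

/-- **VN1** -/
theorem vn1Stmt : VN1Stmt := by
  intro n q Γ _ C F Kk T m h e hK hT hC hS γ a Q hQ hQV hQT
  have h1 := lim_Q hK hT hC hS hQ hQV hQT
  have h2 : ∀ j, ∫ z in Q, h j γ a z ^ 2 =
      (∫⁻ z' in Q, ENNReal.ofReal (h j γ a z' ^ 2)).toReal := by
    intro j
    apply integral_eq_lintegral_of_nonneg_ae (Eventually.of_forall fun z => sq_nonneg _)
    have hc : ContinuousOn (fun z => h j γ a z) (C.Ω a) := fun z hz =>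
      (hS.smooth j γ a z hz).continuousAt.continuousWithinAt
    exact ((hc.pow 2).mono (hQV.trans (V_sub a))).aestronglyMeasurable hQ.measurableSet
  simp only [h2]
  have h3 := (ENNReal.tendsto_toReal ENNReal.zero_ne_top).comp h1
  rw [ENNReal.toReal_zero] at h3
  exact h3

/-- **VN2** -/
theorem vn2Stmt : VN2Stmt := by
  intro n q Γ _ C F Kk T m h e hK hT hC hS γ a φ hφ
  obtain ⟨A, hA⟩ := (isCompact_closedBall (C.c a) (3 * C.r a)).exists_bound_of_continuousOn hφ
  obtain ⟨M, hM⟩ := hS.m_up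
  obtain ⟨B, hB⟩ := hS.bdd
  have hVm : MeasurableSet (C.V a) := (V_open a).measurableSet
  have hVc : C.V a ⊆ closedBall (C.c a) (3 * C.r a) := ball_subset_closedBall
  have hcV : C.c a ∈ C.V a := mem_ball_self (by linarith [C.r_pos a])
  have hA0 : 0 ≤ A := (norm_nonneg _).trans (hA _ (hVc hcV))
  have hM0 : 0 ≤ M := (hS.m_nonneg 0 a _ (V_sub a hcV)).trans (hM 0 a _ hcV)
  have hB0 : 0 ≤ B := by simpa using hB 0 a ∅
  have hcont : ∀ j, ContinuousOn (fun z => h j γ a z) (C.Ω a) := fun j z hz =>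
    (hS.smooth j γ a z hz).continuousAt.continuousWithinAt
  have hVt : volume (C.V a) ≠ ∞ := measure_ball_lt_top.ne
  set v : ℝ := (volume (C.V a)).toReal with hv
  have hv0 : 0 ≤ v := ENNReal.toReal_nonneg
  rw [Metric.tendsto_atTop]
  intro ε hε
  set η' : ℝ := ε / (4 * (v + 1)) with hη'
  have hη'0 : 0 < η' := by positivity
  set η : ℝ := ε / (4 * (B + 1)) with hη
  have hη0 : 0 < η := by positivity
  set δ : ℝ := ε / (4 * (A ^ 2 * M / η + 1)) with hδ
  have hδ0 : 0 < δ := by positivity
  -- the compact set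
  set U : Set (Cm n) := {z | z ∈ C.V a ∧ F γ a z ∉ T} with hU
  have hUo : IsOpen U := by
    have h1 : ContinuousOn (F γ a) (C.V a) := (hT.holo γ a).continuousOn.mono (V_sub a)
    exact h1.isOpen_inter_preimage (V_open a) hC.closed.isOpen_compl
  have hUV : U ⊆ C.V a := fun z hz => hz.1
  obtain ⟨Q, hQU, hQ, hQd⟩ := hUo.measurableSet.exists_isCompact_sdiff_lt
    ((measure_mono hUV).trans_lt hVt.lt_top).ne (ENNReal.ofReal_pos.2 hδ0).ne' (μ := volume)
  have hQV : Q ⊆ C.V a := hQU.trans hUV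
  have hQm : MeasurableSet Q := hQ.measurableSet
  have hDv : volume (C.V a \ Q) ≤ ENNReal.ofReal δ := by
    calc volume (C.V a \ Q) ≤ volume ({z | z ∈ C.V a ∧ F γ a z ∈ T} ∪ (U \ Q)) := by
          refine measure_mono fun z hz => ?_
          by_cases h1 : F γ a z ∈ T
          · exact Or.inl ⟨hz.1, h1⟩
          · exact Or.inr ⟨⟨hz.1, h1⟩, hz.2⟩
      _ ≤ volume {z | z ∈ C.V a ∧ F γ a z ∈ T} + volume (U \ Q) := measure_union_le _ _
      _ ≤ _ := by rw [hC.null γ a, zero_add]; exact hQd.le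
  have hDv' : (volume (C.V a \ Q)).toReal ≤ δ := by
    have := ENNReal.toReal_mono ENNReal.ofReal_ne_top hDv
    rwa [ENNReal.toReal_ofReal hδ0.le] at this
  have hQv' : (volume Q).toReal ≤ v := ENNReal.toReal_mono hVt (measure_mono hQV)
  set K : ℝ := A ^ 2 * M ^ 2 / η' with hK'
  have hK0 : 0 ≤ K := by positivity
  have hlim := vn1Stmt n q Γ C F Kk T m h e hK hT hC hS γ a Q hQ hQV fun z hz => (hQU hz).2
  have hlim' := hlim.const_mul K
  rw [mul_zero] at hlim'
  obtain ⟨N, hN⟩ := (Metric.tendsto_atTop.1 hlim') (ε / 4) (by positivity)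
  refine ⟨N, fun j hj => ?_⟩
  have hNj := hN j hj
  rw [Real.dist_eq, sub_zero] at hNj
  have hNj' := (le_abs_self _).trans hNj.le
  rw [Real.dist_eq, sub_zero]
  -- integrability
  have hφV : ContinuousOn φ (closedBall (C.c a) (3 * C.r a)) := hφ
  have cm : ContinuousOn (m j a) (closedBall (C.c a) (3 * C.r a)) :=
    (hS.m_cont j a).mono (cball_sub a)
  have ch : ContinuousOn (fun z => h j γ a z) (closedBall (C.c a) (3 * C.r a)) :=
    (hcont j).mono (cball_sub a)
  have iV : ∀ {f : Cm n → ℝ}, ContinuousOn f (closedBall (C.c a) (3 * C.r a)) →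
      IntegrableOn f (C.V a) := fun hf =>
    (hf.integrableOn_compact (isCompact_closedBall _ _)).mono_set hVc
  have i1 : IntegrableOn (fun z => h j γ a z * φ z * m j a z) (C.V a) := iV ((ch.mul hφV).mul cm)
  have i2 : IntegrableOn (fun z => h j γ a z ^ 2 * m j a z) (C.V a) := iV ((ch.pow 2).mul cm)
  have i3 : IntegrableOn (fun z => h j γ a z ^ 2) (C.V a) := iV (ch.pow 2)
  have hsplit : ∫ z in C.V a, h j γ a z * φ z * m j a z =
      (∫ z in Q, h j γ a z * φ z * m j a z) + ∫ z in C.V a \ Q, h j γ a z * φ z * m j a z := by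
    rw [← setIntegral_union disjoint_sdiff_self_right (hVm.diff hQm) (i1.mono_set hQV)
      (i1.mono_set sdiff_subset), union_sdiff_cancel hQV]
  have b1 : |∫ z in Q, h j γ a z * φ z * m j a z| ≤
      (η' * (volume Q).toReal + K * ∫ z in Q, h j γ a z ^ 2) / 2 := by
    have hQt : volume Q ≠ ∞ := hQ.measure_lt_top.ne
    calc |∫ z in Q, h j γ a z * φ z * m j a z| ≤ ∫ z in Q, |h j γ a z * φ z * m j a z| :=
          abs_integral_le_integral_abs
      _ ≤ ∫ z in Q, (η' + K * h j γ a z ^ 2) / 2 := by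
          refine setIntegral_mono_on (i1.mono_set hQV).abs ?_ hQm fun z hz => ?_
          · apply Integrable.div_const
            apply Integrable.add
            · exact integrableOn_const hQt
            · exact (i3.mono_set hQV).const_mul _
          · have h1 : |φ z| ≤ A := hA z (hVc (hQV hz))
            have h2 : 0 ≤ m j a z := hS.m_nonneg j a z (V_sub a (hQV hz))
            have h3 : m j a z ≤ M := hM j a z (hQV hz)
            rw [abs_mul, abs_mul, abs_of_nonneg h2]
            have h4 : |h j γ a z| * |φ z| * m j a z ≤ |h j γ a z| * A * M := by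
              gcongr
            refine h4.trans ?_
            have h5 : 0 ≤ (η' - |h j γ a z| * (A * M)) ^ 2 := sq_nonneg _
            have h6 : η' * (2 * (|h j γ a z| * A * M)) ≤
                η' * (η' + K * h j γ a z ^ 2) := by
              have h7 : η' * K = A ^ 2 * M ^ 2 := by rw [hK']; field_simp
              have h8 : |h j γ a z| ^ 2 = h j γ a z ^ 2 := sq_abs _
              calc η' * (2 * (|h j γ a z| * A * M)) ≤
                  η' ^ 2 + |h j γ a z| ^ 2 * (A ^ 2 * M ^ 2) := by nlinarith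
                _ = η' ^ 2 + (η' * K) * h j γ a z ^ 2 := by rw [h7, h8]; ring
                _ = _ := by ring
            have h9 := le_of_mul_le_mul_left h6 hη'0
            linarith
      _ = _ := by
          have k1 : Integrable (fun _ : Cm n => η') (volume.restrict Q) := integrableOn_const hQt
          have k2 : Integrable (fun z => K * h j γ a z ^ 2) (volume.restrict Q) :=
            (i3.mono_set hQV).const_mul _
          rw [integral_div, integral_add k1 k2, integral_const_mul, setIntegral_const]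
          simp only [smul_eq_mul, Measure.real]
          ring
  have b2 : |∫ z in C.V a \ Q, h j γ a z * φ z * m j a z| ≤
      (η * B + A ^ 2 * M / η * (volume (C.V a \ Q)).toReal) / 2 := by
    have hDt : volume (C.V a \ Q) ≠ ∞ := ((measure_mono sdiff_subset).trans_lt hVt.lt_top).ne
    calc |∫ z in C.V a \ Q, h j γ a z * φ z * m j a z|
        ≤ ∫ z in C.V a \ Q, |h j γ a z * φ z * m j a z| := abs_integral_le_integral_abs
      _ ≤ ∫ z in C.V a \ Q, (η * (h j γ a z ^ 2 * m j a z) + A ^ 2 * M / η) / 2 := by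
          refine setIntegral_mono_on (i1.mono_set sdiff_subset).abs ?_ (hVm.diff hQm)
            fun z hz => ?_
          · apply Integrable.div_const
            apply Integrable.add
            · exact (i2.mono_set sdiff_subset).const_mul _
            · exact integrableOn_const hDt
          · have h1 : |φ z| ≤ A := hA z (hVc hz.1)
            have h2 : 0 ≤ m j a z := hS.m_nonneg j a z (V_sub a hz.1)
            have h3 : m j a z ≤ M := hM j a z hz.1
            rw [abs_mul, abs_mul, abs_of_nonneg h2]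
            have h4 : |h j γ a z| * |φ z| * m j a z ≤ |h j γ a z| * A * m j a z := by
              gcongr
            refine h4.trans ?_
            have h8 : |h j γ a z| ^ 2 = h j γ a z ^ 2 := sq_abs _
            have h5 : 0 ≤ (η * |h j γ a z| - A) ^ 2 * m j a z := by positivity
            have h6 : η * (2 * (|h j γ a z| * A * m j a z)) ≤
                η * (η * (h j γ a z ^ 2 * m j a z) + A ^ 2 * M / η) := by
              have h7 : η * (A ^ 2 * M / η) = A ^ 2 * M := by field_simp
              have h10 : A ^ 2 * m j a z ≤ A ^ 2 * M := by gcongr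
              calc η * (2 * (|h j γ a z| * A * m j a z))
                  ≤ η ^ 2 * (|h j γ a z| ^ 2 * m j a z) + A ^ 2 * m j a z := by nlinarith
                _ ≤ η ^ 2 * (h j γ a z ^ 2 * m j a z) + A ^ 2 * M := by rw [h8]; gcongr
                _ = _ := by rw [mul_add, h7]; ring
            have h9 := le_of_mul_le_mul_left h6 hη0
            linarith
      _ = ((η * ∫ z in C.V a \ Q, h j γ a z ^ 2 * m j a z) +
            A ^ 2 * M / η * (volume (C.V a \ Q)).toReal) / 2 := by
          rw [integral_div, integral_add ((i2.mono_set sdiff_subset).const_mul _)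
            (integrableOn_const hDt), integral_const_mul, setIntegral_const]
          simp only [smul_eq_mul, Measure.real]
          ring
      _ ≤ _ := by
          have h1 := hB j a {γ}
          rw [Finset.sum_singleton] at h1
          have h2 : ∫ z in C.V a \ Q, h j γ a z ^ 2 * m j a z ≤
              ∫ z in C.V a, h j γ a z ^ 2 * m j a z := by
            refine setIntegral_mono_set i2 ?_ (LE.le.eventuallyLE sdiff_subset)
            filter_upwards [ae_restrict_mem hVm] with z hz
            exact mul_nonneg (sq_nonneg _) (hS.m_nonneg j a z (V_sub a hz))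
          gcongr
          exact h2.trans h1
  rw [hsplit]
  have c1 : η' * (volume Q).toReal ≤ ε / 4 := by
    calc η' * (volume Q).toReal ≤ η' * (v + 1) := by gcongr; linarith
      _ = ε / 4 := by rw [hη']; field_simp
  have c2 : η * B ≤ ε / 4 := by
    calc η * B ≤ η * (B + 1) := by gcongr; linarith
      _ = ε / 4 := by rw [hη]; field_simp
  have c3 : A ^ 2 * M / η * (volume (C.V a \ Q)).toReal ≤ ε / 4 := by
    have h1 : 0 ≤ A ^ 2 * M / η := by positivity
    calc A ^ 2 * M / η * (volume (C.V a \ Q)).toReal ≤ (A ^ 2 * M / η + 1) * δ := by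
          gcongr
          linarith
      _ = ε / 4 := by rw [hδ]; field_simp
  have := abs_add_le (∫ z in Q, h j γ a z * φ z * m j a z)
    (∫ z in C.V a \ Q, h j γ a z * φ z * m j a z)
  linarith

end Vale.Agent.P284.H551
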