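import Vale.Agent.P284.H894.V.Spec

/-!
# P284 (helper551): vertical noncompactness (statements)

`F γ a : Cm n → Cm q` is a holomorphic map on the covering (coordinates of the torus map), `Kk` an infinite
set of elements of the group which preserve `F`, `T` a closed set of values (critical values and more) such
that the fibres over the other values are regular and connected. A sequence of test functions which is
bounded in `L²` and whose vertical energy tends to `0` tends to `0` in `L²` on the compact sets off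
`F⁻¹(T)`, and weakly.
-/

open scoped Manifold ContDiff Topology Pointwise ComplexConjugate ComplexOrder
open Filter Set Metric MeasureTheory

noncomputable section

namespace Vale.Agent.P284.H551

open Vale.Agent.P272.K Vale.Agent.P284.H248 Vale.Agent.P284.H894 Vale.Agent.P284.H894.V

section
variable {n q : ℕ} {Γ : Type} [Group Γ]

/-- a holomorphic map on the covering -/
structure TMap (C : Coc n Γ) (F : Γ → C.I → Cm n → Cm q) : Prop where
  holo : ∀ γ a, DifferentiableOn ℂ (F γ a) (C.Ω a)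
  compat : ∀ γ a b, ∀ z ∈ C.O a b, F γ a z = F (γ * C.κ a b z) b (C.T a b z)

/-- The fibres over the values off the closed set `T` are regular and connected (`conn`: a property of
the points of the fibre which is locally constant along the fibre is invariant under `Kk`). -/
structure VConn (C : Coc n Γ) (F : Γ → C.I → Cm n → Cm q) (Kk : Set Γ) (T : Set (Cm q)) : Prop where
  closed : IsClosed T
  null : ∀ γ a, volume {z | z ∈ C.V a ∧ F γ a z ∈ T} = 0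
  reg : ∀ γ a, ∀ z ∈ C.V a, F γ a z ∉ T → Function.Surjective (fderiv ℂ (F γ a) z)
  ker : ∀ k ∈ Kk, ∀ γ a, ∀ z ∈ C.V a, F (k * γ) a z = F γ a z
  conn : ∀ τ : Cm q, τ ∉ T → ∀ Q : Γ → C.I → Cm n → Prop,
    (∀ γ a b z, z ∈ C.O a b → z ∈ C.V a → C.T a b z ∈ C.V b → F γ a z = τ →
      Q γ a z → Q (γ * C.κ a b z) b (C.T a b z)) →
    (∀ γ a z, z ∈ C.V a → F γ a z = τ → ∃ N ∈ 𝓝 z, ∀ z' ∈ N, F γ a z' = τ →
      (Q γ a z ↔ Q γ a z')) →
    ∀ γ a z, z ∈ C.V a → F γ a z = τ → Q γ a z → ∀ k ∈ Kk, Q (k * γ) a z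

/-- The sequence `h` of functions on the covering is bounded in `L²` for the densities `m j`, and its
vertical energy tends to `0`: `e j` bounds the square of the vertical derivative, up to constants which
are locally bounded off `F⁻¹(T)`. -/
structure VSeq (C : Coc n Γ) (F : Γ → C.I → Cm n → Cm q) (T : Set (Cm q))
    (m : ℕ → C.I → Cm n → ℝ) (h e : ℕ → Γ → C.I → Cm n → ℝ) : Prop where
  smooth : ∀ j γ a, ∀ z ∈ C.Ω a, ContDiffAt ℝ ∞ (h j γ a) z
  compat : ∀ j γ a b, ∀ z ∈ C.O a b, h j γ a z = h j (γ * C.κ a b z) b (C.T a b z)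
  m_cont : ∀ j a, ContinuousOn (m j a) (C.Ω a)
  m_nonneg : ∀ j a, ∀ z ∈ C.Ω a, 0 ≤ m j a z
  m_low : ∀ γ a, ∀ z ∈ C.V a, F γ a z ∉ T → ∃ U ∈ 𝓝 z, ∃ c : ℝ, 0 < c ∧ ∀ j, ∀ z' ∈ U, c ≤ m j a z'
  m_up : ∃ M : ℝ, ∀ j a, ∀ z ∈ C.V a, m j a z ≤ M
  bdd : ∃ B : ℝ, ∀ j a (S : Finset Γ), ∑ γ ∈ S, ∫ z in C.V a, h j γ a z ^ 2 * m j a z ≤ B
  e_cont : ∀ j γ a, ContinuousOn (e j γ a) (C.Ω a)
  e_nonneg : ∀ j γ a, ∀ z ∈ C.Ω a, 0 ≤ e j γ a z
  e_le : ∀ γ a, ∀ z ∈ C.V a, F γ a z ∉ T → ∃ U ∈ 𝓝 z, ∃ c : ℝ, ∀ j, ∀ z' ∈ U, ∀ v : Cm n,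
    fderiv ℂ (F γ a) z' v = 0 → (fderiv ℝ (h j γ a) z' v) ^ 2 ≤ c * e j γ a z' * ‖v‖ ^ 2
  e_lim : ∀ γ a, Tendsto (fun j => ∫ z in C.V a, e j γ a z) atTop (𝓝 0)

end

/-- **VN1**: local `L²` convergence off `F⁻¹(T)`. -/
def VN1Stmt : Prop :=
  ∀ (n q : ℕ) (Γ : Type) [Group Γ] (C : Coc n Γ) (F : Γ → C.I → Cm n → Cm q) (Kk : Set Γ)
    (T : Set (Cm q)) (m : ℕ → C.I → Cm n → ℝ) (h e : ℕ → Γ → C.I → Cm n → ℝ),
    Kk.Infinite → TMap C F → VConn C F Kk T → VSeq C F T m h e →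
    ∀ γ a (Q : Set (Cm n)), IsCompact Q → Q ⊆ C.V a → (∀ z ∈ Q, F γ a z ∉ T) →
      Tendsto (fun j => ∫ z in Q, h j γ a z ^ 2) atTop (𝓝 0)

/-- **VN2**: weak convergence. -/
def VN2Stmt : Prop :=
  ∀ (n q : ℕ) (Γ : Type) [Group Γ] (C : Coc n Γ) (F : Γ → C.I → Cm n → Cm q) (Kk : Set Γ)
    (T : Set (Cm q)) (m : ℕ → C.I → Cm n → ℝ) (h e : ℕ → Γ → C.I → Cm n → ℝ),
    Kk.Infinite → TMap C F → VConn C F Kk T → VSeq C F T m h e →
    ∀ γ a (φ : Cm n → ℝ), ContinuousOn φ (closedBall (C.c a) (3 * C.r a)) →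
      Tendsto (fun j => ∫ z in C.V a, h j γ a z * φ z * m j a z) atTop (𝓝 0)

end Vale.Agent.P284.H551
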